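import Vale.Agent.P218B.Lsp

/-!
# P218B: the height on the cylindrical ends
-/

noncomputable section

open Set Filter Topology

namespace Vale.Agent.P218B

open Vale.Agent.P218I Vale.Agent.P218I.GD
open Vale.Agent.P218T hiding E3 Per
open Vale.Agent.P218L (pN pH)
open Vale.Agent.P218W (XE)

namespace Cyd

theorem j2_c : ∃ C, 0 ≤ C ∧ ∀ (a Z : ℝ) (c : ℂ) (y : ℝ × ℝ), 1 ≤ y.1 → y.1 ≤ Z →
    J2 (fun p : ℝ × ℝ => (P218I.cut a p.1 * (p.1 ^ 2 - 2)) • c) y (C * (‖c‖ * Z ^ 2))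
      (C * (‖c‖ * Z ^ 2)) (C * (‖c‖ * Z ^ 2)) := by
  obtain ⟨C, C1, hC⟩ := j2_cut
  refine ⟨48 * C, by linarith, fun a Z c y h1 h2 => ?_⟩
  have e : ‖y.1‖ = y.1 := Real.norm_of_nonneg (by linarith)
  have k : J2 (fun z : ℝ => z * z - 2) y.1 (3 * Z ^ 2) (3 * Z ^ 2) (3 * Z ^ 2) :=
    (((J2.id y.1).mul (J2.id y.1)).sub (J2.const 2 y.1)).mono (by rw [e]; simp; nlinarith)
      (by rw [e]; nlinarith) (by nlinarith)
  have := ((((hC a y.1).mono C1 le_rfl le_rfl).smul' k).smul'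
    ((J2.const c y.1).mono le_rfl (norm_nonneg _) (norm_nonneg _))).mono' (b := 48 * C * (‖c‖ * Z ^ 2))
    (le_of_eq (by ring))
  simpa only [sq, smul_eq_mul, P218I.cut] using j2_fst this

theorem j2_s : ∃ C, 0 ≤ C ∧ ∀ (l : ℝ) (y : ℝ × ℝ), 1 ≤ l →
    J2 (fun p : ℝ × ℝ => P218I.cut 1 (p.1 / l)) y C C C := by
  obtain ⟨C, C1, hC⟩ := j2_cut
  refine ⟨C, by linarith, fun l y hl => ?_⟩
  have l1 : ‖l⁻¹‖ ≤ 1 := by
    rw [Real.norm_of_nonneg (by positivity)]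
    exact inv_le_one_of_one_le₀ hl
  have := (hC 1 _).comp (f := fun z => z * l⁻¹) (((J2.id y.1).mul (J2.const l⁻¹ y.1)).mono le_rfl
    (b' := 1) (c' := 0) (by simpa using l1) (by simp))
  simpa only [div_eq_mul_inv, P218I.cut] using j2_fst (this.mono C1 (by simp) (by simp))

theorem j2_VS {f : ℝ × ℝ → ℝ} (h : Decays f) {η : ℝ} (η0 : 0 < η) :
    ∀ᶠ l in atTop, ∀ y : ℝ × ℝ, l ≤ y.1 → J2 (fun p => VS f p - 2) y η η η := by
  obtain ⟨R, hR⟩ := P218B.Decays.small h (ε := min 1 (η / 16)) (by positivity)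
  filter_upwards [eventually_ge_atTop R] with l hl y hy
  have k := hR y (hl.trans hy)
  have s : √2 ≤ 3 / 2 := Real.sqrt_le_iff.2 (by norm_num)
  have k' : J2 (fun p => f p + 2 * √2) y 4 4 4 := ((k.mono' (min_le_left _ _)).add
    (J2.const _ y)).mono (by rw [Real.norm_of_nonneg (by positivity)]; linarith) (by norm_num)
    (by norm_num)
  have := (((k.mono' (min_le_right _ _)).smul' k').mono' (b := η) (by linarith)).lin
    Complex.ofRealCLM Complex.ofRealCLM_norm.le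
  rw [one_mul] at this
  refine this.congr (.of_forall fun p => ?_)
  have e : (√2 + f p) ^ 2 - 2 = f p * (f p + 2 * √2) := by
    linear_combination Real.sq_sqrt zero_le_two
  simp only [VS, smul_eq_mul, ← e, Complex.ofRealCLM_apply]
  push_cast
  rfl

variable {M : Mod} {k : ℕ} {G : GD M k} {Z : Fin M.n₁ → ℝ}

/-- the difference between the squared radius and that of the shrinker -/
def uf (z₃ : ℝ) (U : G.XX Z) (c : Fin M.n₁ → ℂ) (j : Fin M.n₁) (p : ℝ × ℝ) : ℂ :=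
  (U.2.1.1 j).1 0 p + (P218I.cut (G.ρ + 6) p.1 * (p.1 ^ 2 - 2)) • c j
    - P218I.cut 1 (p.1 / z₃) • (VS (M.f j) p - 2)

theorem Vt_eq (z₃ : ℝ) (U : G.XX Z) (c : Fin M.n₁ → ℂ) (j : Fin M.n₁) (p : ℝ × ℝ) :
    Vt z₃ (U, bs c 1) j p 0 = VS (M.f j) p + uf z₃ U c j p := by
  simp [Vt, Vj, P218N.rj, bs, zt, P218W.jet, bt, uf]
  ring

theorem DR_eq (z₃ : ℝ) (U : G.XX Z) (c : Fin M.n₁ → ℂ) (j : Fin M.n₁) : DR z₃ U c (.inl j) =
    fun p => √(VS (M.f j) p + uf z₃ U c j p).re - (√2 + M.f j p) :=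
  funext fun p => by rw [← Vt_eq]; rfl

theorem slope {V u : ℝ × ℝ → ℂ} {c : ℂ} {y : ℝ × ℝ} (hu : DifferentiableAt ℝ u y)
    (e : V =ᶠ[𝓝 y] fun p => 2 + c * (p.1 ^ 2 - 2) + u p) (h : 1 ≤ (V y).re) :
    |fderiv ℝ (fun p => √(V p).re - √2) y (1, 0)| ≤ ‖c‖ * |y.1| + ‖fderiv ℝ u y (1, 0)‖ / 2 := by
  have d : HasDerivAt (fun z : ℝ => 2 + c * ((z : ℂ) ^ 2 - 2)) (2 * c * y.1) y.1 := by
    simpa [mul_left_comm, mul_assoc] using ((((hasDerivAt_id y.1).ofReal_comp.pow 2).sub_const 2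
      ).const_mul c).const_add 2
  have d1 := ((d.hasFDerivAt.comp y hasFDerivAt_fst).add hu.hasFDerivAt).congr_of_eventuallyEq e
  have d2 := ((Complex.reCLM.hasFDerivAt.comp y d1).sqrt
    (show (V y).re ≠ 0 by linarith)).sub_const √2
  have s : 1 ≤ √(V y).re := Real.one_le_sqrt.2 h
  have b : |(2 * c * y.1 + fderiv ℝ u y (1, 0)).re| ≤ 2 * (‖c‖ * |y.1|) + ‖fderiv ℝ u y (1, 0)‖ :=
    (Complex.abs_re_le_norm _).trans ((norm_add_le _ _).trans_eq (by simp [mul_assoc]))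
  rw [show fderiv ℝ (fun p => √(V p).re - √2) y (1, 0) = (2 * c * y.1 + fderiv ℝ u y (1, 0)).re
    / (2 * √(V y).re) from (congrArg (· (1, 0)) d2.fderiv).trans (by simp [div_eq_inv_mul, mul_add]),
    abs_div, abs_of_pos (a := 2 * _) (by linarith), div_le_iff₀ (by linarith)]
  nlinarith [abs_nonneg (2 * c * y.1 + fderiv ℝ u y (1, 0)).re]

end Cyd

open Cyd

theorem cyn (fj : FJ) (sq : SQ) : CYN := fun M g => ⟨0, fun k G _ ok ε ε0 => by
  obtain ⟨A, A0, hA⟩ := fj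
  obtain ⟨ε₀, B, e0, B0, hB⟩ := sq M g
  obtain ⟨C, C0, hC⟩ := j2_c
  obtain ⟨D, D0, hD⟩ := j2_s
  obtain ⟨η, η0, η1, η2⟩ : ∃ η, 0 < η ∧ η ≤ ε₀ ∧ B * η ≤ ε := ⟨min ε₀ (ε / (B + 1)), by positivity,
    min_le_left _ _, (mul_le_mul_of_nonneg_left (min_le_right _ _) B0).trans (by
      rw [← mul_div_assoc, div_le_iff₀ (by positivity)]; nlinarith)⟩
  obtain ⟨δ, δ0, δ1, δ2⟩ : ∃ δ, 0 < δ ∧ (1 + A) * δ ≤ 1 / 2 ∧ (A + C) * δ ≤ η / 2 := by
    refine ⟨min (1 / 2) (η / 2) / (1 + A + C), by positivity, ?_, ?_⟩ <;>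
      rw [← mul_div_assoc, div_le_iff₀ (by positivity)]
    · nlinarith [min_le_left (1 / 2) (η / 2)]
    · nlinarith [min_le_right (1 / 2) (η / 2)]
  have r1 := g.one.1
  have r2 := ok.ld.lo
  have r3 := ok.ld.hi
  refine ⟨δ, δ0, ?_⟩
  filter_upwards [eventually_ge_atTop 1, eventually_all.2 fun j =>
    j2_VS (g.ended.cyl j) (η := η / (8 * D + 1)) (by positivity)] with z₃ z1 hV
  filter_upwards [eventually_gt_atTop (2 * z₃ + 2), eventually_gt_atTop (G.ρ + 9)]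
    with Z Z1 Z2 U c j hc hv y y1 y2
  obtain ⟨a1, a2, -⟩ := hA G.z₀ Z (c j) (U.2.1.1 j) (by linarith) (by nlinarith) y (by linarith) y2
  have a3 := mul_le_mul_of_nonneg_left hv A0
  have t3 : J2 (fun p : ℝ × ℝ => P218I.cut 1 (p.1 / z₃) • (VS (M.f j) p - 2)) y (η / 2) (η / 2)
      (η / 2) := by
    rcases lt_or_ge y.1 z₃ with h | h
    · refine J2.zero' ((continuous_fst.tendsto y).eventually (gt_mem_nhds h) |>.mono
        fun p hp => ?_) (by positivity)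
      simp [P218I.cut_zero ((div_le_one (by linarith)).2 hp.le)]
    · refine ((hD z₃ y z1).smul' (hV j y h)).mono' ?_
      rw [← mul_div_assoc, div_le_iff₀ (by positivity)]
      nlinarith
  have t : J2 (uf z₃ U c j) y η η η := (((a1.mono' a3).add ((hC (G.ρ + 6) Z (c j) y (by linarith)
    (by linarith)).mono' (mul_le_mul_of_nonneg_left hc C0))).sub t3).mono' (by linarith)
  obtain ⟨b1, b2⟩ := hB j _ y η (by linarith) η1 t
  rw [Vt_eq, DR_eq]
  refine ⟨by linarith, b2.mono' η2, fun y3 => ?_⟩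
  have y0 : 0 < y.1 := by linarith
  rw [show (fun p => M.f j p + (√(VS (M.f j) p + uf z₃ U c j p).re - (√2 + M.f j p))) =
    fun p => √(VS (M.f j) p + uf z₃ U c j p).re - √2 from funext fun p => by ring]
  refine (slope (c := c j) (a1.cd.differentiableAt two_ne_zero) ?_ b1).trans ?_
  · filter_upwards [(continuous_fst.tendsto y).eventually
      (lt_mem_nhds (show max (2 * z₃) (G.ρ + 7) < y.1 from max_lt (by linarith) (by linarith)))]
      with p hp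
    rw [max_lt_iff] at hp
    simp [uf, P218I.cut_one (a := 1) (z := p.1 / z₃) ((le_div_iff₀ (by linarith)).2 (by linarith)),
      P218I.cut_one (a := G.ρ + 6) (z := p.1) (by linarith)]
    ring
  · rw [le_div_iff₀ y0] at a2
    rw [abs_of_pos y0, le_div_iff₀ (by linarith)]
    have n1 := mul_le_mul_of_nonneg_left (show y.1 * Z ≤ Z ^ 2 by nlinarith) (norm_nonneg (c j))
    have n2 := mul_le_mul_of_nonneg_left (show Z ≤ 2 * y.1 by linarith)
      (norm_nonneg (fderiv ℝ ((U.2.1.1 j).1 0) y (1, 0)))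
    nlinarith⟩

theorem cyh (fj : FJ) (sq : SQ) : CYH := fun M g => ⟨0, fun k G _ ok R => by
  obtain ⟨A, A0, hA⟩ := fj
  obtain ⟨ε₀, B, e0, B0, hB⟩ := sq M g
  obtain ⟨C, C0, hC⟩ := j2_c
  obtain ⟨D, hD⟩ : ∃ D, D = A * |R| ^ 5 + C * R ^ 2 := ⟨_, rfl⟩
  have D0 : 0 ≤ D := hD ▸ by positivity
  have r1 := g.one.1
  have r2 := ok.ld.lo
  have r3 := ok.ld.hi
  refine ⟨ε₀ / (D + 1), by positivity, B * D, by positivity, fun z₃ _ => ?_⟩
  filter_upwards [eventually_gt_atTop (2 * |R| + 2)] with Z Z1 U c j v ε e1 hv h y y1 y2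
  have R1 := le_abs_self R
  have p0 := apply_nonneg (pH 0 G.z₀ Z) (U.2.1.1 j - v)
  have c0 := norm_nonneg c
  have c1 := norm_le_pi_norm c j
  obtain ⟨-, -, a⟩ := hA G.z₀ Z 0 (U.2.1.1 j - v) (by linarith) (by simp) y (by linarith)
    (by linarith)
  have t : J2 (uf z₃ U c j) y (D * ε) (D * ε) (D * ε) := by
    refine (((a.mono' (b := A * |R| ^ 5 * ε) ?_).add ((hC (G.ρ + 6) R (c j) y (by linarith)
      y2).mono' (b := C * R ^ 2 * ε) ?_)).mono' (le_of_eq (by rw [hD]; ring))).congr ?_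
    · gcongr <;> linarith
    · rw [mul_assoc, mul_comm ‖c j‖]
      gcongr
      linarith
    · filter_upwards [(continuous_fst.tendsto y).eventually (Ioo_mem_nhds
        (show G.z₀ < y.1 by linarith) (show y.1 < Z / 2 by linarith))] with p hp
      have e := hv p.1 ⟨hp.1.le, by linarith [hp.1, hp.2]⟩ p.2
      rw [usf, P218I.cut_zero (a := 2) ((div_le_iff₀ (by linarith [hp.1, hp.2])).2
        (by linarith [hp.2]))] at e
      simp [uf, e]
      ring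
  rw [DR_eq, mul_assoc]
  refine (hB j _ y _ (by linarith) ?_ t).2
  rw [le_div_iff₀ (by positivity)] at e1
  nlinarith⟩

end Vale.Agent.P218B
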