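import Vale.Agent.P218B.Lsp
import Vale.Agent.P218N.Cj

/-!
# P218B: the integrand and the equation of the ansatz for real data (row EQR)
-/

noncomputable section

open Set Filter Topology
open scoped RealInnerProductSpace

namespace Vale.Agent.P218B

open Vale.Agent.P218.H313
open Vale.Agent.P218N (V3 cx nu AD Pi' jt dt rh0 pd jA jA2 ee rr cr nn SH)
open Vale.Agent.P218N.Lp (cxL pd_cx dt_cx)

namespace Eqr

variable {X : E3 → E3} {Y : E3 → V3} {w : E3 → ℝ} {x : E3}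

theorem cd_re3 {n : WithTop ℕ∞} (h : ContDiffAt ℝ n Y x) : ContDiffAt ℝ n (fun y => re3 (Y y)) x :=
  (contDiffAt_piLp 2).2 fun i =>
    Complex.reCLM.contDiff.contDiffAt.comp x (contDiffAt_pi.1 h i)

theorem cx_re3 {v : V3} (h : star v = v) : cx (re3 v) = v :=
  funext fun i => Complex.conj_eq_iff_re.1 (congrFun h i)

theorem pd_pd {F : Type} [NormedAddCommGroup F] [NormedSpace ℝ F] {f : E3 → F}
    (h : ContDiffAt ℝ 2 f x) (c b : Fin 3) :
    DifferentiableAt ℝ (fun y => pd f y b) x ∧ pd (fun y => pd f y b) x c = d2 f x (e3 c) (e3 b) := by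
  have k := (ContinuousLinearMap.apply ℝ F (e3 b)).hasFDerivAt.comp x (hasD2 h)
  exact ⟨k.differentiableAt, DFunLike.congr_fun k.fderiv _⟩

theorem pd1 (h : ContDiffAt ℝ 2 X x) (e : Y =ᶠ[𝓝 x] fun y => cx (X y)) :
    pd Y x = fun b i => (j1 X x e3 b i : ℂ) :=
  (P218N.pd_congr e).trans (funext fun b => pd_cx (hasD1 h).differentiableAt b)

theorem pd2 (h : ContDiffAt ℝ 2 X x) (e : Y =ᶠ[𝓝 x] fun y => cx (X y)) :
    pd (pd Y) x = fun c b i => (j2 X x e3 c b i : ℂ) := by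
  have e1 : pd Y =ᶠ[𝓝 x] fun y b => cx (pd X y b) :=
    (P218N.pd_congr' e).mp ((evD1 h).mono fun y k k' =>
      k'.trans (funext fun b => pd_cx k.differentiableAt b))
  funext c b
  rw [P218N.pd_congr e1, P218N.pd_apply (differentiableAt_pi.2 fun b => by
    exact cxL.differentiableAt.comp x (pd_pd h c b).1), pd_cx (pd_pd h c b).1, (pd_pd h c b).2]
  rfl

theorem pd_nu (h : ContDiffAt ℝ 2 w x) :
    pd (nu w) x = fun c b => (d2 w x (e3 c) (e3 b) : ℂ) := by
  have e : nu w = fun y b => ((pd w y b : ℝ) : ℂ) :=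
    funext fun y => funext fun b => congrArg Complex.ofReal (grad_e3 w y b)
  funext c b
  have d := pd_pd h c
  rw [e, P218N.pd_apply (differentiableAt_pi.2 fun b => by
    exact Complex.ofRealCLM.differentiableAt.comp x (d b).1), ← (d b).2]
  exact DFunLike.congr_fun
    (Complex.ofRealCLM.hasFDerivAt.comp x (d b).1.hasFDerivAt).fderiv _

theorem gg_eq (h : ContDiffAt ℝ 2 X x) (e : Y =ᶠ[𝓝 x] fun y => cx (X y)) :
    P218N.gg (pd Y x) (nu w x) = gX w X x := by
  rw [pd1 h e]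
  exact (P218N.map_gg Complex.ofRealHom _ _).symm

theorem ee_eq (h : ContDiffAt ℝ 2 X x) (hw : ContDiffAt ℝ 2 w x)
    (e : Y =ᶠ[𝓝 x] fun y => cx (X y)) :
    ee 1 (Y x) (pd Y x) (pd (pd Y) x) (nu w x) (pd (nu w) x) = eqX w X x := by
  rw [ee, gg_eq h e, pd1 h e, pd2 h e, pd_nu hw, e.self_of_nhds, eqX, eqn, one_mul]
  have a := P218N.map_dt Complex.ofRealHom (X x).ofLp (nn (j1 X x e3) (grad w x).ofLp)
  have b := P218N.map_bb Complex.ofRealHom (j1 X x e3) (j2 X x e3) (grad w x).ofLp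
    fun c b => d2 w x (e3 c) (e3 b)
  simp only [P218N.map_nn, Complex.ofRealHom_eq_coe] at a b
  push_cast
  rw [a, b]
  rfl

variable {ι α : Type} [Fintype ι] {D : AD ι α} {t : Pi' ι α}

theorem Om_eq (h : t.2.2.2.1 = 0) (x v : E3) : D.Om x t (dt (cx v) (cx v)) = rho v := by
  simp [AD.Om, AD.gw, h, dt_cx, rho]

theorem th_eq (h : t.2.2.2.1 = 0) (x : E3) (s : ℂ) : D.th x t s = 1 := by simp [AD.th, h]

theorem lw_eq (h : t.2.2.2.1 = 0) (x : E3) (s : ℂ) : D.lw x t s = 0 :=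
  funext fun c => by simp [AD.lw, h]

end Eqr

open Eqr in
/-- **EQR** -/
theorem eqr : EQR := by
  intro ι α _ _ D h x φ t g hφ sφ st h0
  have S : SH D.XX (x, φ x, t) := g.XX
  have c : ContDiffAt ℝ 2 (XR D φ t) x := cd_re3 (S.cd (n := 2) hφ)
  have e : D.Xm φ t =ᶠ[𝓝 x] fun y => cx (XR D φ t y) :=
    ((continuousAt_id.prodMk (hφ.continuousAt.prodMk continuousAt_const)).eventually
      (P218N.Cjg.cv_XX h g)).mono fun y k => (cx_re3 (k.symm.trans
        (congrArg D.XX (Prod.ext rfl (Prod.ext (congrFun sφ y) st))))).symm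
  have e0 : D.XX (x, jt φ x none none, t) = cx (XR D φ t x) := e.self_of_nhds
  have e1 : jA D.XX x (jt φ x) t = pd (D.Xm φ t) x := (S.pd (hasD1 hφ).differentiableAt).symm
  have e2 : jA2 D.XX x (jt φ x) t = pd (pd (D.Xm φ t)) x := (S.pd2 hφ).symm
  have eg := gg_eq (w := D.w) c e
  have eE : D.E x (jt φ x) t = eqX D.w (XR D φ t) x / 2 +
      Complex.sqrt (gX D.w (XR D φ t) x) * (kq D x (jt φ x) t * D.lag x t) := by
    have z : ∀ F N A m, dt F (cr N (rr 0 A m)) = 0 := fun F N A m => by simp [rr, dt]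
    rw [← ee_eq c (g.w.of_le (by norm_cast)) e, ← eg, kq, AD.fn, ← e2, ← e1]
    simp only [AD.E, th_eq h0, lw_eq h0, z, zero_div, sub_zero]
    rw [mul_div_assoc, mul_assoc]
    rfl
  refine ⟨c, ?_, fun k => ⟨fun l => ?_, fun l => ?_⟩⟩
  · rw [AD.If, AD.Wj, e0, Om_eq h0, e1, eg, Complex.re_ofReal_mul, Complex.re_sqrt_ofReal]
  · simpa [eE, l] using k
  · have := congrArg Complex.re (eE.symm.trans k)
    rw [Complex.sqrt_of_nonneg (Complex.zero_le_real.2 l), Complex.add_re, Complex.re_ofReal_mul,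
      Complex.div_ofNat_re, Complex.ofReal_re, Complex.ofReal_re, Complex.zero_re] at this
    linarith

end Vale.Agent.P218B
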