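import Vale.Agent.P218B.Ext

/-!
# P218B: the near identity map of a surface given by a core and ends
-/

noncomputable section

open Set Filter Topology Metric
open scoped RealInnerProductSpace Real

namespace Vale.Agent.P218B

open Vale.Agent.P218T hiding E3 Per

theorem j2_per {F : Type*} [NormedAddCommGroup F] [NormedSpace ℝ F] {φ : ℝ → F}
    (h : ContDiff ℝ 2 φ) (hp : Function.Periodic φ (2 * π)) :
    ∃ C, 0 ≤ C ∧ ∀ y : ℝ × ℝ, J2 (fun q : ℝ × ℝ => φ q.2) y C C C := by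
  obtain ⟨C, C0, hC⟩ := j2_cpt (isCompact_Icc (a := 0) (b := 2 * π)) fun s _ => h.contDiffAt
  refine ⟨C, C0, fun y => ?_⟩
  obtain ⟨k, hk⟩ := Xco.red y.2
  have := j2_shift _ (hC _ (Ico_subset_Icc_self hk))
  simp only [hp.sub_int_mul_eq] at this
  have n := ContinuousLinearMap.norm_snd_le ℝ ℝ ℝ
  simpa using J2.comp (f := fun q : ℝ × ℝ => q.2) this
    ((J2.clm (.snd ℝ ℝ ℝ) y).mono le_rfl n le_rfl)

theorem j2_fst {F : Type*} [NormedAddCommGroup F] [NormedSpace ℝ F] {φ : ℝ → F} {y : ℝ × ℝ}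
    {a b c : ℝ} (h : J2 φ y.1 a b c) : J2 (fun q : ℝ × ℝ => φ q.1) y a b c := by
  simpa using J2.comp (f := fun q : ℝ × ℝ => q.1) h
    ((J2.clm (.fst ℝ ℝ ℝ) y).mono le_rfl (ContinuousLinearMap.norm_fst_le ℝ ℝ ℝ) le_rfl)

theorem j2_pair {φ : ℝ → ℝ} {y : ℝ × ℝ} {a b : ℝ} (h : J2 φ y.1 a b b) (hb : 1 ≤ b) :
    J2 (fun q : ℝ × ℝ => (φ q.1, q.2)) y (a + ‖y‖) b b :=
  ((j2_fst h).mono (by simp) le_rfl le_rfl).prodMk ((J2.clm (.snd ℝ ℝ ℝ) y).mono
    (by nlinarith [ContinuousLinearMap.norm_snd_le ℝ ℝ ℝ, h.a0, norm_nonneg y])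
    ((ContinuousLinearMap.norm_snd_le ℝ ℝ ℝ).trans hb) (by linarith))

theorem J2.smul' {D F : Type*} [NormedAddCommGroup D] [NormedSpace ℝ D] [NormedAddCommGroup F]
    [NormedSpace ℝ F] {u : D → ℝ} {f : D → F} {x : D} {a b : ℝ} (h : J2 u x a a a)
    (h' : J2 f x b b b) : J2 (fun y => u y • f y) x (4 * a * b) (4 * a * b) (4 * a * b) := by
  have := mul_nonneg h.a0 h'.a0
  exact (h.smul h').mono (by linarith) (by linarith) (by linarith)

theorem J2.mono' {D F : Type*} [NormedAddCommGroup D] [NormedSpace ℝ D] [NormedAddCommGroup F]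
    [NormedSpace ℝ F] {f : D → F} {x : D} {a b : ℝ} (h : J2 f x a a a) (k : a ≤ b) :
    J2 f x b b b := h.mono k k k

theorem J2.zero' {D F : Type*} [NormedAddCommGroup D] [NormedSpace ℝ D] [NormedAddCommGroup F]
    [NormedSpace ℝ F] {f : D → F} {x : D} {a : ℝ} (h : f =ᶠ[𝓝 x] fun _ => 0) (k : 0 ≤ a) :
    J2 f x a a a := (J2.zero h).mono' k

theorem J2.clm_smul {E : Type*} [NormedAddCommGroup E] [NormedSpace ℝ E] {A : E →L[ℝ] E}
    {φ : ℝ → ℝ} {z C ω a : ℝ} (h : J2 φ z 1 C C) (hC : 1 ≤ C) (k : ‖A‖ ≤ ω) (ha : C * ω ≤ a) :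
    J2 (fun z => φ z • A) z a a a := by
  have := mul_le_mul_of_nonneg_right hC ((norm_nonneg _).trans k)
  exact (h.smul ((J2.const A z).mono k le_rfl le_rfl)).mono (by linarith) (by linarith)
    (by linarith)

theorem clp_le {Z z : ℝ} : clp Z z ≤ z := by
  rcases le_total z (Z - 2) with e | e
  · exact (clp_lo e).le
  · have := Real.smoothTransition.nonneg (z - (Z - 2))
    rw [clp]
    nlinarith

theorem cd_eR (Q : E3 ≃ₗᵢ[ℝ] E3) : ContDiff ℝ 2 (eR Q) :=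
  Q.contDiff.comp ((contDiff_piLp 2).2 fun i => by fin_cases i <;> simp <;> fun_prop)

theorem per_eR (Q : E3 ≃ₗᵢ[ℝ] E3) : Function.Periodic (eR Q) (2 * π) := fun θ => by simp [eR]

/-- a surface: the map `X` of `S`, the cut `Z`, the rotations and the heights on the ends -/
structure Dt (M : Mod) where
  X : E3 → E3
  Z : ℝ
  Rt : Fin M.n₁ → E3 →L[ℝ] E3
  D : M.I → ℝ × ℝ → ℝ

variable {M : Mod}

namespace Dt

variable (d : Dt M)

/-- above the height `H` the map is given by the rotations and the heights -/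
structure Ok (H : ℝ) : Prop where
  le : H + 3 ≤ d.Z
  per : ∀ e, P218T.Per H (d.D e)
  cyl : ∀ j (y : ℝ × ℝ), H ≤ y.1 → y.1 ≤ d.Z - 2 → d.X (M.P (.inl j) y) =
    d.Rt j (M.P (.inl j) y + d.D (.inl j) y • eR (M.Q j) y.2)
  con : ∀ l (y : ℝ × ℝ), H ≤ y.1 →
    d.X (M.P (.inr l) y) = M.P (.inr l) y + d.D (.inr l) y • M.n l y.2

/-- the data are `ω`-small below the height `ρ` -/
structure Sm (H ρ ω : ℝ) : Prop where
  core : ∀ p ∈ M.S, ‖p‖ ≤ H + 2 → J2 (fun x => d.X x - x) p ω ω ω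
  rot : ∀ j, ‖d.Rt j - .id ℝ E3‖ ≤ ω
  cyl : ∀ j (y : ℝ × ℝ), H ≤ y.1 → y.1 ≤ ρ → y.1 ≤ d.Z - 1 → J2 (d.D (.inl j)) y ω ω ω
  far : d.Z - 2 ≤ ρ → ∀ j (y : ℝ × ℝ), d.Z - 2 ≤ y.1 → J2 (M.f j) y ω ω ω
  con : ∀ l z θ, H ≤ z → z ≤ ρ → J2 (fun y : ℝ × ℝ => z⁻¹ * d.D (.inr l) (z * y.1, y.2)) (1, θ) ω ω ω

/-- the clamped change of the radius -/
def dc (j : Fin M.n₁) (y : ℝ × ℝ) : ℝ :=
  d.D (.inl j) (clp d.Z y.1, y.2) + (M.f j (clp d.Z y.1, y.2) - M.f j y)

/-- the displacements on the ends -/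
def uu (H : ℝ) : M.I → ℝ × ℝ → E3
  | .inl j => fun y => cut H y.1 • d.dc j y • d.Rt j (eR (M.Q j) y.2)
  | .inr l => fun y => cut H y.1 • d.D (.inr l) y • M.n l y.2

variable {d} {H ρ ω : ℝ}

theorem Ok.clp_ge (h : d.Ok H) {z : ℝ} (hz : H < z) : H < clp d.Z z := by
  rcases le_total z (d.Z - 2) with e | e
  · rwa [clp_lo e]
  · linarith [(clp_mem e).1, h.le]

theorem uu_zero (e : M.I) (y : ℝ × ℝ) (hy : y.1 ≤ H) : d.uu H e y = 0 := by
  cases e <;> simp [uu, cut_zero hy]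

theorem Ok.per_uu (h : d.Ok H) (g : M.Geo) (e : M.I) : Per (d.uu H e) := fun z θ => by
  rcases le_or_gt z H with k | k
  · rw [uu_zero e _ k, uu_zero e _ k]
  cases e with
  | inl j => simp only [uu, dc, h.per _ _ _ (h.clp_ge k), (g.ended.cyl j).per, per_eR _ θ]
  | inr l => simp only [uu, h.per _ _ _ k, (g.ended.link l).per_n]

theorem Sm.dc (s : d.Sm H ρ ω) (h : d.Ok H) {C : ℝ} (C1 : 1 ≤ C)
    (hC : ∀ z, J2 (clp d.Z) z |clp d.Z z| C C) (j : Fin M.n₁) {y : ℝ × ℝ} (h1 : H ≤ y.1)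
    (h2 : y.1 ≤ ρ) : J2 (d.dc j) y (5 * C ^ 2 * ω) (5 * C ^ 2 * ω) (5 * C ^ 2 * ω) := by
  have C2 : 1 ≤ C ^ 2 := one_le_pow₀ C1
  rcases lt_or_ge y.1 (d.Z - 2) with k | k
  · have j1 := s.cyl j y h1 h2 (by linarith)
    refine (j1.congr ((continuousAt_fst.eventually (eventually_lt_nhds k)).mono fun q k => ?_)).mono'
      (by nlinarith [j1.a0])
    simp [Dt.dc, clp_lo k.le]
  · have k' := clp_mem k
    have j0 := j2_pair (y := y) (hC _) C1
    have j1 := J2.comp (f := fun q : ℝ × ℝ => (clp d.Z q.1, q.2))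
      (s.cyl j _ (by linarith [h.le]) (clp_le.trans h2) k'.2) j0
    have j2 := J2.comp (f := fun q : ℝ × ℝ => (clp d.Z q.1, q.2)) (s.far (k.trans h2) j _ k'.1) j0
    have ω0 := j1.a0
    have := mul_le_mul_of_nonneg_left C1 ω0
    have := mul_le_mul_of_nonneg_left (show C ≤ C ^ 2 by nlinarith) ω0
    exact (j1.add (j2.sub (s.far (k.trans h2) j y k))).mono (by linarith) (by linarith)
      (by linarith)

end Dt

theorem psi (g : M.Geo) : ∃ a, ∀ H, a ≤ H → M.R + 1 ≤ H ∧ ∃ C, 0 ≤ C ∧ ∃ Ψ : Dt M → E3 → E3,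
    (∀ d d' x ε, d.Ok H → d'.Ok H → 0 ≤ ε → ‖x‖ ≤ H - 1 →
      (∀ p ∈ M.S, ‖p - x‖ ≤ 1 / 2 → ‖d.X p - d'.X p‖ ≤ ε) → ‖Ψ d x - Ψ d' x‖ ≤ ε) ∧
    ∀ d, d.Ok H → (∀ p ∈ M.S, (∀ j, p ∉ M.En (.inl j) (Ioi (d.Z - 2))) → Ψ d p = d.X p) ∧
      (∀ j (y : ℝ × ℝ), H + 1 ≤ y.1 → Ψ d (M.P (.inl j) y) =
        d.Rt j (cyc (M.Q j) (y, √2 + M.f j y + d.dc j y))) ∧
      ∀ ρ ω, 0 ≤ ω → ω ≤ 1 → d.Sm H ρ ω → ∀ x, ‖x‖ ≤ ρ →
        J2 (fun y => Ψ d y - y) x (C * ω * (1 + ‖x‖)) (C * ω) (C * ω) := by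
  obtain ⟨a, ha⟩ := ext_ends g
  refine ⟨a, fun H hH => ?_⟩
  obtain ⟨H1, C₁, c1, T, hT⟩ := ha H hH
  obtain ⟨C₂, c2, Y, y1, y2, y3⟩ := ext_core g (H + 2)
  obtain ⟨C₃, c3, θ, t1, t2, t3⟩ := ex_th g H1
  obtain ⟨C₄, c4, k4⟩ := j2_clp
  obtain ⟨C₅, c5, k5⟩ := j2_cut
  choose C₆ c6 k6 using fun e : M.I => j2_per (φ := M.nE e) (by
    cases e
    exacts [cd_eR _, (g.ended.link _).smooth_n.of_le Xco.two]) (by
    cases e
    exacts [per_eR _, (g.ended.link _).per_n])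
  obtain ⟨C₇, k7⟩ := (finite_range C₆).bddAbove
  replace k6 : ∀ e y, J2 (fun q : ℝ × ℝ => M.nE e q.2) y |C₇| |C₇| |C₇| := fun e y =>
    (k6 e y).mono' ((k7 ⟨e, rfl⟩).trans (le_abs_self _))
  have R1 := g.one.1
  set A := 160 * C₅ * C₄ ^ 2 * |C₇| + C₅ + 32 * (C₅ * (H + 1) ^ 2) * |C₇| with hA
  have a1 : 0 ≤ 160 * C₅ * C₄ ^ 2 * |C₇| := by positivity
  have a2 : 0 ≤ 32 * (C₅ * (H + 1) ^ 2) * |C₇| := by positivity
  have tt := fun d : Dt M => fun h : d.Ok H => hT (d.uu H)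
    (fun j z => cut H z • (d.Rt j - .id ℝ E3)) (h.per_uu g) Dt.uu_zero
    (fun j z k => ContinuousLinearMap.ext fun v => by simp [cut_zero k])
    fun j z k => by rw [cut_one k, cut_one le_rfl]
  refine ⟨H1, C₂ * (4 * C₃) + C₁ * A, by positivity, fun d x =>
    x + (Y (fun p => (1 - θ p) • (d.X p - p)) x +
      T (d.uu H) (fun j z => cut H z • (d.Rt j - .id ℝ E3)) x), fun d d' x ε h h' ε0 hx k => ?_,
    fun d h => ⟨fun p hp k => ?_, fun j y hy => ?_, fun ρ ω ω0 ω1 s x hx => ?_⟩⟩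
  · beta_reduce
    rw [(tt d h).1 x (by linarith), (tt d' h').1 x (by linarith), add_zero, add_zero,
      add_sub_add_left_eq_sub]
    refine y2 _ _ x ε ε0 fun p hp k' => ?_
    rw [t2 p hp (by linarith [norm_le_norm_add_norm_sub' p x])]
    simpa using k p hp k'
  · beta_reduce
    rw [y1 _ p hp]
    rcases le_or_gt ‖p‖ H with k' | k'
    · simp [(tt d h).1 p k', t2 p hp k']
    obtain ⟨e, y, hy, -, rfl⟩ := g.far (c := H - 1 / 4) (by linarith) hp (by linarith)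
    rw [t1 e y (by linarith)]
    clear k'
    rcases le_total y.1 H with k' | k'
    · cases e with
      | inl j => simp [(tt d h).2.1 j y hy, Dt.uu, cut_zero k']
      | inr l => simp [(tt d h).2.2.1 l y hy, Dt.uu, cut_zero k']
    cases e with
    | inl j =>
      have z : y.1 ≤ d.Z - 2 := not_lt.1 fun k' => k j (Mod.P_mem_En k')
      rw [(tt d h).2.1 j y hy, h.cyl j y k' z]
      simp only [Dt.uu, Dt.dc, clp_lo z, map_add, map_smul, smul_apply, sub_apply,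
        ContinuousLinearMap.id_apply]
      module
    | inr l =>
      rw [(tt d h).2.2.1 l y hy, h.con l y k']
      simp only [Dt.uu]
      module
  · beta_reduce
    rw [y1 _ _ (g.mem _ y (by linarith)), t1 _ y (by linarith), (tt d h).2.1 j y (by linarith)]
    simp only [Dt.uu, cut_one hy, P_cyl, cyc_eq, map_add, map_smul, smul_apply, sub_apply,
      ContinuousLinearMap.id_apply]
    module
  have A0 : 0 ≤ A * ω := by positivity
  have j1 := y3 (fun p => (1 - θ p) • (d.X p - p)) (4 * C₃ * ω) (by positivity) (fun p hp k => by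
    obtain ⟨e, y, hy, -, rfl⟩ := g.far (c := H + 1) (by linarith) hp (by linarith)
    rw [t1 e y (by linarith), cut_one hy.le, sub_self, zero_smul])
    (fun p hp k => (t3 p hp k).smul' (s.core p hp k)) x
  have j2 := (tt d h).2.2.2 x (A * ω) A0 (fun j θ => ?_) (fun j z => ?_) fun l z θ z1 z2 => ?_
  · simp only [add_sub_cancel_left]
    exact (j1.add j2).mono (by nlinarith [mul_nonneg j1.a0 (norm_nonneg x)]) (by linarith)
      (by linarith)
  · rcases lt_or_ge ⟪axis (M.Q j), x⟫ H with k | k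
    · exact J2.zero' ((continuousAt_fst.eventually (eventually_lt_nhds k)).mono fun q k =>
        Dt.uu_zero _ q k.le) A0
    have r : ‖d.Rt j‖ ≤ 2 := by
      linarith [norm_le_norm_add_norm_sub' (d.Rt j) (.id ℝ E3), s.rot j,
        ContinuousLinearMap.norm_id_le (𝕜 := ℝ) (E := E3)]
    refine (((j2_fst (k5 H _)).mono c5 le_rfl le_rfl).smul' ((s.dc h c4 (k4 _) j k
      (((real_inner_le_norm _ _).trans_eq (by rw [Sep.norm_axis, one_mul])).trans hx)).smul'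
      ((k6 (.inl j) _).lin _ r))).mono' ?_
    nlinarith [mul_nonneg (add_nonneg (zero_le_one.trans c5) a2) ω0]
  · exact J2.clm_smul (k5 H z) c5 (s.rot j) (by linarith [mul_nonneg (add_nonneg a1 a2) ω0])
  · have m : J2 (fun y : ℝ × ℝ => z * y.1) (1, θ) |z| |z| 0 := by
      simpa using (J2.const z _).mul (j2_fst (y := (1, θ)) (J2.id (1 : ℝ)))
    rcases lt_or_ge z H with k | k
    · refine J2.zero' ((m.cd.continuousAt.eventually (eventually_lt_nhds (by simpa))).mono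
        fun q k => ?_) A0
      rw [scl, Dt.uu_zero _ _ k.le, smul_zero]
    have e : scl (d.uu H (.inr l)) z = fun y => cut H (z * y.1) •
        (z⁻¹ * d.D (.inr l) (z * y.1, y.2)) • M.nE (.inr l) y.2 := funext fun y => by
      simp only [scl, Dt.uu, Mod.nE, smul_smul]
      ring_nf
    have b : 1 ≤ (H + 1) ^ 2 := one_le_pow₀ (by linarith)
    have c : J2 (fun y : ℝ × ℝ => cut H (z * y.1)) (1, θ) (2 * (C₅ * (H + 1) ^ 2))
        (2 * (C₅ * (H + 1) ^ 2)) (2 * (C₅ * (H + 1) ^ 2)) := by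
      rcases lt_or_ge (H + 1) z with k' | k'
      · refine ((J2.const (1 : ℝ) _).congr ((m.cd.continuousAt.eventually (eventually_gt_nhds
          (by simpa))).mono fun q k => cut_one k.le)).mono ?_ (by positivity) (by positivity)
        rw [norm_one]
        nlinarith
      · rw [abs_of_nonneg (by linarith)] at m
        have : z ^ 2 ≤ (H + 1) ^ 2 := by gcongr
        have : z ≤ 2 * (H + 1) ^ 2 := by nlinarith
        exact ((k5 H _).comp m).mono (by nlinarith) (by nlinarith) (by nlinarith)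
    rw [e]
    refine (c.smul' ((s.con l z θ k (z2.trans hx)).smul' (k6 (.inr l) _))).mono' ?_
    nlinarith [mul_nonneg (add_nonneg a1 (zero_le_one.trans c5)) ω0]

end Vale.Agent.P218B
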