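import Vale.Agent.P218B.Lsp
import Vale.Agent.P218B.Psi
import Vale.Agent.P218C.Bd
import Vale.Agent.P218L.OknA
import Vale.Agent.P218L.Cylo

/-!
# P218B, row B.FJ: pointwise bounds of the jets on the ends
-/

noncomputable section

open Set Filter Topology

namespace Vale.Agent.P218B

open Vale.Agent.P218T hiding E3 Per
open Vale.Agent.P218M
open Vale.Agent.P218L (pN pH)
open Vale.Agent.P218L.Okn (jet_eq j2_of_jet)
open Vale.Agent.P218L.Cy (wf l2_apply)
open Vale.Agent.P218W (XE XK wj omK jet nu om ret_cl pw_all pw_om pw_nu PW DD_ext wj_cont omK_cont)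

namespace Fj

variable {R Z z : ℝ} {c : ℂ}

theorem rh_near (z1 : 1 ≤ z) (h : ‖c‖ * z ^ 2 ≤ 1 / 2) :
    3 / 2 ≤ (rh c z).re ∧ ‖rh c z‖ ≤ 5 / 2 := by
  have e : rh c z - 2 = c * ((z ^ 2 - 2 : ℝ) : ℂ) := by simp [rh]
  have h1 : ‖rh c z - 2‖ ≤ 1 / 2 := by
    rw [e, norm_mul, Complex.norm_real]
    exact le_trans (mul_le_mul_of_nonneg_left (abs_le.2 ⟨by nlinarith, by linarith⟩)
      (norm_nonneg c)) h
  have h2 := abs_le.1 ((Complex.abs_re_le_norm _).trans h1)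
  simp only [Complex.sub_re, Complex.re_ofNat] at h2
  have := norm_add_le (rh c z - 2) 2
  rw [sub_add_cancel, Complex.norm_ofNat] at this
  exact ⟨by linarith, by linarith⟩

theorem cz (h : ‖c‖ * Z ^ 2 ≤ 1 / 2) (z0 : 0 ≤ z) (hz : z ≤ Z) : ‖c‖ * z ^ 2 ≤ 1 / 2 :=
  le_trans (by gcongr) h

theorem cyl (R1 : 1 ≤ R) (hZ : R + 1 ≤ Z) (h : ‖c‖ * Z ^ 2 ≤ 1 / 2) : Cyl 1 R Z c := by
  have k := fun z (hz : z ∈ Icc R Z) =>
    rh_near (R1.trans hz.1) (cz h (by linarith [hz.1]) hz.2)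
  exact ⟨by linarith, hZ, by linarith, fun z hz => by
    nlinarith [(k z hz).1, one_le_pow₀ (n := 2) (R1.trans hz.1)], fun z hz => by
    nlinarith [(k z hz).1, (k z hz).2, norm_nonneg (rh c z)]⟩

theorem ly_le (z0 : 0 < z) (hz : z ≤ Z - 1) : z ^ 2 * ly Z z ≤ 64 := by
  have h1 : ly Z z ≤ (Real.exp (z / 8) ^ 2)⁻¹ := by
    rw [← Real.exp_nat_mul, ← Real.exp_neg]
    exact Real.exp_le_exp.2 (by push_cast; nlinarith)
  have h2 : (z / 8) ^ 2 ≤ Real.exp (z / 8) ^ 2 :=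
    pow_le_pow_left₀ (by positivity) (by linarith [Real.add_one_le_exp (z / 8)]) 2
  calc _ ≤ z ^ 2 * ((z / 8) ^ 2)⁻¹ := by gcongr; exact h1.trans (inv_anti₀ (by positivity) h2)
    _ = 64 := by field_simp; norm_num

theorem vec_le {a b d e f g : ℝ → ℝ} {K : ℝ} (h0 : a z ≤ K) (h1 : b z ≤ K) (h2 : d z ≤ K)
    (h3 : e z ≤ K) (h4 : f z ≤ K) (h5 : g z ≤ K) (i : Fin 6) : ![a, b, d, e, f, g] i z ≤ K := by
  fin_cases i
  exacts [h0, h1, h2, h3, h4, h5]

theorem om_le {o₀ o₁ w : ℝ → ℝ} {K : ℝ} (z1 : 1 ≤ z) (n : ∀ i, nu w c Z i z ≤ K) (a : o₀ z ≤ K)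
    (b₀ : 0 ≤ o₁ z) (b : o₁ z ≤ K) (i : Fin 6) : om o₀ o₁ w c Z i z ≤ K := by
  unfold om
  exact vec_le (e := fun z => o₁ z / z) a (n 1) (n 2) ((div_le_self b₀ z1).trans b) (n 4) b i

/-- the natural weights below the boundary layer -/
theorem wts (R1 : 1 ≤ R) (hZ : R + 1 ≤ Z) (h : ‖c‖ * Z ^ 2 ≤ 1 / 2) (hz : z ∈ Icc R Z)
    (hz' : z ≤ Z - 1) : (∀ i,
    om (fun z => (rh c z).re) (fun z => gO c Z z + (rh c z).re) (wK (31 / 16) c) c Z i z ≤ 3000 ∧
      nu (wK (31 / 16) c) c Z i z ≤ 3000) ∧ (gO c Z z + (rh c z).re) / z ≤ 3000 / z ∧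
      gW (wK (31 / 16) c) c Z z * ta c z / z ≤ 3000 / z := by
  have f := wf (cyl R1 hZ h) R1 hz
  have z1 := f.z1
  have z0 : 0 < z := by linarith
  obtain ⟨a1, n1⟩ := rh_near z1 (cz h z0.le hz.2)
  have an := Complex.re_le_norm (rh c z)
  have l1 := ly_le z0 hz'
  have l0 := (mul_pos (pow_pos z0 2) (ly_pos Z z)).le
  have s6 := f.s6
  have w0 : 0 ≤ wK (31 / 16) c z := by unfold wK; positivity
  have w1 : wK (31 / 16) c z ≤ 7 := by
    have := Real.rpow_le_rpow_of_exponent_le (x := ‖rh c z‖) (by linarith)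
      (show (31 / 16 : ℝ) ≤ 2 by norm_num)
    rw [Real.rpow_two] at this
    refine (mul_le_mul (Real.rpow_le_one_of_one_le_of_nonpos z1 (by norm_num)) this (by positivity)
      zero_le_one).trans ?_
    nlinarith
  have s1 : sg c z ≤ 1 := by
    rw [sg_eq, div_le_one (pow_pos (by linarith) 2)]; nlinarith
  have G0 : 0 ≤ gW (wK (31 / 16) c) c Z z := mul_nonneg w0 (by linarith)
  have G1 : gW (wK (31 / 16) c) c Z z ≤ 455 :=
    (mul_le_mul w1 (show _ ≤ (65 : ℝ) by linarith) (by linarith) (by norm_num)).trans (by norm_num)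
  have t1 : ta c z ≤ 2 := by
    rw [ta, div_le_iff₀ f.a0]; linarith
  have g1 : gO c Z z ≤ 195 := by
    have : ((rh c z).re)⁻¹ ≤ 1 := inv_le_one_of_one_le₀ (by linarith)
    refine (mul_le_mul (show _ ≤ (3 : ℝ) by linarith [f.wo]) (show _ ≤ (65 : ℝ) by linarith)
      (by have := inv_pos.2 f.a0; linarith) (by norm_num)).trans (by norm_num)
  have e2 : gW (wK (31 / 16) c) c Z z / sg c z ≤ 2730 := by
    rw [div_le_iff₀ (by linarith)]; linarith
  have e5 : gW (wK (31 / 16) c) c Z z * ta c z ≤ 910 :=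
    (mul_le_mul G1 t1 f.t0 (by norm_num)).trans (by norm_num)
  generalize wK (31 / 16) c = w at *
  have n : ∀ i, nu w c Z i z ≤ 3000 := fun i => by
    fin_cases i <;> simp only [nu, Fin.reduceFinMk, Matrix.cons_val]
    · exact w1.trans (by norm_num)
    · refine Real.sqrt_le_iff.2 ⟨by norm_num, ?_⟩
      rw [mul_div_assoc]
      exact (mul_le_mul w1 e2 (div_nonneg G0 (by linarith)) (by norm_num)).trans (by norm_num)
    · exact e2.trans (by norm_num)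
    · exact (div_le_self (mul_nonneg G0 f.t0) z1).trans (e5.trans (by norm_num))
    · have : √‖rh c z‖ ≤ 2 := Real.sqrt_le_iff.2 ⟨by norm_num, by linarith⟩
      exact (mul_le_mul e5 this (by positivity) (by norm_num)).trans (by norm_num)
    · exact e5.trans (by norm_num)
  have o1 : gO c Z z + (rh c z).re ≤ 3000 := by linarith
  exact ⟨fun i => ⟨om_le z1 n (show (rh c z).re ≤ 3000 by linarith) (add_pos f.g0 f.a0).le o1 i,
    n i⟩, div_le_div_of_nonneg_right o1 z0.le,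
    div_le_div_of_nonneg_right (e5.trans (by norm_num)) z0.le⟩

theorem lj_scale {u : ℝ × ℝ → ℂ} {a : Fin 6 → ℂ} {y : ℝ × ℝ} (h : Frm.LJ u (z * y.1, y.2) a) :
    Frm.LJ (fun q => u (z * q.1, q.2)) y ![a 0, a 1, a 2, z * a 3, z * a 4, z ^ 2 * a 5] := by
  obtain ⟨A, B, h0, h1, h2, h3, h4, h5⟩ := h
  have d : ∀ q : ℝ × ℝ, HasFDerivAt (fun q : ℝ × ℝ => (z * q.1, q.2))
      ((z • ContinuousLinearMap.fst ℝ ℝ ℝ).prod (.snd ℝ ℝ ℝ)) q := fun q =>
    (hasFDerivAt_fst.const_mul z).prodMk hasFDerivAt_snd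
  refine ⟨fun q => z * A (z * q.1, q.2), fun q => B (z * q.1, q.2), h0,
    ((d y).continuousAt.eventually h1).mono fun q hq => (hq.comp q (d q)).congr_fderiv ?_,
    congrArg _ h2, h3, ((h4.comp y (d y)).const_mul (z : ℂ)).congr_fderiv ?_,
    (h5.comp y (d y)).congr_fderiv ?_⟩ <;> refine DD_ext fun v => ?_ <;> simp <;> ring

end Fj

open Fj

/-- **FJ** -/
theorem fj : FJ := by
  refine ⟨12000, by norm_num, fun R Z c v R2 h y hy hy' => ?_⟩
  have R1 : 1 ≤ R := by linarith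
  have hZ : R + 1 ≤ Z := by linarith
  have hz : y.1 ∈ Icc R Z := ⟨hy.le, by linarith⟩
  have hi : y.1 ∈ interior (Icc R Z) := by
    rw [interior_Icc]; exact ⟨hy, by linarith⟩
  have cd := (v.2.1.contDiffAt (fun i => (v.1 i).cont.continuousOn) hi).1
  have ej := jet_eq v.2.1 hi
  have r := ret_cl (show R ≤ Z by linarith)
  have c₁ := cyl R1 hZ h
  have c₀ : Cyl 1 R Z 0 := cyl R1 hZ (by simp)
  have y1 : 1 ≤ y.1 := by linarith
  have N0 := apply_nonneg (pN c R Z) v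
  have H0 := apply_nonneg (pH 0 R Z) v
  have w := wts R1 hZ h hz hy'
  have bN : ∀ i K, om (fun z => (rh c z).re) (fun z => gO c Z z + (rh c z).re) (wK (31 / 16) c) c Z
      i y.1 ≤ K → nu (wK (31 / 16) c) c Z i y.1 ≤ K → ‖jet (v.1 0) i y‖ ≤ K * pN c R Z v :=
    fun i K a b => by
      obtain ⟨pK, -, pg, -, px, -⟩ := pw_all c₁ le_rfl
      exact (ej i).symm ▸ l2_apply ((r.xn_le_iff (pw_om c₁ one_pos (pK _) px
        (pg.add isCompact_Icc px)) (pw_nu c₁ one_pos (pK _)) (J := v.1) N0).1 le_rfl i) hz y.2 a b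
  have bH : ∀ i, ‖jet (v.1 0) i y‖ ≤ 1296 * y.1 ^ 5 * pH 0 R Z v := fun i => by
    obtain ⟨pK, -, pg, ph, px, -⟩ := pw_all c₀ le_rfl
    have f := wf c₀ R1 hz
    have p1 := ph.mul isCompact_Icc (pg.add isCompact_Icc px)
    have w0 := ((pK (19 / 32)).pos hz).le
    have w1 := (f.wk (19 / 32) ⟨le_rfl, by norm_num⟩).2
    have q2 := pow_le_pow_right₀ y1 (show 2 ≤ 5 by norm_num)
    have q4 := pow_le_pow_right₀ y1 (show 4 ≤ 5 by norm_num)
    have q0 : 0 < y.1 ^ 5 := by positivity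
    refine (ej i).symm ▸ l2_apply ((r.xn_le_iff (pw_om c₀ one_pos (pK _) (ph.mul isCompact_Icc px)
      p1) (pw_nu c₀ one_pos (pK _)) (J := v.1) H0).1 le_rfl i) hz y.2
        (f.om w0 w1 (f.ha.trans_le (by linarith)) (p1.pos hz).le ?_ i) (f.nu w0 w1 i)
    calc _ ≤ hv 0 y.1 * (2 * y.1 ^ 2 * (rh 0 y.1).re + (rh 0 y.1).re) := by
          gcongr
          exacts [(ph.pos hz).le, f.gu]
      _ = 2 * y.1 ^ 4 + y.1 ^ 2 := by linear_combination (2 * y.1 ^ 2 + 1) * f.ha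
      _ ≤ _ := by linarith
  refine ⟨(j2_of_jet cd fun i => bN i _ (w.1 i).1 (w.1 i).2).mono (by linarith)
    (by linarith) (by linarith), (bN 3 _ w.2.1 w.2.2).trans ?_, (j2_of_jet cd bH).mono ?_ ?_ ?_⟩
  · rw [div_mul_eq_mul_div]
    gcongr
    norm_num
  all_goals nlinarith [mul_nonneg (pow_nonneg (zero_le_one.trans y1) 5) H0]

/-- **SQ** -/
theorem sq' : SQ := by
  intro M g
  choose K K1 hK using g.ub_f
  obtain ⟨B, hB⟩ := Finite.bddAbove_range K
  have s1 := Real.sq_sqrt zero_le_two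
  have s0 := Real.sqrt_nonneg 2
  have s2 : 7 / 5 ≤ √2 ∧ √2 ≤ 3 / 2 := ⟨by nlinarith, by nlinarith⟩
  obtain ⟨L, L0, hL⟩ := j2_cpt (φ := fun x : ℝ × ℝ => (√(x.1 ^ 2 + x.2) + x.1)⁻¹)
    ((isCompact_Icc (a := 5 / 4) (b := 2)).prod (isCompact_Icc (a := -(1 / 2)) (b := 1 / 2)))
    fun x hx => ((((contDiffAt_fst.pow 2).add contDiffAt_snd).sqrt
      (by nlinarith [hx.1.1, hx.2.1])).add contDiffAt_fst).inv
        (by nlinarith [hx.1.1, Real.sqrt_nonneg (x.1 ^ 2 + x.2)])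
  obtain ⟨A, A2, hA⟩ : ∃ A : ℝ, 2 ≤ A ∧ ∀ j, 2 + K j ≤ A :=
    ⟨2 + |B|, by simp, fun j => by linarith [hB ⟨j, rfl⟩, le_abs_self B]⟩
  refine ⟨1 / 2, 4 * (2 * L * A ^ 2), by norm_num, by positivity, fun j u y ε hy hε hu => ?_⟩
  have ε0 := hu.a0
  have e : ∀ p, (VS (M.f j) p + u p).re = (√2 + M.f j p) ^ 2 + (u p).re := fun p => by
    rw [Complex.add_re, VS, Complex.ofReal_re]
  have js : J2 (fun p => (u p).re) y ε ε ε := by
    simpa using hu.lin Complex.reCLM (l := 1) Complex.reCLM_norm.le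
  have jr : J2 (fun p => √2 + M.f j p) y A A A :=
    ((J2.const √2 y).add (hK j y hy)).mono
      (by rw [Real.norm_of_nonneg s0]; linarith [hA j]) (by linarith [hA j]) (by linarith [hA j])
  have m1 := abs_le.1 (g.rs j y hy)
  have m2 := abs_le.1 (js.h0.trans hε)
  have jg := (hL (√2 + M.f j y, (u y).re) ⟨⟨by linarith, by linarith⟩, m2⟩).comp
    (f := fun p => (√2 + M.f j p, (u p).re)) (jr.prodMk (js.mono' (by linarith)))
  have LA : 0 ≤ L * A := by positivity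
  have pos : 1 < (√2 + M.f j y) ^ 2 + (u y).re := by nlinarith
  refine ⟨e y ▸ pos.le, ((js.smul' (jg.mono (a' := 2 * L * A ^ 2) (b' := 2 * L * A ^ 2)
    (c' := 2 * L * A ^ 2) (by nlinarith) (by nlinarith) (by nlinarith))).congr ?_).mono'
      (le_of_eq (by ring))⟩
  filter_upwards [((jr.cd.continuousAt.pow 2).add js.cd.continuousAt).eventually_const_lt pos,
    jr.cd.continuousAt.eventually_const_lt (show 1 < √2 + M.f j y by linarith)] with p k1 k2
  have k3 := Real.sq_sqrt (x := (√2 + M.f j p) ^ 2 + (u p).re) (zero_le_one.trans k1.le)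
  have k4 := Real.sqrt_nonneg ((√2 + M.f j p) ^ 2 + (u p).re)
  rw [e, smul_eq_mul, ← div_eq_mul_inv, eq_div_iff (by linarith)]
  linear_combination k3

/-- **KJ** -/
theorem kj : KJ := by
  refine ⟨2, by norm_num, fun R J z θ R0 hz => ?_⟩
  have z0 : 0 < z := R0.trans hz
  have zn : (z : ℂ) ≠ 0 := by exact_mod_cast z0.ne'
  have hi : (z * (1, θ).1, (1, θ).2).1 ∈ interior (Ici R) := by simpa using hz
  have cd := (J.2.1.contDiffAt (wj_cont (omK_cont R0) _) hi).1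
  have l := (Frm.lj_z (y := (1, θ)) (.of_forall fun s => hasDerivAt_const s (z : ℂ)⁻¹)
    (hasDerivAt_const _ 0)).mul (lj_scale (Frm.lj cd))
  have b : ∀ i p, ‖J.1 i p‖ ≤ ‖J‖ / 2 := fun i p => ((J.1 i).apply_le p).trans
    (div_le_div_of_nonneg_right (norm_le_pi_norm J.1 i) zero_le_two)
  have := (j2_of_jet (contDiffAt_const.mul (cd.comp (f := fun q : ℝ × ℝ => (z * q.1, q.2)) (1, θ)
    (by fun_prop))) (a := ‖J‖ / 2) fun i => by
      refine (congrArg _ (l.jet i)).trans_le (le_of_eq_of_le (congrArg _ ?_) (b i.castSucc (z, θ)))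
      simp only [jet_eq J.2.1 hi]
      fin_cases i <;> simp [Frm.jm, wj, omK, zn]
      field_simp).lin Complex.reCLM (l := 1) Complex.reCLM_norm.le
  have n0 := norm_nonneg J
  refine (this.mono (by linarith) (by linarith) (by linarith)).congr (.of_forall fun q => ?_)
  simp only [Complex.reCLM_apply, ← Complex.ofReal_inv, Complex.re_ofReal_mul, Function.comp]

end Vale.Agent.P218B
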