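import Vale.Agent.P218B.Lsp
import Vale.Agent.P218I.Xiv

/-!
# P218B: the height in the compact zone
-/

set_option linter.all false

noncomputable section

open MeasureTheory Set Filter Topology Metric
open scoped ENNReal RealInnerProductSpace Real ComplexConjugate

namespace Vale.Agent.P218B

open Vale.Agent.P218.H313 Vale.Agent.P218D Vale.Agent.P218I Vale.Agent.P218I.GD
open Vale.Agent.P218T hiding E3 Per
open Vale.Agent.P218N (V3 cx nu sig AD Pi' Jt jt dt rh0)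
open Vale.Agent.P218L (LD ga pN pH q)
open Vale.Agent.P218W (XE XK wj omK W cl)
open Vale.Agent.P218H (st ee h2_wf avg_row f2 nrm4)

namespace Nj

theorem sum_abs (v : E3) : ∑ l, ‖v l‖ ≤ 3 * ‖v‖ := by
  have h := Finset.sum_le_card_nsmul Finset.univ (fun l => ‖v l‖) ‖v‖ fun l _ =>
    PiLp.norm_apply_le v l
  simpa using h

theorem clm_le {V : Type} [NormedAddCommGroup V] [NormedSpace ℝ V] (L : E3 →L[ℝ] V) {a : ℝ}
    (a0 : 0 ≤ a) (h : ∀ l, ‖L (ee l)‖ ≤ a) (v : E3) : ‖L v‖ ≤ 3 * a * ‖v‖ := by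
  rw [← P218H.Geo.lin_ee L v]
  refine (norm_sum_le _ _).trans ?_
  calc ∑ l, ‖v l • L (ee l)‖ ≤ ∑ l, ‖v l‖ * a := Finset.sum_le_sum fun l _ => by
        rw [norm_smul]
        exact mul_le_mul_of_nonneg_left (h l) (norm_nonneg _)
    _ = (∑ l, ‖v l‖) * a := (Finset.sum_mul _ _ _).symm
    _ ≤ 3 * ‖v‖ * a := mul_le_mul_of_nonneg_right (sum_abs v) a0
    _ = _ := by ring

/-- bounds for the jet in coordinates give bounds for the derivatives -/
theorem j2_jt {φ : E3 → ℂ} {x : E3} {a : ℝ} (h : ContDiffAt ℝ 2 φ x) (k : ‖jt φ x‖ ≤ a) :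
    J2 φ x (9 * a) (9 * a) (9 * a) := by
  have a0 : 0 ≤ a := (norm_nonneg _).trans k
  have b : ∀ i i', ‖jt φ x i i'‖ ≤ a := fun i i' =>
    (norm_le_pi_norm _ i').trans ((norm_le_pi_norm _ i).trans k)
  refine ⟨h, (b none none).trans (by linarith), ?_, ?_⟩
  · refine ContinuousLinearMap.opNorm_le_bound _ (by positivity) fun v =>
      (clm_le _ a0 (fun l => b none (some l)) v).trans ?_
    have := norm_nonneg v
    nlinarith
  · have e : ∀ c l, d2 φ x (ee c) (ee l) = jt φ x (some c) (some l) := fun c l => by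
      have := ((hasD2 h).clm_apply (hasFDerivAt_const (ee l) x)).fderiv
      simp only [jt, P218H.dd]
      rw [this]
      simp
    refine ContinuousLinearMap.opNorm_le_bound _ (by positivity) fun v => ?_
    refine (clm_le (d2 φ x) (a := 3 * a) (by positivity) (fun c => ?_) v).trans_eq (by ring)
    exact ContinuousLinearMap.opNorm_le_bound _ (by positivity) fun v' =>
      clm_le _ a0 (fun l => (e c l).symm ▸ b _ _) v'

theorem j2_cmul {φ : E3 → ℂ} {x : E3} {a : ℝ} (h : J2 φ x a a a) (c : ℂ) :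
    J2 (fun y => c * φ y) x (‖c‖ * a) (‖c‖ * a) (‖c‖ * a) := by
  have n : ‖ContinuousLinearMap.mul ℝ ℂ c‖ ≤ ‖c‖ := ContinuousLinearMap.opNorm_mul_apply_le ℝ ℂ c
  have a0 := h.a0
  have k := J2.comp (f := φ) ((J2.clm (ContinuousLinearMap.mul ℝ ℂ c) (φ x)).mono
    (mul_le_mul n h.h0 (norm_nonneg _) (norm_nonneg _)) n le_rfl) h
  exact k.mono le_rfl le_rfl (by simp)

variable {M : Mod} {k : ℕ} {G : GD M k} {Z : Fin M.n₁ → ℝ}

variable (G) in
/-- the fixed profile of the opening -/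
def gj (j : Fin M.n₁) (y : ℝ × ℝ) : ℂ :=
  (q M (.inl j) y : ℂ) * (P218I.cut (G.ρ + 6) y.1 : ℝ) * ((y.1 : ℂ) ^ 2 - 2)

theorem per_gj (g : M.Geo) (j : Fin M.n₁) : P218T.Per M.R (gj G j) := fun z θ hz => by
  simp only [gj, g.per_qn _ z θ hz]

theorem gj_zero (j : Fin M.n₁) (y : ℝ × ℝ) (h : y.1 ∉ Ici (G.ρ + 6)) : gj G j y = 0 := by
  simp [gj, P218I.cut_zero (not_le.1 h).le]

theorem sub_R (o : G.Ok) {a : ℝ} (h : G.ρ ≤ a) : Ici a ⊆ Ioi M.R := fun z hz =>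
  mem_Ioi.2 (by linarith [o.ld.lo, o.ld.hi, mem_Ici.1 hz])

theorem notMem (o : G.Ok) {a : ℝ} (h : G.ρ ≤ a) {p : E3} (hp : ‖p‖ < a) (e : M.I) :
    p ∉ M.En e (Ici a) := fun k => by
  obtain ⟨z, hz, k1, -⟩ := o.ld.geo.norm_En (sub_R o h) k
  linarith [mem_Ici.1 hz]

theorem cd_gj (o : G.Ok) (j : Fin M.n₁) {p : E3} (hp : p ∈ M.S) :
    ContDiffAt ℝ 2 (M.lift (.inl j) (gj G j)) p := by
  have g := o.ld.geo
  have t := sub_R o (a := G.ρ + 6) (by linarith)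
  have two : (2 : WithTop ℕ∞) ≤ ((⊤ : ℕ∞) : WithTop ℕ∞) :=
    WithTop.coe_le_coe.2 (le_top : (2 : ℕ∞) ≤ ⊤)
  refine g.lift_cd_tube (per_gj g j) isClosed_Ici t (fun y _ h => gj_zero j y h) two
    (fun y hy => ?_) (g.w_lt hp)
  exact ((cd_ofReal ((g.cd_qn _ (t hy)).of_le two)).mul (cd_ofReal
    (((P218I.cd_cut _).of_le two).contDiffAt.comp y contDiffAt_fst))).mul
      (((cd_ofReal contDiffAt_fst).pow 2).sub contDiffAt_const)

/-- the total height below `z₃` -/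
theorem ft_ev (o : G.Ok) {z₃ : ℝ} (h3 : G.ρ ≤ z₃) (U : G.XX Z) (c : Fin M.n₁ → ℂ) {p : E3}
    (hp : p ∈ M.S) (h : ‖p‖ < z₃) : ft z₃ (U, bs c 1) =ᶠ[𝓝 p]
      fun x => uu U x + ∑ j, c j * M.lift (.inl j) (gj G j) x := by
  have g := o.ld.geo
  have z0 : 0 < z₃ := (norm_nonneg p).trans_lt h
  have e : ∀ j, ∀ᶠ x in 𝓝 p, M.lift (.inl j) (fun y => (q M (.inl j) y : ℂ) *
      (P218I.cut 1 (y.1 / z₃) : ℝ) * (VS (M.f j) y - 2)) x = 0 := fun j =>
    g.lift_ev_zero' isClosed_Ici (sub_R o h3) (fun y _ hy => by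
      simp [P218I.cut_zero ((div_le_one z0).2 (not_le.1 hy).le)]) hp (notMem o h3 h _)
  filter_upwards [eventually_all.2 e] with x hx
  simp only [ft]
  congr 1
  refine Finset.sum_congr rfl fun j _ => ?_
  rw [← smul_eq_mul (c j), ← Mod.lift_smul, ← sub_zero (M.lift _ (fun y => c j • gj G j y) x),
    ← hx j, ← Mod.lift_sub]
  congr 1
  funext y
  simp [Vj, bt, bs, gj, P218N.rj, P218W.jet, (zt_zero _ _).1]
  ring

theorem wc_le (o : G.Ok) : ∃ C : ℝ, 0 ≤ C ∧ ∀ Z Z' (U : G.XX Z) (U' : G.XX Z') x,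
    ‖wc U x - wc U' x‖ ≤ C * ‖G.coo Z U - G.coo Z' U'‖ := by
  obtain ⟨l, C, C0, h⟩ := (h2_wf avg_row o.cor.toOk0 (α := α₀) (by norm_num) (by norm_num)).1
  refine ⟨C, C0, fun Z Z' U U' x => ?_⟩
  have e := l.add (U.1 - U'.1) U'.1
  rw [sub_add_cancel] at e
  have e' : wc U x - wc U' x = G.cor.wf G.cor.et (f2 (U.1 - U'.1)) x :=
    sub_eq_of_eq_add (congrFun e x)
  rw [e']
  exact (((h _).2 none none).sup x).trans (mul_le_mul_of_nonneg_left
    (nrm4 (G.coo Z U - G.coo Z' U')).1 C0)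

theorem we_P (g : M.Geo) (U : G.XX Z) (e : M.I) {y : ℝ × ℝ} (hy : M.R < y.1) :
    we U (M.P e y) = q M e y * LD.jx U.2.1 e 0 y := by
  refine (Finset.sum_eq_single e (fun e _ he => (g.lift_other he hy).eq_of_nhds)
    fun h => (h (Finset.mem_univ _)).elim).trans (g.lift_P (fun z θ hz => ?_) hy)
  cases e <;> simp only [g.per_qn _ z θ hz, LD.jx, wj, W.per]

theorem jx_le {Z' : Fin M.n₁ → ℝ} (U : G.XX Z) (U' : G.XX Z') (e : M.I) {y : ℝ × ℝ} {a : ℝ}
    (hy : y.1 ∈ Icc G.z₀ (G.ρ + 9)) (a1 : 1 ≤ a) (ha : y.1 ≤ a) :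
    ‖LD.jx U.2.1 e 0 y - LD.jx U'.2.1 e 0 y‖ ≤ a * ‖G.coo Z U - G.coo Z' U'‖ := by
  have n0 := norm_nonneg (G.coo Z U - G.coo Z' U')
  rcases e with j | l
  · have h := ((G.coo Z U - G.coo Z' U').2.1 j 0).apply_le y
    have e : (G.coo Z U - G.coo Z' U').2.1 j 0 y = (U.2.1.1 j).1 0 (cl G.z₀ (G.ρ + 9) y.1, y.2) -
      (U'.2.1.1 j).1 0 (cl G.z₀ (G.ρ + 9) y.1, y.2) := rfl
    rw [e, cl, min_eq_right hy.2, max_eq_right hy.1] at h
    refine h.trans ((half_le_self (norm_nonneg _)).trans ((norm_le_pi_norm _ 0).trans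
      ((norm_le_pi_norm _ j).trans ((nrm4 _).2.1.trans ?_))))
    exact le_mul_of_one_le_left n0 a1
  · have h := (((G.coo Z U - G.coo Z' U').2.2.1 l).1 0).apply_le y
    have e : LD.jx U.2.1 (.inr l) 0 y - LD.jx U'.2.1 (.inr l) 0 y =
        (y.1 : ℂ) * ((G.coo Z U - G.coo Z' U').2.2.1 l).1 0 y := (mul_sub _ _ _).symm
    rw [e, norm_mul, Complex.norm_real, Real.norm_of_nonneg (G.hz.le.trans hy.1)]
    refine mul_le_mul ha (h.trans ((half_le_self (norm_nonneg _)).trans ((norm_le_pi_norm _ 0).trans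
      ((norm_le_pi_norm (G.coo Z U - G.coo Z' U').2.2.1 l).trans (nrm4 _).2.2.1))))
      (norm_nonneg _) (by linarith)

theorem uu_le (o : G.Ok) : ∃ C : ℝ, 0 ≤ C ∧ ∀ Z Z' (U : G.XX Z) (U' : G.XX Z'), ∀ p ∈ M.S,
    ‖p‖ ≤ G.ρ + 5 → ‖uu U p - uu U' p‖ ≤ C * ‖G.coo Z U - G.coo Z' U'‖ := by
  have g := o.ld.geo
  have lo := o.ld.lo
  have hi := o.ld.hi
  have hz := G.hz
  obtain ⟨C, C0, h⟩ := wc_le o
  refine ⟨C + (G.ρ + 5), by linarith, fun Z Z' U U' p hp h5 => ?_⟩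
  have n0 := norm_nonneg (G.coo Z U - G.coo Z' U')
  have e : uu U p - uu U' p = G.cor.cc p • (wc U p - wc U' p) +
      G.cor.ce p • (we U p - we U' p) := by
    simp only [uu, smul_sub]
    ring
  rw [e, add_mul]
  refine norm_add_le_of_le ((P218H.nrm_smul (o.cor.ccb _) _).trans (h _ _ _ _ _)) ?_
  rcases le_or_gt ‖p‖ (G.ρ + 1) with k | k
  · have : G.cor.ce p = 0 := P218H.st_zero (by linarith) k
    rw [this, zero_smul, norm_zero]
    exact mul_nonneg (by linarith) n0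
  clear e
  obtain ⟨e, y, h1, h2, rfl⟩ := g.far (c := G.ρ) (by linarith) hp (by linarith)
  have hR : M.R < y.1 := by linarith
  refine (P218H.nrm_smul (o.cor.ceb _) _).trans ?_
  rw [we_P g U e hR, we_P g U' e hR, ← mul_sub, norm_mul, Complex.norm_real]
  exact (mul_le_of_le_one_left (norm_nonneg _) (Xiv.q_le g _ hR)).trans
    (jx_le U U' e ⟨by linarith, by linarith⟩ (by linarith) (by linarith))

end Nj

open Nj

theorem nj (evj : EVJ) : NJ := Row.mono evj fun M k G o ⟨C, C0, h⟩ => by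
  have g := o.ld.geo
  have hK : IsCompact (M.S ∩ closedBall 0 (G.ρ + 8)) := by
    refine (isCompact_closedBall _ _).inter_left ?_
    have : M.S = M.w ⁻¹' {0} := Set.ext fun p => g.shr.mem_iff p
    rw [this]
    exact isClosed_singleton.preimage g.smw.continuous
  choose A A0 hA using fun j => j2_cpt hK fun p hp => cd_gj o j hp.1
  obtain ⟨B, B0, hB⟩ := uu_le o
  have S0 : 0 ≤ (Fintype.card (Fin M.n₁) : ℝ) * ‖A‖ := by positivity
  refine ⟨9 * C + Fintype.card (Fin M.n₁) * ‖A‖ + B, by positivity,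
    fun z₃ Z U c h3 hZ p hp => ⟨fun h8 => ?_, fun h5 => ⟨?_, fun Z' U' _ => ?_⟩⟩⟩
  · obtain ⟨u1, u2, -⟩ := ((h Z hZ).2 U).2.2.2 p hp (by linarith)
    have z0 : 0 ≤ zn U := norm_nonneg _
    have c0 := norm_nonneg c
    have s := J2.sum Finset.univ fun j _ => (j2_cmul ((hA j p ⟨hp, mem_closedBall_zero_iff.2 h8⟩).mono'
      ((le_abs_self _).trans (norm_le_pi_norm A j))) (c j)).mono'
        (mul_le_mul_of_nonneg_right (norm_le_pi_norm c j) (norm_nonneg A))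
    refine (((j2_jt u1 u2).add s).congr (ft_ev o (by linarith) U c hp (by linarith))).mono' ?_
    rw [Finset.card_univ]
    nlinarith [mul_nonneg C0 c0, mul_nonneg S0 z0, mul_nonneg B0 z0, mul_nonneg B0 c0]
  · rw [(ft_ev o (by linarith) U c hp (by linarith)).eq_of_nhds, add_eq_left]
    refine Finset.sum_eq_zero fun j _ => mul_eq_zero_of_right _ ?_
    exact (g.lift_ev_zero' isClosed_Ici (sub_R o (a := G.ρ + 6) (by linarith))
      (fun y _ h => gj_zero j y h) hp (notMem o (by linarith) (by linarith) _)).eq_of_nhds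
  · refine (hB Z Z' U U' p hp h5).trans (mul_le_mul_of_nonneg_right ?_ (norm_nonneg _))
    linarith

end Vale.Agent.P218B
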