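import Vale.Agent.P218B.Desc

/-!
# P218B: bounds on compact sets, composition operators, the clamp
-/

noncomputable section

open Set Filter Topology Metric

namespace Vale.Agent.P218B

variable {D F T : Type*} [NormedAddCommGroup D] [NormedSpace ℝ D] [NormedAddCommGroup F]
  [NormedSpace ℝ F] [NormedAddCommGroup T] [NormedSpace ℝ T]

theorem lip_cpt {φ : D → F} {K : Set D} (hK : IsCompact K) (h : ∀ x ∈ K, ContDiffAt ℝ 1 φ x) :
    ∃ L, 0 ≤ L ∧ ∀ x ∈ K, ∀ y ∈ K, ‖φ x - φ y‖ ≤ L * ‖x - y‖ := by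
  obtain ⟨L, hL⟩ := LocallyLipschitzOn.exists_lipschitzOnWith_of_compact (f := φ) hK fun x hx =>
    (h x hx).exists_lipschitzOnWith.imp fun _ ⟨t, k, k'⟩ => ⟨t, mem_nhdsWithin_of_mem_nhds k, k'⟩
  exact ⟨L, L.2, fun x hx y hy => hL.norm_sub_le hx hy⟩

theorem j2_cpt {φ : D → F} {K : Set D} (hK : IsCompact K) (h : ∀ x ∈ K, ContDiffAt ℝ 2 φ x) :
    ∃ C, 0 ≤ C ∧ ∀ x ∈ K, J2 φ x C C C := by
  obtain ⟨a, ha⟩ := hK.exists_bound_of_continuousOn (f := φ) fun x hx =>
    (h x hx).continuousAt.continuousWithinAt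
  obtain ⟨b, hb⟩ := hK.exists_bound_of_continuousOn (f := fderiv ℝ φ) fun x hx =>
    (hasD2 (h x hx)).continuousAt.continuousWithinAt
  obtain ⟨c, hc⟩ := hK.exists_bound_of_continuousOn (f := fderiv ℝ (fderiv ℝ φ)) fun x hx =>
    (((h x hx).fderiv_right (m := 1) le_rfl).fderiv_right (m := 0)
      le_rfl).continuousAt.continuousWithinAt
  have := abs_nonneg a
  have := abs_nonneg b
  have := abs_nonneg c
  exact ⟨|a| + |b| + |c|, by positivity, fun x hx => J2.mono ⟨h x hx, ha x hx, hb x hx, hc x hx⟩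
    (by linarith [le_abs_self a]) (by linarith [le_abs_self b]) (by linarith [le_abs_self c])⟩

/-- composition operators which vanish at `0` -/
theorem nem [ProperSpace T] {Φ : D × T → F} {K : Set D} (hK : IsCompact K)
    (h : ∀ x ∈ K, ContDiffAt ℝ 3 Φ (x, 0)) (h0 : ∀ x, Φ (x, 0) = 0)
    (h1 : ∀ x ∉ K, ∀ t, Φ (x, t) = 0) : ∃ C, 0 ≤ C ∧ ∃ t₀ > (0 : ℝ),
    (∀ (v : D → T) x ω, ω ≤ t₀ → J2 v x ω ω ω →
      J2 (fun y => Φ (y, v y)) x (C * ω) (C * ω) (C * ω)) ∧
    (∀ x t t', ‖t‖ ≤ t₀ → ‖t'‖ ≤ t₀ → ‖Φ (x, t) - Φ (x, t')‖ ≤ C * ‖t - t'‖) ∧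
    ∀ x ∈ K, ∀ t, ‖t‖ ≤ t₀ → ‖Φ (x, t) - fderiv ℝ Φ (x, 0) (0, t)‖ ≤ C * ‖t‖ ^ 2 := by
  have ev := hK.eventually_forall_of_forall_eventually (x₀ := (0 : T))
    (P := fun t x => ContDiffAt ℝ 3 Φ (x, t)) fun x hx =>
      (continuous_swap.tendsto' _ _ rfl).eventually ((h x hx).eventually (by simp))
  obtain ⟨r, r0, hr⟩ := Metric.nhds_basis_closedBall.eventually_iff.1 ev
  have c : ∀ q ∈ K ×ˢ closedBall (0 : T) r, ContDiffAt ℝ 3 Φ q := fun q k => hr k.2 _ k.1
  have hK' := hK.prod (isCompact_closedBall (0 : T) r)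
  obtain ⟨M, M0, hM⟩ := j2_cpt hK' fun q k => (c q k).of_le (by norm_num)
  obtain ⟨L₀, l0, k0⟩ := lip_cpt hK' fun q k => (c q k).of_le (by norm_num)
  obtain ⟨L₁, l1, k1⟩ := lip_cpt hK' fun q k => (c q k).fderiv_right (m := 1) (by norm_num)
  obtain ⟨L₂, l2, k2⟩ := lip_cpt hK' fun q k =>
    ((c q k).fderiv_right (m := 2) le_rfl).fderiv_right (m := 1) le_rfl
  have m : ∀ {x} {t : T}, x ∈ K → ‖t‖ ≤ min r 1 → (x, t) ∈ K ×ˢ closedBall (0 : T) r :=
    fun k k' => ⟨k, mem_closedBall_zero_iff.2 (k'.trans (min_le_left _ _))⟩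
  have n0 : ‖(0 : T)‖ ≤ min r 1 := by simp [r0.le]
  have n : ∀ (x : D) (t t' : T), ‖(x, t) - (x, t')‖ = ‖t - t'‖ := fun x t t' => by simp
  refine ⟨L₀ + L₁ + L₂ + 4 * M, by positivity, min r 1, by positivity, fun v x ω ω1 hv => ?_,
    fun x t t' ht ht' => ?_, fun x hx t ht => ?_⟩
  · have ω0 := hv.a0
    by_cases hx : x ∈ K
    swap
    · exact (J2.zero ((hK.isClosed.isOpen_compl.eventually_mem hx).mono fun y k =>
        h1 y k _)).mono (by positivity) (by positivity) (by positivity)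
    have q := m hx (hv.h0.trans ω1)
    have q0 := m hx n0
    have j := hM _ q
    have ω2 := ω1.trans (min_le_right _ _)
    have cf : ContDiffAt ℝ 2 (fun y => (y, v y)) x := contDiffAt_id.prodMk hv.cd
    have c0 : ContDiffAt ℝ 2 (fun y : D => (y, (0 : T))) x := contDiffAt_id.prodMk contDiffAt_const
    have f1 : ∀ a, fderiv ℝ (fun y => (y, v y)) x a = (a, 0) + (0, fderiv ℝ v x a) := fun a => by
      have : HasFDerivAt (fun y => (y, v y)) _ x := (hasFDerivAt_id x).prodMk (hasD1 hv.cd)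
      rw [this.fderiv]
      simp
    have f2 : ∀ a b, d2 (fun y => (y, v y)) x a b = (0, d2 v x a b) := fun a b => by
      have e : (fun y => (y, v y)) = fun y => ContinuousLinearMap.inl ℝ D T y +
        ContinuousLinearMap.inr ℝ D T (v y) := funext fun y => by simp
      have c2 := (ContinuousLinearMap.inr ℝ D T).contDiff.contDiffAt (n := 2) (x := v x)
      have c3 : ContDiffAt ℝ 2 (fun y => ContinuousLinearMap.inr ℝ D T (v y)) x := c2.comp x hv.cd
      rw [e, d2_add (ContinuousLinearMap.inl ℝ D T).contDiff.contDiffAt c3, d2_clm,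
        zero_add, d2_comp c2 hv.cd, d2_clm, ContinuousLinearMap.fderiv]
      simp
    have z : (fun y : D => Φ (y, (0 : T))) = fun _ => 0 := funext h0
    have g1 : ∀ a, fderiv ℝ (fun y : D => (y, (0 : T))) x a = (a, 0) := fun a => by
      exact congrArg (· a) (ContinuousLinearMap.inl ℝ D T).fderiv
    have z1 : ∀ a, fderiv ℝ Φ (x, 0) (a, 0) = 0 := fun a => by
      have := d1_comp (f := fun y : D => (y, (0 : T))) (hM _ q0).cd c0 a
      rw [z, g1] at this
      simpa using this.symm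
    have z2 : ∀ a b, d2 Φ (x, 0) (a, 0) (b, 0) = 0 := fun a b => by
      have := d2_comp (f := fun y : D => (y, (0 : T))) (hM _ q0).cd c0 a b
      rw [z, d2_const, g1, g1, show d2 (fun y : D => (y, (0 : T))) x = 0 from
        d2_clm (ContinuousLinearMap.inl ℝ D T) x] at this
      simpa using this.symm
    have v0 : ‖(x, v x) - (x, 0)‖ ≤ ω := by simpa using hv.h0
    have na : ∀ a : D, ‖(a, (0 : T))‖ = ‖a‖ := fun a => by simp
    have nb : ∀ a : T, ‖((0 : D), a)‖ = ‖a‖ := fun a => by simp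
    have p1 : ∀ a, ‖((0 : D), fderiv ℝ v x a)‖ ≤ ω * ‖a‖ := fun a => (nb _).trans_le (hv.d1 a)
    refine ⟨j.cd.comp x cf, ?_, ContinuousLinearMap.opNorm_le_bound _ (by positivity) fun a => ?_,
      norm_d2_le (by positivity) fun a b => ?_⟩
    · have := (k0 _ q _ q0).trans (mul_le_mul_of_nonneg_left v0 l0)
      rw [h0, sub_zero] at this
      nlinarith [mul_nonneg l1 ω0, mul_nonneg l2 ω0, mul_nonneg M0 ω0]
    · have e := (fderiv ℝ Φ (x, v x) - fderiv ℝ Φ (x, 0)).le_of_opNorm_le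
        ((k1 _ q _ q0).trans (mul_le_mul_of_nonneg_left v0 l1)) (a, 0)
      rw [sub_apply, z1, sub_zero, na] at e
      rw [d1_comp (f := fun y => (y, v y)) j.cd cf, f1, map_add]
      refine (norm_add_le_of_le e ((j.d1 _).trans (mul_le_mul_of_nonneg_left (p1 a) M0))).trans ?_
      have := mul_nonneg ω0 (norm_nonneg a)
      nlinarith [mul_nonneg l0 this, mul_nonneg l2 this, mul_nonneg M0 this]
    · have e := (d2 Φ (x, v x) - d2 Φ (x, 0)).le_of_opNorm₂_le_of_le
        ((k2 _ q _ q0).trans (mul_le_mul_of_nonneg_left v0 l2)) (na a).le (na b).le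
      rw [sub_apply, sub_apply, z2, sub_zero] at e
      rw [d2_comp (f := fun y => (y, v y)) j.cd cf, f1, f1, f2, map_add, map_add, add_apply,
        add_apply]
      refine (norm_add_le_of_le (norm_add_le_of_le (norm_add_le_of_le e (j.dd _ _))
        (norm_add_le_of_le (j.dd _ _) (j.dd _ _))) (j.d1 _)).trans ?_
      calc _ ≤ L₂ * ω * ‖a‖ * ‖b‖ + M * (ω * ‖a‖) * ‖b‖ + (M * ‖a‖ * (ω * ‖b‖) +
            M * (ω * ‖a‖) * (1 * ‖b‖)) + M * (ω * ‖a‖ * ‖b‖) := by
            gcongr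
            exacts [p1 a, (na b).le, (na a).le, p1 b, p1 a,
              (p1 b).trans (mul_le_mul_of_nonneg_right ω2 (norm_nonneg _)),
              (nb _).trans_le (hv.dd a b)]
        _ = (L₂ + 4 * M) * ω * ‖a‖ * ‖b‖ := by ring
        _ ≤ _ := by gcongr; linarith
  · by_cases hx : x ∈ K
    · refine (k0 _ (m hx ht) _ (m hx ht')).trans ?_
      rw [n]
      gcongr
      linarith
    · rw [h1 x hx, h1 x hx, sub_self, norm_zero]
      positivity
  · have s : ∀ q ∈ ({x} : Set D) ×ˢ closedBall (0 : T) ‖t‖, q ∈ K ×ˢ closedBall (0 : T) r :=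
      fun q k => ⟨k.1.symm ▸ hx, closedBall_subset_closedBall (ht.trans (min_le_left _ _)) k.2⟩
    have := ((convex_singleton x).prod (convex_closedBall (0 : T) ‖t‖)
      ).norm_image_sub_le_of_norm_fderiv_le' (φ := fderiv ℝ Φ (x, 0)) (C := L₁ * ‖t‖)
      (fun q k => (c q (s q k)).differentiableAt (by simp)) (fun q k =>
        (k1 _ (s q k) _ (m hx n0)).trans (mul_le_mul_of_nonneg_left (by
          obtain ⟨q1, q2⟩ := q
          obtain rfl : q1 = x := k.1
          simpa using k.2) l1)) (x := (x, 0)) (y := (x, t)) (by simp) (by simp)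
    rw [h0, sub_zero, n, sub_zero, Prod.mk_sub_mk, sub_self, sub_zero] at this
    refine this.trans ?_
    rw [mul_assoc, ← sq]
    gcongr
    linarith

/-- a function of one variable which is affine outside `[0, 1]` -/
theorem j2_line {φ : ℝ → ℝ} (h : ContDiff ℝ 2 φ) {a b a' b' : ℝ} (h0 : ∀ s ≤ 0, φ s = a * s + b)
    (h1 : ∀ s, 1 ≤ s → φ s = a' * s + b') : ∃ C, 1 ≤ C ∧ ∀ s, J2 φ s |φ s| C C := by
  obtain ⟨C, C0, hC⟩ := j2_cpt (isCompact_Icc (a := 0) (b := 1)) fun s _ => h.contDiffAt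
  have k : ∀ a b s : ℝ, J2 (fun s => a * s + b) s ‖a * s + b‖ |a| 0 := fun a b s => by
    have := ((J2.const a s).mul (J2.id s)).add (J2.const b s)
    exact ⟨this.cd, le_rfl, by simpa using this.h1, by simpa using this.h2⟩
  have := abs_nonneg a
  have := abs_nonneg a'
  refine ⟨1 + C + |a| + |a'|, by linarith, fun s => ?_⟩
  rcases lt_or_ge s 0 with e | e
  · exact ((k a b s).congr ((eventually_lt_nhds e).mono fun t k => h0 t k.le)).mono (h0 s e.le ▸ le_rfl)
      (by linarith) (by linarith)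
  rcases lt_or_ge 1 s with e' | e'
  · exact ((k a' b' s).congr ((eventually_gt_nhds e').mono fun t k => h1 t k.le)).mono
      (h1 s e'.le ▸ le_rfl) (by linarith) (by linarith)
  · exact ⟨h.contDiffAt, le_rfl, by linarith [(hC s ⟨e, e'⟩).h1], by linarith [(hC s ⟨e, e'⟩).h2]⟩

/-- the clamp: the identity below `Z - 2`, constant above `Z - 1` -/
def clp (Z z : ℝ) : ℝ := Z - 2 + (1 - Real.smoothTransition (z - (Z - 2))) * (z - (Z - 2))

theorem clp_lo {Z z : ℝ} (h : z ≤ Z - 2) : clp Z z = z := by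
  rw [clp, Real.smoothTransition.zero_of_nonpos (by linarith)]
  ring

theorem clp_hi {Z z : ℝ} (h : Z - 1 ≤ z) : clp Z z = Z - 2 := by
  rw [clp, Real.smoothTransition.one_of_one_le (by linarith)]
  ring

theorem clp_mem {Z z : ℝ} (h : Z - 2 ≤ z) : Z - 2 ≤ clp Z z ∧ clp Z z ≤ Z - 1 := by
  rcases le_total (Z - 1) z with e | e
  · rw [clp_hi e]
    exact ⟨le_rfl, by linarith⟩
  · have := Real.smoothTransition.nonneg (z - (Z - 2))
    have := Real.smoothTransition.le_one (z - (Z - 2))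
    rw [clp]
    constructor <;> nlinarith

theorem j2_shift {φ : ℝ → F} {a b c s : ℝ} (t : ℝ) (h : J2 φ (s - t) a b c) :
    J2 (fun z => φ (z - t)) s a b c := by
  simpa using h.comp (f := fun z => z - t) ((J2.id s).sub (J2.const t s))

theorem j2_clp : ∃ C, 1 ≤ C ∧ ∀ Z z, J2 (clp Z) z |clp Z z| C C := by
  obtain ⟨C, C1, hC⟩ := j2_line (φ := fun s => (1 - Real.smoothTransition s) * s)
    ((contDiff_const.sub Real.smoothTransition.contDiff).mul contDiff_id) (a := 1) (b := 0)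
    (a' := 0) (b' := 0) (fun s k => by simp [Real.smoothTransition.zero_of_nonpos k])
    fun s k => by simp [Real.smoothTransition.one_of_one_le k]
  refine ⟨C, C1, fun Z z => ?_⟩
  have := (J2.const (Z - 2) z).add (j2_shift (Z - 2) (hC _))
  exact ⟨this.cd, le_rfl, this.h1.trans_eq (zero_add _), this.h2.trans_eq (zero_add _)⟩

theorem j2_cut : ∃ C, 1 ≤ C ∧ ∀ a z, J2 (fun z => Real.smoothTransition (z - a)) z 1 C C := by
  obtain ⟨C, C1, hC⟩ := j2_line Real.smoothTransition.contDiff (a := 0) (b := 0)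
    (a' := 0) (b' := 1) (fun s k => by simp [Real.smoothTransition.zero_of_nonpos k])
    fun s k => by simp [Real.smoothTransition.one_of_one_le k]
  exact ⟨C, C1, fun a z => (j2_shift a (hC _)).mono (abs_le.2 ⟨by
    linarith [Real.smoothTransition.nonneg (z - a)], Real.smoothTransition.le_one _⟩) le_rfl le_rfl⟩

end Vale.Agent.P218B
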