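import Vale.Agent.P218B.Lsp
import Vale.Agent.P218B.Nem
import Vale.Agent.P218N.Lin0
import Vale.Agent.P218N.Tub
import Mathlib.Geometry.Manifold.PartitionOfUnity

/-!
# P218B: uniform expansions of the ansatz on compact sets
-/

noncomputable section

open Set Filter Topology Metric
open scoped RealInnerProductSpace Manifold ContDiff

namespace Vale.Agent.P218B

open Vale.Agent.P218.H313
open Vale.Agent.P218N
open Vale.Agent.P218H (J1)

namespace Nrj

theorem nem' {F T : Type*} [NormedAddCommGroup F] [NormedSpace ℝ F] [NormedAddCommGroup T]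
    [NormedSpace ℝ T] [ProperSpace T] {Φ : E3 × T → F} {K : Set E3} (hK : IsCompact K)
    (h : ∀ x ∈ K, ContDiffAt ℝ 3 Φ (x, 0)) (h0 : ∀ x ∈ K, ∀ᶠ y in 𝓝 x, Φ (y, 0) = 0) :
    ∃ C, 0 ≤ C ∧ ∃ t₀ > (0 : ℝ), ∀ x ∈ K, (∀ (v : E3 → T) δ, δ ≤ t₀ → J2 v x δ δ δ →
      J2 (fun y => Φ (y, v y)) x (C * δ) (C * δ) (C * δ)) ∧
    (∀ t t', ‖t‖ ≤ t₀ → ‖t'‖ ≤ t₀ → ‖Φ (x, t) - Φ (x, t')‖ ≤ C * ‖t - t'‖) ∧
    ∀ t, ‖t‖ ≤ t₀ → ‖Φ (x, t) - fderiv ℝ Φ (x, 0) (0, t)‖ ≤ C * ‖t‖ ^ 2 := by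
  have hU : IsOpen {x : E3 | ContDiffAt ℝ 3 Φ (x, 0)} := isOpen_iff_mem_nhds.2 fun x hx =>
    (Continuous.prodMk_left (0 : T)).continuousAt.eventually (ContDiffAt.eventually hx (by simp))
  obtain ⟨L, hL, hKL, hLU⟩ := exists_compact_between hK hU h
  obtain ⟨χ, c1, c0, -⟩ := exists_contMDiffMap_one_nhds_of_subset_interior (n := 3) 𝓘(ℝ, E3)
    hK.isClosed hKL
  have cχ : ContDiff ℝ 3 χ := χ.contMDiff.contDiff
  have hL' : ∀ x ∈ L, ContDiffAt ℝ 3 Φ (x, 0) := fun x hx => hLU hx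
  obtain ⟨C, hC, t₀, ht, a1, a2, a3⟩ := nem (Φ := fun q : E3 × T => χ q.1 • (Φ q - Φ (q.1, 0))) hL
    (fun x hx => (cχ.contDiffAt.comp _ contDiffAt_fst).smul ((hL' x hx).sub
      (ContDiffAt.comp (x, 0) (hL' x hx) (contDiffAt_fst.prodMk contDiffAt_const))))
    (fun x => by simp) fun x hx t => by simp [c0 x hx]
  refine ⟨C, hC, t₀, ht, fun x hx => ?_⟩
  have e : ∀ᶠ y in 𝓝 x, ∀ t, Φ (y, t) = χ y • (Φ (y, t) - Φ (y, 0)) := by
    filter_upwards [h0 x hx, (nhds_le_nhdsSet hx) c1] with y k k' t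
    rw [k, show χ y = 1 from k', sub_zero, one_smul]
  refine ⟨fun v δ k k' => (a1 v x δ k k').congr (e.mono fun y l => l _), fun t t' k k' => ?_,
    fun t k => ?_⟩
  · rw [e.self_of_nhds t, e.self_of_nhds t']
    exact a2 x t t' k k'
  · have e' : Φ =ᶠ[𝓝 (x, 0)] fun q : E3 × T => χ q.1 • (Φ q - Φ (q.1, 0)) :=
      ((continuousAt_fst (p := (x, (0 : T)))).eventually e).mono fun q l => l q.2
    rw [e'.fderiv_eq, e.self_of_nhds t]
    exact a3 x (interior_subset (hKL hx)) t k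

/-- the real part as a linear map -/
def reL : V3 →L[ℝ] E3 := LinearMap.toContinuousLinearMap
  { toFun := re3
    map_add' a b := by ext i; simp [re3]
    map_smul' s a := by ext i; simp [re3] }

theorem re3_cx (x : E3) : re3 (cx x) = x := by
  ext i
  simp [re3, cx]

theorem inner_re3 (v : V3) (g : E3) : ⟪re3 v, g⟫ = (P218N.dt v (cx g)).re := by
  simp [PiLp.inner_apply, Fin.sum_univ_three, P218N.dt, re3, cx, mul_comm]

end Nrj

open Nrj

/-- **NRJ** -/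
theorem nrj : NRJ := by
  intro ι α _ _ D K hK hN
  have sm : ∀ p ∈ K, ContDiffAt ℝ 3 D.XX (p, 0) := fun p hp =>
    (L0.sh0 (hN p hp)).sm.of_le (L0.lei 3)
  obtain ⟨C, hC, r, hr, h⟩ := nem' (Φ := fun q : E3 × ℂ × Pi' ι α => reL (D.XX q) - q.1) hK
    (fun p hp => (reL.contDiff.contDiffAt.comp _ (sm p hp)).sub contDiffAt_fst) fun p hp =>
      (L0.ev_pt (hN p hp)).mono fun y k => by
        change re3 (D.XX (y, 0, 0)) - y = 0
        rw [L0.XX_zero k, re3_cx, sub_self]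
  refine ⟨r, C, hr, hC, fun p hp => ⟨fun φ t δ k k' k'' => ?_, fun a t a' t' k1 k2 k3 k4 => ?_,
    fun a t k k' => ?_⟩⟩
  · exact (h p hp).1 (fun y => (φ y, t)) δ k (k'.prodMk ((J2.const t p).mono k'' k'.a0 k'.a0))
  · have := (h p hp).2.1 (a, t) (a', t') (max_le k1 k2) (max_le k3 k4)
    rw [sub_sub_sub_cancel_right] at this
    exact this.trans (mul_le_mul_of_nonneg_left (max_le_add_of_nonneg (norm_nonneg _)
      (norm_nonneg _)) hC)
  · have n : ‖((a, 0) : ℂ × Pi' ι α)‖ = ‖a‖ := by simp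
    have e := (h p hp).2.2 (a, 0) (n.trans_le k)
    have e1 : D.XX (p, a, t) = D.XX (p, a, 0) := by
      simp only [AD.XX, AD.X0, AD.ov_zero p _ fun j => .inl (k' j),
        fun j => ((L0.ev_pt (hN p hp)).self_of_nhds j).1]
      simp
    have d := (reL.hasFDerivAt.comp _ ((sm p hp).differentiableAt (by simp)).hasFDerivAt).sub
      (hasFDerivAt_fst (p := ((p, 0) : E3 × ℂ × Pi' ι α)))
    have e2 : fderiv ℝ D.XX (p, 0, 0) (0, a, 0) = a • L0.FF D p := by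
      rw [← L0.dF_eq (hN p hp), dF, ← (L0.sh0 (hN p hp)).lin.self_of_nhds]
      simp
    have e3 : fderiv ℝ (fun q : E3 × ℂ × Pi' ι α => reL (D.XX q) - q.1) (p, 0) (0, a, 0) =
        re3 (a • L0.FF D p) := by
      rw [← e2]
      exact (congrArg (· (0, a, 0)) d.fderiv).trans (sub_zero _)
    have e4 : ⟪re3 (a • L0.FF D p), grad D.w p⟫ = a.re := by
      rw [inner_re3, smul_dt]
      exact congrArg Complex.re ((congrArg (a * ·) ((L0.ev_FF (hN p hp)).self_of_nhds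
        (hN p hp).ok.zero)).trans (mul_one a))
    have e5 : ‖grad D.w p‖ = 1 := (hN p hp).ok.eik.self_of_nhds
    rw [e3, n] at e
    rw [e1, ← e4, ← inner_sub_left]
    refine (abs_real_inner_le_norm _ _).trans ?_
    rw [e5, mul_one]
    exact e

/-- **KQ** -/
theorem kq1 (hL : LIN0) : KQ := by
  intro ι α _ _ D K hK hN ε hε
  obtain ⟨r, -, hr, -, h⟩ := Tuba.unif hK (P := fun _ (q : E3 × (J1 3 → ℂ) × Pi' ι α) =>
    ‖kq D q.1 (Tuba.ex q.2.1) q.2.2 - 1‖ < ε) (fun _ _ _ _ k => k) fun p hp => by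
      obtain ⟨-, -, ⟨g1, g2, -⟩, f1, -⟩ := hL ι α D p (hN p hp)
      set z : E3 × (J1 3 → ℂ) × Pi' ι α := (p, 0) with hz
      have hj : SH (fun q : E3 × (J1 3 → ℂ) × Pi' ι α => Tuba.ex q.2.1) z := .pi fun _ => SH.snd.p1
      have hu : SH (fun q : E3 × (J1 3 → ℂ) × Pi' ι α => q.2.2) z := SH.snd.p2
      have hg : ContDiffAt ℝ ∞ (fun x : E3 => x) z.1 := contDiffAt_id
      have hX := AD.Rg.sX (g := fun x => x) (z := z) g1 hg hj hu
      have hO := AD.Rg.Om (g := fun x => x) (z := z) g1 g2 hg hu (hX.dt hX)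
      have hF := (g1.XX.dF.comp (g := fun x => x) (y := z) hg
        (((hj.ap none).ap none).prodMk hu)).dt ((SH.jA (g := fun x => x) (z := z) g1.XX hg hj hu).nn
          (.fst (cd_nu g1.w)))
      have n : rh0 p ≠ 0 := Complex.ofReal_ne_zero.2 (Real.exp_pos _).ne'
      have e : D.Om p 0 (P218N.dt (D.XX (p, 0, 0)) (D.XX (p, 0, 0))) * D.fn p 0 0 = rh0 p := by
        rw [f1, mul_one, AD.Om, L0.tr0.gw, mul_one, L0.XX0 (hN p hp), L0.exp_cx]
      have c := ((SH.fst cd_rh0).div (hO.mul hF) (e.trans_ne n)).cont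
      refine ⟨0, ((c.sub continuousAt_const).norm).eventually_lt_const ?_⟩
      change ‖rh0 p / (D.Om p 0 (P218N.dt (D.XX (p, 0, 0)) (D.XX (p, 0, 0))) * D.fn p 0 0) - 1‖ < ε
      rwa [e, div_self n, sub_self, norm_zero]
  refine ⟨r / 2, half_pos hr, fun p hp s hs j t hj ht => ?_⟩
  have e : ({ D with sh := s } : AD ι α).XX =ᶠ[𝓝 (p, j none none, t)] D.XX := by
    filter_upwards [(continuousAt_fst (p := (p, j none none, t))).eventually
      ((eventually_all.2 hs).and (eventually_all.2 (hN p hp).sh))] with q k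
    simp only [AD.XX, AD.X0, AD.ov, k.1, k.2]
  have e1 : kq { D with sh := s } p j t = kq D p j t := by
    have e2 : jA ({ D with sh := s } : AD ι α).XX p j t = jA D.XX p j t := by
      funext b
      simp only [jA, dB, dF, e.fderiv_eq]
    simp only [kq, AD.fn, dF, e.fderiv_eq, e.eq_of_nhds, e2]
    rfl
  rw [e1]
  exact (h p hp (j none, t) ((max_le ((pi_norm_le_iff_of_nonneg (half_pos hr).le).2 hj)
    ht).trans_lt (half_lt_self hr))).le

end Vale.Agent.P218B
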