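import Vale.Agent.P218B.Lsp
import Vale.Agent.P218I.Cj

/-!
# P218B: reality, and the map on the ends
-/

noncomputable section

open MeasureTheory Set Filter Topology
open scoped ENNReal RealInnerProductSpace Real ComplexConjugate

namespace Vale.Agent.P218B

open Vale.Agent.P218.H313 Vale.Agent.P218D Vale.Agent.P218I Vale.Agent.P218I.GD
open Vale.Agent.P218T hiding E3 Per
open Vale.Agent.P218N (V3 cx nu AD Pi' dt cr cay_zero)
open Vale.Agent.P218L (LD q)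
open Vale.Agent.P218W (W wj)
open Vale.Agent.P218H (st st_one)

namespace Okd

theorem re3_cx (v : E3) : re3 (cx v) = v := by
  ext i
  simp [re3, cx]

theorem cx_lin (v w : E3) (s : ℝ) : cx (v + s • w) = cx v + (s : ℂ) • cx w := by
  funext i
  simp [cx]

theorem rot_apply (o v : E3) (i : Fin 3) : rotR (cx o) v i =
    v i + 4 / (4 + dt o o) * (cr o v i + 1 / 2 * cr o (cr o v) i) := by
  have : P218N.cay (cx o) (cx v) i =
      ((v i + 4 / (4 + dt o o) * (cr o v i + 1 / 2 * cr o (cr o v) i) : ℝ) : ℂ) := by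
    fin_cases i <;> simp [P218N.cay, cx, dt, cr]
  rw [rotR_apply]
  exact (congrArg Complex.re this).trans (Complex.ofReal_re _)

theorem rot_norm (o v : E3) : ‖rotR (cx o) v‖ = ‖v‖ := by
  have h : 4 + (o 0 * o 0 + o 1 * o 1 + o 2 * o 2) ≠ 0 := by
    nlinarith [mul_self_nonneg (o 0), mul_self_nonneg (o 1), mul_self_nonneg (o 2)]
  rw [← sq_eq_sq₀ (norm_nonneg _) (norm_nonneg _), EuclideanSpace.real_norm_sq_eq,
    EuclideanSpace.real_norm_sq_eq]
  simp only [Fin.sum_univ_three, rot_apply, dt, P218N.cr0, P218N.cr1, P218N.cr2]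
  field_simp
  ring

theorem rot_sub (o : E3) : ‖rotR (cx o) - .id ℝ E3‖ ≤ ‖o‖ := by
  refine ContinuousLinearMap.opNorm_le_bound _ (norm_nonneg _) fun v => ?_
  have h : 4 ≤ 4 + (o 0 * o 0 + o 1 * o 1 + o 2 * o 2) := by
    nlinarith [mul_self_nonneg (o 0), mul_self_nonneg (o 1), mul_self_nonneg (o 2)]
  have e : ‖(rotR (cx o) - .id ℝ E3) v‖ ^ 2 = 4 / (4 + (o 0 * o 0 + o 1 * o 1 + o 2 * o 2)) *
      (‖o‖ ^ 2 * ‖v‖ ^ 2 - (o 0 * v 0 + o 1 * v 1 + o 2 * v 2) ^ 2) := by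
    simp only [EuclideanSpace.real_norm_sq_eq, Fin.sum_univ_three, sub_apply,
      ContinuousLinearMap.id_apply, PiLp.sub_apply, rot_apply, dt, P218N.cr0, P218N.cr1, P218N.cr2]
    field_simp
    ring
  refine le_of_sq_le_sq ?_ (by positivity)
  have h1 : 4 / (4 + (o 0 * o 0 + o 1 * o 1 + o 2 * o 2)) ≤ 1 := (div_le_one (by linarith)).2 h
  have h2 : 0 ≤ 4 / (4 + (o 0 * o 0 + o 1 * o 1 + o 2 * o 2)) := div_nonneg (by norm_num) (by linarith)
  rw [e, mul_pow]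
  exact (mul_le_mul_of_nonneg_left (sub_le_self _ (sq_nonneg _)) h2).trans
    (mul_le_of_le_one_left (by positivity) h1)

variable {M : Mod} {k : ℕ} {G : GD M k} {Z : Fin M.n₁ → ℝ} {y : ℝ × ℝ} {z₃ : ℝ}

theorem ro_eq {U : G.XX Z} {c} (h : Rl U c) (j : Fin M.n₁) :
    ∃ o : E3, ro U j = cx o ∧ ‖o‖ ≤ 2 * ‖U.2.2.1‖ := by
  have r : ∀ i, ((U.2.2.1 i).re : ℂ) = U.2.2.1 i := fun i =>
    Complex.conj_eq_iff_re.1 (congrFun (congrArg (·.2.2.1) h.U) i)
  have b : ∀ i, |(U.2.2.1 i).re| ≤ ‖U.2.2.1‖ := fun i =>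
    (Complex.abs_re_le_norm _).trans (norm_le_pi_norm _ i)
  have n : ‖eT (M.Q j) 0‖ = 1 := by
    rw [eT, LinearIsometryEquiv.norm_map, EuclideanSpace.norm_eq]
    simp [Fin.sum_univ_three]
  refine ⟨(U.2.2.1 (j, 1)).re • eR (M.Q j) 0 + (U.2.2.1 (j, 2)).re • eT (M.Q j) 0, ?_, ?_⟩
  · funext i
    simp [ro, P218L.om, cx, r]
  · refine (norm_add_le _ _).trans ?_
    rw [norm_smul, norm_smul, norm_eR, n, Real.norm_eq_abs, Real.norm_eq_abs]
    linarith [b (j, 1), b (j, 2)]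

theorem per_jx (v : G.X' Z) (e : M.I) (R : ℝ) : P218T.Per R (LD.jx v e 0) := fun z θ _ => by
  cases e <;> simp only [LD.jx, wj, W.per]

theorem per_Vj (g : M.Geo) (j : Fin M.n₁) (Z : ℝ) (c l : ℂ) (R : ℝ) :
    P218T.Per R (G.Vj z₃ j Z c l 0) := fun z θ hz => by
  simp only [Vj, P218W.jet, Matrix.cons_val_zero, bt, g.per_VS j R z θ hz]

variable (o : G.Ok) (hy : G.ρ + 6 ≤ y.1)
include o hy

theorem ht : M.R < y.1 := by linarith [o.ld.lo, o.ld.hi]

theorem st_P (e : M.I) {a : ℝ} (h0 : 0 ≤ a) (h : a ≤ 5) : st (G.ρ + a) (M.P e y) = 1 :=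
  st_one (by linarith [o.ld.lo, o.ld.hi, o.ld.geo.one.1])
    (by linarith [((o.ld.geo.cht e).rad y (ht o hy)).1])

theorem oth {V : Type} [NormedAddCommGroup V] {e e' : M.I} (h : e ≠ e') (F : ℝ × ℝ → V) :
    M.lift e F (M.P e' y) = 0 := (o.ld.geo.lift_other h (ht o hy)).eq_of_nhds

theorem one_P (e : M.I) : M.lift e (fun _ => (1 : ℝ)) (M.P e y) = 1 :=
  o.ld.geo.lift_P (fun _ _ _ => rfl) (ht o hy)

theorem lam_self (e : M.I) : G.lam e (M.P e y) = 1 := by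
  rw [lam, st_P o hy e zero_le_one (by norm_num), one_P o hy, one_mul]

theorem lam_ne {e e' : M.I} (h : e ≠ e') : G.lam e (M.P e' y) = 0 := by
  rw [lam, oth o hy h, mul_zero]

theorem lam_sum (e : M.I) : ∑ e', G.lam e' (M.P e y) = 1 := by
  rw [Finset.sum_eq_single e (fun _ _ h => lam_ne o hy h) (by simp), lam_self o hy]

theorem uu_P (U : G.XX Z) (e : M.I) : uu U (M.P e y) = q M e y * LD.jx U.2.1 e 0 y := by
  have h1 : G.cor.cc (M.P e y) = 0 :=
    sub_eq_zero.2 (st_P o hy e (a := 3) (by norm_num) (by norm_num)).symm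
  have h2 : G.cor.ce (M.P e y) = 1 := st_P o hy e zero_le_one (by norm_num)
  rw [uu, h1, h2, zero_smul, one_smul, zero_add]
  exact (Finset.sum_eq_single e (fun _ _ h => oth o hy h _)
    fun h => (h (Finset.mem_univ _)).elim).trans
    (o.ld.geo.lift_P (fun z θ hz => by
      simp only [o.ld.geo.per_qn _ z θ hz, per_jx U.2.1 e _ z θ hz]) (ht o hy))

theorem ft_cyl (p : G.XX Z × Pm (Fin M.n₁)) (j : Fin M.n₁) : ft z₃ p (M.P (.inl j) y) =
    q M (.inl j) y * (Vt z₃ p j y 0 - VS (M.f j) y) := by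
  have g := o.ld.geo
  rw [ft, uu_P o hy, Finset.sum_eq_single j (fun _ _ h => oth o hy (by simpa) _) (by simp),
    g.lift_P (fun z θ hz => by
      simp only [g.per_qn _ z θ hz, per_Vj g j _ _ _ _ z θ hz, g.per_VS j _ z θ hz]) (ht o hy), Vt]
  simp only [LD.jx]
  ring

theorem ft_con (p : G.XX Z × Pm (Fin M.n₁)) (l : Fin M.n₂) : ft z₃ p (M.P (.inr l) y) =
    q M (.inr l) y * LD.jx p.1.2.1 (.inr l) 0 y := by
  rw [ft, uu_P o hy, Finset.sum_eq_zero fun _ _ => oth o hy (by simp) _, add_zero]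

theorem X_cyl (U : G.XX Z) (φ : E3 → ℂ) (j : Fin M.n₁) {V : ℝ} (h0 : 0 ≤ V)
    (h : φ (M.P (.inl j) y) = q M (.inl j) y * (V - VS (M.f j) y)) :
    XR (G.ad Z) φ (t0 U) (M.P (.inl j) y) =
      rotR (ro U j) (M.P (.inl j) y + (√V - (√2 + M.f j y)) • eR (M.Q j) y.2) := by
  have g := o.ld.geo
  have hR := ht o hy
  have e1 : (G.ad Z).ov (M.P (.inl j) y) (t0 U) = ro U j := by
    rw [AD.ov, Finset.sum_eq_single j (fun i _ hi => by
      simp [ad, LD.rot, oth o hy (e := .inl i) (e' := .inl j) (by simpa)]) (by simp)]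
    simp [ad, LD.rot, st_P o hy _ zero_le_two (by norm_num), one_P o hy, ro, t0]
  have e2 : (G.ad Z).a (M.P (.inl j) y) = 0 := by
    simp only [ad, lam_sum o hy, lam_ne o hy (e' := .inl j) Sum.inr_ne_inl]
    simp
  have q0 : (q M (.inl j) y : ℂ) ≠ 0 := Complex.ofReal_ne_zero.2 (g.qn_ne _ hR)
  have e3 : VS (M.f j) y + q M (.inl j) y * (V - VS (M.f j) y) / q M (.inl j) y = V := by
    field_simp
    ring
  have e4 : Complex.sqrt V = (√V : ℝ) := by
    rw [Complex.sqrt_of_nonneg (Complex.zero_le_real.2 h0), Complex.ofReal_re]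
  rw [XR, AD.Xm, AD.XX, e1, rotR_apply, cx_lin, AD.X0, e2, Finset.sum_eq_single j (fun i _ hi => by
    simp [ad, lam_ne o hy (e := .inl i) (e' := .inl j) (by simpa)]) (by simp)]
  simp only [ad, lam_self o hy, h, g.lift_P (g.per_VS j _) hR,
    g.lift_P (F := fun y => (q M (.inl j) y : ℂ)) ((g.per_qn _).comp _) hR,
    g.lift_P (F := fun y => ((√2 + M.f j y : ℝ) : ℂ))
      (fun z θ _ => by simp only [(g.ended.cyl j).per]) hR,
    g.lift_P (F := fun y => cx (eR (M.Q j) y.2)) (fun z θ _ => by simp only [per_eR _ θ]) hR, e3, e4]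
  simp [t0]

theorem X_con (U : G.XX Z) (φ : E3 → ℂ) (l : Fin M.n₂) {V : ℝ}
    (h : φ (M.P (.inr l) y) = q M (.inr l) y * V) :
    XR (G.ad Z) φ (t0 U) (M.P (.inr l) y) = M.P (.inr l) y + V • M.n l y.2 := by
  have g := o.ld.geo
  have hR := ht o hy
  have e1 : (G.ad Z).ov (M.P (.inr l) y) (t0 U) = 0 := by
    simp [AD.ov, ad, LD.rot, oth o hy (e' := .inr l) Sum.inl_ne_inr]
  have e2 : (G.ad Z).a (M.P (.inr l) y) = (q M (.inr l) y : ℂ)⁻¹ • cx (M.n l y.2) := by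
    simp only [ad, lam_sum o hy]
    rw [Finset.sum_eq_single l (fun i _ hi => by
      simp [lam_ne o hy (e := .inr i) (e' := .inr l) (by simpa)]) (by simp), lam_self o hy,
      g.lift_P (fun z θ hz => by simp only [g.per_qn _ z θ hz, (g.ended.link l).per_n]) hR]
    simp
  have q0 : (q M (.inr l) y : ℂ) ≠ 0 := Complex.ofReal_ne_zero.2 (g.qn_ne _ hR)
  rw [XR, AD.Xm, AD.XX, e1, cay_zero, ← re3_cx (_ + _), cx_lin, AD.X0, e2, h, smul_smul,
    mul_comm _ (V : ℂ), mul_inv_cancel_right₀ q0]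
  simp [ad, lam_ne o hy (e' := .inr l) Sum.inl_ne_inr, t0]

end Okd

/-- **RLF** -/
theorem rlf : RLF := fun _ _ => ⟨0, fun _ G _ _ Z z₃ U c h => by
  have e : Cja.cy (U, bs c 1) = (U, bs c 1) :=
    Prod.ext h.U ((Cja.bs_star c 1).symm.trans (congrArg (bs · 1) h.c))
  refine ⟨(Cja.ft_conj z₃ (U, bs c 1)).symm.trans (by rw [e]), ?_, fun j y => ?_⟩
  · have e2 : star U.2.2 = U.2.2 := congrArg (·.2.2) h.U
    exact Prod.ext (congrArg (·.1) e2) (Prod.ext (congrArg (·.2) e2) (star_zero _))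
  · exact (congrFun (Cja.Vt_conj z₃ (U, bs c 1) j y) 0).symm.trans (by rw [e])⟩

open Okd in
/-- **OKD** -/
theorem okd (rlf : RLF) : OKD := fun M g => by
  obtain ⟨z₁, h⟩ := rlf M g
  refine ⟨z₁, fun k G hz o => ⟨2, zero_le_two, fun z₃ Z U c hZ r hV => ⟨⟨?_, ?_, ?_, ?_⟩, ?_⟩⟩⟩
  · change G.ρ + 6 + 3 ≤ Z
    linarith
  · rintro (j | l) z θ hz
    · simp only [sf, DR, Vt, per_Vj g j _ _ _ _ z θ hz, W.per, (g.ended.cyl j).per]
    · simp only [sf, DR, per_jx U.2.1 _ _ z θ hz]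
  · intro j y h1 h2
    refine X_cyl o h1 U _ j (hV j y h1 h2) ?_
    rw [ft_cyl o h1, Complex.conj_eq_iff_re.1 ((h k G hz o _ z₃ U c r).2.2 j y)]
  · intro l y h1
    refine X_con o h1 U _ l ?_
    have e := Cja.jx_conj U.2.1 (.inr l) 0 y
    rw [show cX U.2.1 = U.2.1 from congrArg (·.2.1) r.U] at e
    rw [ft_con o h1]
    exact congrArg _ (Complex.conj_eq_iff_re.1 e.symm).symm
  · intro j
    obtain ⟨w, e, b⟩ := ro_eq r j
    simp only [sf, e]
    exact ⟨rot_norm w, (rot_sub w).trans b⟩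

end Vale.Agent.P218B
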