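import Vale.Agent.P218B.Lsp

/-!
# P218B: the constraints of the surfaces
-/

noncomputable section

open MeasureTheory Set Filter Topology
open scoped ENNReal RealInnerProductSpace Real ComplexConjugate

set_option linter.all false

namespace Vale.Agent.P218B

open Vale.Agent.P218.H313 Vale.Agent.P218D Vale.Agent.P218I Vale.Agent.P218I.GD
open Vale.Agent.P218T hiding E3 Per
open Vale.Agent.P218N (sig)
open Vale.Agent.P218L (LD ga SLOW KAP)
open Vale.Agent.P218H (st st_smooth st_zero st_one h2_wf avg_row)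

namespace Psl

/-- the Gaussian area in terms of the Hausdorff measure -/
theorem tr {w : E3 → ℝ} {F : E3 → ℂ} {f : E3 → ℝ} (h : Integrable F (ga w))
    (e : ∀ᵐ p ∂hm 2 w, f p = (F p).re * rho p) :
    Integrable f (hm 2 w) ∧ ∫ p, f p ∂hm 2 w = cH 2 * (∫ p, F p ∂ga w).re := by
  have m : Measurable fun x : E3 => ENNReal.ofReal (Real.exp (-‖x‖ ^ 2 / 4)) := by fun_prop
  have h1 : Integrable (fun p => (F p).re) (ga w) := h.re
  have h2 : (∫ p, F p ∂ga w).re = ∫ p, (F p).re ∂ga w := (integral_re h).symm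
  rw [integrable_congr e, integral_congr_ae e, h2, hm_eq, integral_smul_nnreal_measure, ga,
    integral_withDensity_eq_integral_toReal_smul m (by simp)]
  have h3 := (integrable_withDensity_iff m (by simp)).1 h1
  simp only [ENNReal.toReal_ofReal (Real.exp_pos _).le] at h3 ⊢
  exact ⟨h3.smul_measure_nnreal, by simp only [smul_eq_mul, NNReal.smul_def, P218.H313.rho, mul_comm]⟩

variable {M : Mod} {k : ℕ} {G : GD M k} (slow : SLOW) (o : G.Ok)
include o

theorem rho_pos : 0 ≤ G.ρ := by linarith [o.ld.hi, G.hz]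

include slow

theorem b_le (j : Fin M.n₁) {p : E3} (hp : p ∈ M.S) (h : G.b (j, 0) p ≠ 0) : ‖p‖ ≤ G.ρ + 2 := by
  have := (((slow M k _ o.ld).1 (j, 0)).2.2.2.2.1 p hp h).2.2
  simp only [if_true] at this
  linarith

theorem on_S (j : Fin M.n₁) {p : E3} (hp : p ∈ M.S) :
    ψL G (.inr j) p = (G.ka j).re⁻¹ * (G.b (j, 0) p).re := by
  show _ * (_ * _) = _
  by_cases h : G.b (j, 0) p = 0
  · simp [h]
  · rw [st_zero (by linarith [rho_pos o]) (b_le slow o j hp h), sub_zero, one_mul]

theorem b_re (i) (x : E3) : ((G.b i x).re : ℂ) = G.b i x :=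
  Complex.conj_eq_iff_re.1 (((slow M k _ o.ld).1 i).2.2.1 x)

end Psl

open Psl

/-- **the constraints** -/
theorem psl (nd : P218L.ND) (slow : SLOW) (kap : KAP) (xiv : XIV) : PSI := fun M g => by
  obtain ⟨R, nd⟩ := nd M g
  obtain ⟨z, xiv⟩ := xiv M g
  refine ⟨max R z, fun k G hz o => ?_⟩
  obtain ⟨C, xiv⟩ := xiv k G (le_of_max_le_right hz) o
  have r0 := rho_pos o
  have k0 : ∀ j, (G.ka j).re ≠ 0 := fun j => (kap M k _ o.ld j).2.1.ne
  have kr : ∀ j, ((G.ka j).re : ℂ) = G.ka j := fun j =>
    Complex.ext rfl (by simp [(kap M k _ o.ld j).1])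
  have ae : ∀ᵐ p ∂hm 2 M.w, p ∈ M.S := ae_sh g.shr
  have eS : ∀ p ∈ M.S, ∀ i, ψL G i p =
      Sum.elim G.ψ (fun j x => (G.ka j).re⁻¹ * (G.b (j, 0) x).re) i p := fun p hp i => by
    rcases i with i | j
    exacts [rfl, on_S slow o j hp]
  have far : ∀ i x, ψL G i x ≠ 0 → ‖x‖ ≤ G.ρ + 3 := fun i x h => by
    by_contra hx
    rcases i with i | j
    · exact h (o.ld.supp i x (by linarith))
    · refine h ?_
      show _ * (_ * _) = _
      rw [st_one (by linarith) (by linarith), sub_self, zero_mul, mul_zero]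
  refine ⟨fun u l hu h2 he hc => ?_, fun i => ⟨?_, HasCompactSupport.intro
    (isCompact_closedBall 0 (G.ρ + 3)) fun x hx => not_not.1 fun h =>
      hx (mem_closedBall_zero_iff.2 (far i x h)), far i, fun p hp h => ?_⟩,
    fun a Z U => ⟨fun p hp => ?_, fun hZ hA i => ?_⟩⟩
  · refine nd k G.toLD o.ld (le_of_max_le_left hz) (fun j => (G.ka j).re⁻¹)
      (fun j => inv_ne_zero (k0 j)) _ rfl u l (hm 2 M.w) rho rfl rfl hu h2
      (fun ζ a b => (he ζ a b).trans (integral_congr_ae (ae.mono fun p hp => ?_)))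
      fun i => (integral_congr_ae (ae.mono fun p hp => ?_)).trans (hc i)
    · simp only [eS p hp]
    · simp only [eS p hp]
  · rcases i with i | j
    · exact (o.cor.psi i).1
    · exact contDiff_const.mul ((contDiff_const.sub ((st_smooth _).of_le (by simp))).mul
        (Complex.reCLM.contDiff.comp ((slow M k _ o.ld).1 (j, 0)).1))
  · rcases i with i | j
    · by_contra hx
      exact h (o.ld.supp i p (by linarith))
    · refine b_le slow o j hp fun e => h ?_
      rw [on_S slow o j hp, e, Complex.zero_re, mul_zero]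
  · rw [Fintype.sum_sum_type, add_comm, P218N.AD.lag, sub_eq_add_neg, ← Finset.sum_neg_distrib]
    refine congrArg₂ _ (Finset.sum_congr rfl fun j _ => ?_) (Finset.sum_congr rfl fun i _ => ?_)
    · have e : (G.obj a).lm Z U (.inr j) = G.ka j * U.2.2.1 (j, 0) := rfl
      have := Complex.ofReal_ne_zero.2 (k0 j)
      rw [e, on_S slow o j hp, Complex.ofReal_mul, b_re slow o, Complex.ofReal_inv]
      rw [kr] at this ⊢
      show U.2.2.1 (j, 0) * G.b (j, 0) p = _
      field_simp
    · exact (neg_mul _ _).symm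
  · rcases i with i | j
    · have : IsFiniteMeasureOnCompacts (ga M.w) := o.cor.fin
      obtain ⟨-, C, -, h⟩ := (h2_wf avg_row o.cor.toOk0 (α := α₀) (by norm_num) (by norm_num)).1
      have e : (G.obj a).xx Z U (.inl i) = ∫ p, wc U p * G.ψ i p ∂ga M.w := hA i
      rw [e]
      refine tr (((h U.1).1.continuous.mul (Complex.continuous_ofReal.comp
        (o.cor.psi i).1.continuous)).integrable_of_hasCompactSupport (HasCompactSupport.intro
          (isCompact_closedBall 0 G.ρ) fun x hx => ?_)) (.of_forall fun p => ?_)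
      · have : G.ψ i x = 0 := o.ld.supp i x (by linarith [not_le.1 (mt mem_closedBall_zero_iff.2 hx)])
        simp [LD.core, this]
      · show (uu U p).re * G.ψ i p * rho p = _
        by_cases h : G.ψ i p = 0
        · simp [h]
        have hp : ‖p‖ ≤ G.ρ := not_lt.1 fun e => h (o.ld.supp i p (by linarith))
        have : uu U p = wc U p := by
          show (1 - st (G.ρ + 3) p) • wc U p + st (G.ρ + 1) p • we U p = _
          rw [st_zero (by linarith) (by linarith), st_zero (by linarith) (by linarith)]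
          simp
        simp [this]
    · obtain ⟨-, x1, x2⟩ := xiv Z hZ U
      have e : (G.obj a).xx Z U (.inr j) = ∫ p, (G.ka j)⁻¹ * (uu U p * G.b (j, 0) p) ∂ga M.w :=
        (x1 j).trans (integral_const_mul _ _).symm
      rw [e]
      refine tr ((x2 j).const_mul _) (ae.mono fun p hp => ?_)
      rw [on_S slow o j hp, ← kr j, ← b_re slow o _ p, ← Complex.ofReal_inv]
      simp only [Complex.re_ofReal_mul, Complex.re_mul_ofReal, Complex.ofReal_re]
      ring

end Vale.Agent.P218B
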