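import Vale.Agent.P218B.Lfd
import Vale.Agent.P218B.Eqr
import Vale.Agent.P218B.Nrj
import Vale.Agent.P218B.Fj
import Vale.Agent.P218B.Okd
import Vale.Agent.P218B.Nj
import Vale.Agent.P218B.Cyd
import Vale.Agent.P218B.Psl

/-!
# P218B: the row `LFDR` from the rows of the other blocks
-/

namespace Vale.Agent.P218B

open Vale.Agent.P218I Vale.Agent.P218L

theorem lfdr' (nd : P218L.ND) (slow : SLOW) (kap : KAP) (xiv : XIV) (evj : EVJ) (adn : ADN)
    (sound : SOUND) (zon : ZON) (usv : USV) (uzl : UZL) (gds : GDS) (hi : HI) (hb : HB) : LFDR :=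
  lfdr eqr nrj (kq1 P218N.lin0) kj rlf (okd rlf) (nj evj) (cyn fj sq') (cyh fj sq')
    (psl nd slow kap xiv) adn sound zon usv uzl gds hi hb

end Vale.Agent.P218B
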