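import Mathlib

/-!
# P218B: the area formula for immersions of submanifolds
-/

noncomputable section

open MeasureTheory Set Filter Topology Module
open scoped ENNReal NNReal RealInnerProductSpace

namespace Vale.Agent.P218B

section loc

variable {D : Type*} [TopologicalSpace D] [SecondCountableTopology D] [MeasurableSpace D]
  [OpensMeasurableSpace D]

/-- from a local inequality to a global one -/
theorem le_of_loc {φ ψ : Set D → ℝ≥0∞} {s : Set D} (hs : MeasurableSet s)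
    (hφ : ∀ t : ℕ → Set D, (∀ n, MeasurableSet (t n)) → Pairwise (Function.onFun Disjoint t) →
      ⋃ n, t n = s → φ s ≤ ∑' n, φ (t n))
    (hψ : ∀ t : ℕ → Set D, (∀ n, MeasurableSet (t n)) → Pairwise (Function.onFun Disjoint t) →
      ⋃ n, t n = s → ∑' n, ψ (t n) ≤ ψ s)
    (h0 : φ ∅ = 0)
    (h : ∀ c : ℝ≥0, 1 < c → ∀ p ∈ s, ∃ N ∈ 𝓝 p, ∀ t, MeasurableSet t → t ⊆ s → t ⊆ N →
      φ t ≤ c * ψ t) : φ s ≤ ψ s := by
  have key : ∀ c : ℝ≥0, 1 < c → φ s ≤ c * ψ s := fun c hc => by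
    rcases s.eq_empty_or_nonempty with rfl | hne
    · simp [h0]
    choose! N h1 h2 using h c hc
    obtain ⟨u, k1, k2, k3⟩ := TopologicalSpace.countable_cover_nhdsWithin
      (f := fun p => interior (N p)) (s := s) fun p hp =>
        mem_nhdsWithin_of_mem_nhds (interior_mem_nhds.2 (h1 p hp))
    have hu : u.Nonempty := by
      obtain ⟨p, hp⟩ := hne
      obtain ⟨q, hq, -⟩ := mem_iUnion₂.1 (k3 hp)
      exact ⟨q, hq⟩
    obtain ⟨x, rfl⟩ := k2.exists_eq_range hu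
    let t : ℕ → Set D := fun n => s ∩ disjointed (fun n => interior (N (x n))) n
    have m1 : ∀ n, MeasurableSet (t n) := fun n =>
      hs.inter (MeasurableSet.disjointed (fun n => isOpen_interior.measurableSet) n)
    have m2 : Pairwise (Function.onFun Disjoint t) :=
      pairwise_disjoint_mono (disjoint_disjointed _) fun n => inter_subset_right
    have m3 : ⋃ n, t n = s := by
      rw [← inter_iUnion, iUnion_disjointed, inter_eq_left]
      simpa using k3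
    refine (hφ t m1 m2 m3).trans ((ENNReal.tsum_le_tsum fun n => h2 (x n) (k1 ⟨n, rfl⟩) _ (m1 n)
      inter_subset_left (inter_subset_right.trans ((disjointed_subset _ n).trans
        interior_subset))).trans ?_)
    rw [ENNReal.tsum_mul_left]
    exact mul_le_mul_right (hψ t m1 m2 m3) _
  have lim : Tendsto (fun c : ℝ≥0 => (c : ℝ≥0∞) * ψ s) (𝓝[>] 1) (𝓝 (((1 : ℝ≥0) : ℝ≥0∞) * ψ s)) :=
    ENNReal.Tendsto.mul_const ((ENNReal.continuous_coe.tendsto 1).mono_left nhdsWithin_le_nhds)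
      (.inl (by simp))
  simpa using ge_of_tendsto lim (eventually_nhdsWithin_of_forall key)

end loc

section cmp

variable {D E F : Type*} [EMetricSpace E] [MeasurableSpace E] [BorelSpace E] [EMetricSpace F]
  [MeasurableSpace F] [BorelSpace F]

/-- comparison of two images -/
theorem image_le {f : D → E} {g : D → F} {t : Set D} {c : ℝ≥0} (m : ℕ)
    (h : ∀ p ∈ t, ∀ q ∈ t, edist (f p) (f q) ≤ c * edist (g p) (g q)) :
    μH[m] (f '' t) ≤ c ^ m * μH[m] (g '' t) := by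
  rcases t.eq_empty_or_nonempty with rfl | ⟨p₀, -⟩
  · simp
  have : Nonempty D := ⟨p₀⟩
  have e : ∀ p ∈ t, f (Function.invFunOn g t (g p)) = f p := fun p hp => by
    have := h _ (Function.invFunOn_mem (f := g) ⟨p, hp, rfl⟩) p hp
    rwa [Function.invFunOn_eq (f := g) ⟨p, hp, rfl⟩, edist_self, mul_zero, nonpos_iff_eq_zero,
      edist_eq_zero] at this
  have h1 : LipschitzOnWith c (f ∘ Function.invFunOn g t) (g '' t) := by
    rintro _ ⟨p, hp, rfl⟩ _ ⟨q, hq, rfl⟩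
    simpa [e p hp, e q hq] using h p hp q hq
  have h2 := h1.hausdorffMeasure_image_le (d := m) (Nat.cast_nonneg m)
  rw [image_image, ENNReal.rpow_natCast] at h2
  rwa [image_congr fun p hp => (e p hp).symm]

end cmp

variable {D E : Type*} [NormedAddCommGroup D] [InnerProductSpace ℝ D] [FiniteDimensional ℝ D]
  [NormedAddCommGroup E] [InnerProductSpace ℝ E]

/-- the secants of `S` near `p` are almost parallel to `T` -/
def STan (S : Set D) (p : D) (T : Submodule ℝ D) : Prop := ∀ ε > (0 : ℝ), ∃ N ∈ 𝓝 p,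
  ∀ x ∈ S ∩ N, ∀ y ∈ S ∩ N, ‖x - y - T.starProjection (x - y)‖ ≤ ε * ‖x - y‖

/-- the Jacobian of `A` on the subspace `T` -/
def jacT (A : D →L[ℝ] E) (T : Submodule ℝ D) : ℝ := (A.toLinearMap ∘ₗ T.subtype).normDet

theorem jacT_nonneg (A : D →L[ℝ] E) (T : Submodule ℝ D) : 0 ≤ jacT A T :=
  LinearMap.normDet_nonneg _

theorem jacT_pos {A : D →L[ℝ] E} {T : Submodule ℝ D} (h : ∀ v ∈ T, A v = 0 → v = 0) :
    0 < jacT A T :=
  (jacT_nonneg A T).lt_of_ne' fun e => LinearMap.normDet_eq_zero_iff_ker_ne_bot.1 e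
    (LinearMap.ker_eq_bot'.2 fun v hv => Subtype.ext (h v v.2 hv))

theorem STan.top (S : Set D) (p : D) : STan S p ⊤ := fun ε hε =>
  ⟨univ, univ_mem, fun x _ y _ => by
    rw [Submodule.starProjection_eq_self_iff.2 Submodule.mem_top, sub_self, norm_zero]
    positivity⟩

theorem STan.mono {S S' : Set D} {p : D} {T : Submodule ℝ D} (h : STan S p T) (h' : S' ⊆ S) :
    STan S' p T := fun ε hε => by
  obtain ⟨N, k1, k2⟩ := h ε hε
  exact ⟨N, k1, fun x hx y hy => k2 x ⟨h' hx.1, hx.2⟩ y ⟨h' hy.1, hy.2⟩⟩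

/-- local comparison with the linear map -/
theorem loc_cmp {S : Set D} {p : D} {T : Submodule ℝ D} (hT : STan S p T) {Ψ : D → E}
    {A : D →L[ℝ] E} (hΨ : HasStrictFDerivAt Ψ A p) (h : ∀ v ∈ T, A v = 0 → v = 0) {c : ℝ}
    (hc : 1 < c) : ∃ N ∈ 𝓝 p, ∀ x ∈ S ∩ N, ∀ y ∈ S ∩ N,
      ‖Ψ x - Ψ y‖ ≤ c * ‖A (T.starProjection x) - A (T.starProjection y)‖ ∧
      ‖A (T.starProjection x) - A (T.starProjection y)‖ ≤ c * ‖Ψ x - Ψ y‖ ∧
      ‖x - y‖ ≤ c * ‖T.starProjection x - T.starProjection y‖ := by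
  obtain ⟨κ, κ0, hκ⟩ := (A.toLinearMap ∘ₗ T.subtype).exists_antilipschitzWith
    (LinearMap.ker_eq_bot'.2 fun v hv => Subtype.ext (h v v.2 hv))
  have hκ' : ∀ v ∈ T, ‖v‖ ≤ κ * ‖A v‖ := fun v hv => by
    simpa using hκ.le_mul_norm (map_zero _) ⟨v, hv⟩
  have c0 : 0 < c := by linarith
  have c1 : 0 < 1 - c⁻¹ := sub_pos.2 (inv_lt_one_of_one_lt₀ hc)
  have κ1 : (0 : ℝ) < κ := κ0
  set η := (1 - c⁻¹) / (c * κ * (1 + ‖A‖)) with hη
  have η0 : 0 < η := by positivity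
  obtain ⟨N, k1, k2⟩ := hT (min η (1 - c⁻¹)) (lt_min η0 c1)
  obtain ⟨N', k3, k4⟩ := hΨ.approximates_deriv_on_nhds (c := ⟨η, η0.le⟩) (.inr η0)
  refine ⟨N ∩ N', inter_mem k1 k3, fun x hx y hy => ?_⟩
  have e1 := k2 x ⟨hx.1, hx.2.1⟩ y ⟨hy.1, hy.2.1⟩
  have e2 : ‖Ψ x - Ψ y - A (x - y)‖ ≤ η * ‖x - y‖ := k4 x hx.2.2 y hy.2.2
  rw [← map_sub A, ← map_sub T.starProjection]
  set v := T.starProjection (x - y)
  have e3 := hκ' v (T.starProjection_apply_mem _)
  have n0 := norm_nonneg (x - y)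
  have e4 : ‖x - y‖ ≤ c * ‖v‖ := by
    have := norm_sub_norm_le (x - y) v
    have h1 := e1.trans (mul_le_mul_of_nonneg_right (min_le_right _ _) n0)
    have h2 : c⁻¹ * ‖x - y‖ ≤ ‖v‖ := by linarith
    rwa [inv_mul_le_iff₀ c0] at h2
  have e5 : ‖Ψ x - Ψ y - A v‖ ≤ (1 - c⁻¹) * ‖A v‖ := by
    have h1 : Ψ x - Ψ y - A v = (Ψ x - Ψ y - A (x - y)) + A (x - y - v) := by
      rw [map_sub A _ v]; abel
    have h2 := (A.le_opNorm (x - y - v)).trans (mul_le_mul_of_nonneg_left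
      (e1.trans (mul_le_mul_of_nonneg_right (min_le_left _ _) n0)) (norm_nonneg A))
    have h3 : ‖x - y‖ ≤ c * (κ * ‖A v‖) := e4.trans (mul_le_mul_of_nonneg_left e3 c0.le)
    calc _ ≤ η * ‖x - y‖ + ‖A‖ * (η * ‖x - y‖) := h1 ▸ (norm_add_le _ _).trans (add_le_add e2 h2)
      _ = η * (1 + ‖A‖) * ‖x - y‖ := by ring
      _ ≤ η * (1 + ‖A‖) * (c * (κ * ‖A v‖)) := by gcongr
      _ = (1 - c⁻¹) * ‖A v‖ := by rw [hη]; field_simp
  have e6 := norm_sub_norm_le (Ψ x - Ψ y) (A v)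
  have e7 := norm_sub_norm_le (A v) (Ψ x - Ψ y)
  rw [norm_sub_rev (A v)] at e7
  have n1 := norm_nonneg (A v)
  refine ⟨?_, ?_, e4⟩
  · have : 2 - c⁻¹ ≤ c := by
      have : c * c⁻¹ = 1 := mul_inv_cancel₀ c0.ne'
      nlinarith [sq_nonneg (c - 1), inv_pos.2 c0]
    nlinarith
  · have h2 : c⁻¹ * ‖A v‖ ≤ ‖Ψ x - Ψ y‖ := by linarith
    rwa [inv_mul_le_iff₀ c0] at h2

variable [MeasurableSpace D] [BorelSpace D] [MeasurableSpace E] [BorelSpace E]

theorem lin_image {m : ℕ} {T : Submodule ℝ D} (hm : finrank ℝ T = m) (A : D →L[ℝ] E) (t : Set D) :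
    μH[m] ((fun x => A (T.starProjection x)) '' t) =
      ENNReal.ofReal (jacT A T) * μH[m] (T.starProjection '' t) := by
  subst hm
  have h1 := (A.toLinearMap ∘ₗ T.subtype).hausdorffMeasure_image (T.orthogonalProjectionOnto '' t)
  have h2 := T.subtypeₗᵢ.isometry.hausdorffMeasure_image (d := finrank ℝ T) (.inl (by simp))
    (T.orthogonalProjectionOnto '' t)
  rw [image_image] at h1 h2
  rw [← h2] at h1
  exact h1

theorem ed {F G : Type*} [NormedAddCommGroup F] [NormedAddCommGroup G] {a b : F} {a' b' : G}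
    {d : ℝ≥0} (k : ‖a - b‖ ≤ d * ‖a' - b'‖) : edist a b ≤ d * edist a' b' := by
  rw [edist_dist, edist_dist, dist_eq_norm, dist_eq_norm, ← ENNReal.ofReal_coe_nnreal,
    ← ENNReal.ofReal_mul d.coe_nonneg]
  exact ENNReal.ofReal_le_ofReal k

theorem exists_root (m : ℕ) {c : ℝ≥0} (hc : 1 < c) : ∃ d : ℝ≥0, 1 < d ∧ d ^ m * d ^ m * d ≤ c := by
  have h : Tendsto (fun d : ℝ≥0 => d ^ m * d ^ m * d) (𝓝[>] 1) (𝓝 (1 ^ m * 1 ^ m * 1)) :=
    (Continuous.tendsto (by fun_prop) 1).mono_left nhdsWithin_le_nhds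
  obtain ⟨d, k1, k2⟩ := ((h.eventually (ge_mem_nhds (by simpa using hc))).and
    self_mem_nhdsWithin).exists
  exact ⟨d, k2, k1⟩

/-- the data of the area formula -/
structure Imm (m : ℕ) (S : Set D) (T : D → Submodule ℝ D) (Ψ : D → E) (A : D → D →L[ℝ] E) :
    Prop where
  dim : ∀ p ∈ S, finrank ℝ (T p) = m
  tan : ∀ p ∈ S, STan S p (T p)
  der : ∀ p ∈ S, HasStrictFDerivAt Ψ (A p) p
  inj : ∀ p ∈ S, ∀ v ∈ T p, A p v = 0 → v = 0
  cont : ContinuousOn (fun p => jacT (A p) (T p)) S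

variable {m : ℕ} {S : Set D} {T : D → Submodule ℝ D} {Ψ : D → E} {A : D → D →L[ℝ] E}

theorem Imm.loc (h : Imm m S T Ψ A) {c : ℝ≥0} (hc : 1 < c) {p : D} (hp : p ∈ S) :
    ∃ N ∈ 𝓝 p, ∀ t, MeasurableSet t → t ⊆ S → t ⊆ N →
      μH[m] (Ψ '' t) ≤ c * ∫⁻ x in t, ENNReal.ofReal (jacT (A x) (T x)) ∂μH[m] ∧
      ∫⁻ x in t, ENNReal.ofReal (jacT (A x) (T x)) ∂μH[m] ≤ c * μH[m] (Ψ '' t) := by
  obtain ⟨d, d1, d2⟩ := exists_root m hc
  have d1' : (1 : ℝ) < d := d1
  obtain ⟨N, k1, k2⟩ := loc_cmp (h.tan p hp) (h.der p hp) (h.inj p hp) d1'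
  have j0 := jacT_pos (h.inj p hp)
  have hcw := h.cont p hp
  have k3 : ∀ᶠ x in 𝓝[S] p, jacT (A x) (T x) < d * jacT (A p) (T p) :=
    hcw.eventually (gt_mem_nhds (lt_mul_of_one_lt_left j0 d1'))
  have k4 : ∀ᶠ x in 𝓝[S] p, jacT (A p) (T p) < d * jacT (A x) (T x) :=
    (hcw.const_mul (d : ℝ)).eventually (lt_mem_nhds (lt_mul_of_one_lt_left j0 d1'))
  obtain ⟨N', k5, k6⟩ := mem_nhdsWithin_iff_exists_mem_nhds_inter.1 (k3.and k4)
  refine ⟨N ∩ N', inter_mem k1 k5, fun t ht tS tN => ?_⟩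
  have tm : ∀ x ∈ t, x ∈ S ∩ N := fun x hx => ⟨tS hx, (tN hx).1⟩
  have a1 := image_le (f := Ψ) (g := fun x => A p ((T p).starProjection x)) m
    fun x hx y hy => ed (k2 x (tm x hx) y (tm y hy)).1
  have a2 := image_le (g := Ψ) (f := fun x => A p ((T p).starProjection x)) m
    fun x hx y hy => ed (k2 x (tm x hx) y (tm y hy)).2.1
  have a3 := image_le (f := id) (g := (T p).starProjection) m
    fun x hx y hy => ed (k2 x (tm x hx) y (tm y hy)).2.2
  have a4 := image_le (g := id) (f := (T p).starProjection) (t := t) (c := d) m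
    fun x _ y _ => ed (by
      rw [← map_sub]
      exact ((T p).norm_starProjection_apply_le _).trans
        (le_mul_of_one_le_left (norm_nonneg _) d1'.le))
  rw [lin_image (h.dim p hp)] at a1 a2
  rw [image_id] at a3 a4
  have od : ∀ r : ℝ, ENNReal.ofReal (d * r) = d * ENNReal.ofReal r := fun r => by
    rw [ENNReal.ofReal_mul d.coe_nonneg, ENNReal.ofReal_coe_nnreal]
  have b1 : ENNReal.ofReal (jacT (A p) (T p)) * μH[m] t ≤
      d * ∫⁻ x in t, ENNReal.ofReal (jacT (A x) (T x)) ∂μH[m] := by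
    rw [← setLIntegral_const, ← lintegral_const_mul' _ _ ENNReal.coe_ne_top]
    exact setLIntegral_mono' ht fun x hx => od _ ▸ ENNReal.ofReal_le_ofReal
      (k6 ⟨(tN hx).2, tS hx⟩).2.le
  have b2 : ∫⁻ x in t, ENNReal.ofReal (jacT (A x) (T x)) ∂μH[m] ≤
      d * ENNReal.ofReal (jacT (A p) (T p)) * μH[m] t := by
    rw [← setLIntegral_const]
    exact setLIntegral_mono' ht fun x hx => od _ ▸ ENNReal.ofReal_le_ofReal
      (k6 ⟨(tN hx).2, tS hx⟩).1.le
  have d3 : (d : ℝ≥0∞) ^ m * d ^ m * d ≤ c := by exact_mod_cast d2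
  constructor
  · calc _ ≤ (d : ℝ≥0∞) ^ m * (ENNReal.ofReal (jacT (A p) (T p)) * (d ^ m * μH[m] t)) :=
          a1.trans (by gcongr)
      _ = d ^ m * d ^ m * (ENNReal.ofReal (jacT (A p) (T p)) * μH[m] t) := by ring
      _ ≤ d ^ m * d ^ m * (d * ∫⁻ x in t, ENNReal.ofReal (jacT (A x) (T x)) ∂μH[m]) := by gcongr
      _ ≤ _ := by rw [← mul_assoc]; gcongr
  · calc _ ≤ (d : ℝ≥0∞) * ENNReal.ofReal (jacT (A p) (T p)) *
          (d ^ m * μH[m] ((T p).starProjection '' t)) := b2.trans (by gcongr)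
      _ = d ^ m * d * (ENNReal.ofReal (jacT (A p) (T p)) * μH[m] ((T p).starProjection '' t)) := by
          ring
      _ ≤ d ^ m * d * (d ^ m * μH[m] (Ψ '' t)) := by gcongr
      _ = d ^ m * d ^ m * d * μH[m] (Ψ '' t) := by ring
      _ ≤ _ := by gcongr

/-- **area inequality** -/
theorem Imm.le (h : Imm m S T Ψ A) {t : Set D} (ht : MeasurableSet t) (hS : t ⊆ S) :
    μH[m] (Ψ '' t) ≤ ∫⁻ x in t, ENNReal.ofReal (jacT (A x) (T x)) ∂μH[m] := by
  refine le_of_loc (φ := fun t => μH[m] (Ψ '' t))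
    (ψ := fun t => ∫⁻ x in t, ENNReal.ofReal (jacT (A x) (T x)) ∂μH[m]) ht ?_ ?_ (by simp)
    fun c hc p hp => ?_
  · rintro u - - rfl
    rw [image_iUnion]
    exact measure_iUnion_le _
  · rintro u h1 h2 rfl
    exact (lintegral_iUnion h1 h2 _).ge
  · obtain ⟨N, k1, k2⟩ := h.loc hc (hS hp)
    exact ⟨N, k1, fun u h1 h2 h3 => (k2 u h1 (h2.trans hS) h3).1⟩

omit [MeasurableSpace D] [BorelSpace D] [MeasurableSpace E] [BorelSpace E] in
theorem Imm.continuousOn (h : Imm m S T Ψ A) : ContinuousOn Ψ S := fun p hp =>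
  (h.der p hp).continuousAt.continuousWithinAt

/-- **area formula** -/
theorem Imm.eq [SecondCountableTopology E] (h : Imm m S T Ψ A) {t : Set D} (ht : MeasurableSet t)
    (hS : t ⊆ S) (hi : InjOn Ψ t) :
    μH[m] (Ψ '' t) = ∫⁻ x in t, ENNReal.ofReal (jacT (A x) (T x)) ∂μH[m] := by
  refine (h.le ht hS).antisymm (le_of_loc (ψ := fun t => μH[m] (Ψ '' t))
    (φ := fun t => ∫⁻ x in t, ENNReal.ofReal (jacT (A x) (T x)) ∂μH[m]) ht ?_ ?_ (by simp)
    fun c hc p hp => ?_)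
  · rintro u h1 h2 rfl
    exact (lintegral_iUnion h1 h2 _).le
  · rintro u h1 h2 rfl
    rw [image_iUnion, measure_iUnion]
    · intro i j e
      exact disjoint_image_image fun a ha b hb k => (h2 e).ne_of_mem ha hb
        (hi (mem_iUnion_of_mem i ha) (mem_iUnion_of_mem j hb) k)
    · exact fun i => (h1 i).image_of_continuousOn_injOn
        (h.continuousOn.mono ((subset_iUnion u i).trans hS)) (hi.mono (subset_iUnion u i))
  · obtain ⟨N, k1, k2⟩ := h.loc hc (hS hp)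
    exact ⟨N, k1, fun u h1 h2 h3 => (k2 u h1 (h2.trans hS) h3).2⟩

/-- the area inequality for integrals -/
theorem Imm.lintegral_le (h : Imm m S T Ψ A) {t : Set D} (ht : MeasurableSet t) (hS : t ⊆ S)
    {f : E → ℝ≥0∞} (hf : Measurable f) : ∫⁻ y in Ψ '' t, f y ∂μH[m] ≤
      ∫⁻ x in t, f (Ψ x) * ENNReal.ofReal (jacT (A x) (T x)) ∂μH[m] := by
  classical
  have c1 := (h.continuousOn.mono hS).measurable_piecewise (g := fun _ => (0 : E))
    continuousOn_const ht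
  have c2 : AEMeasurable (fun x => ENNReal.ofReal (jacT (A x) (T x))) (μH[m].restrict t) :=
    ((h.cont.mono hS).aemeasurable ht).ennreal_ofReal
  set Φ := t.piecewise Ψ fun _ => (0 : E)
  have e : ∀ x ∈ t, Φ x = Ψ x := fun x hx => piecewise_eq_of_mem _ _ _ hx
  have le : (μH[m] : Measure E).restrict (Ψ '' t) ≤ ((μH[m].restrict t).withDensity
      fun x => ENNReal.ofReal (jacT (A x) (T x))).map Φ := by
    refine Measure.le_iff.2 fun B hB => ?_
    rw [Measure.restrict_apply hB, Measure.map_apply c1 hB, withDensity_apply _ (c1 hB),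
      Measure.restrict_restrict (c1 hB)]
    refine (measure_mono ?_).trans (h.le ((c1 hB).inter ht) (inter_subset_right.trans hS))
    rintro _ ⟨k, x, hx, rfl⟩
    exact ⟨x, ⟨show Φ x ∈ B from e x hx ▸ k, hx⟩, rfl⟩
  refine (lintegral_mono' le le_rfl).trans_eq ?_
  rw [lintegral_map hf c1, lintegral_withDensity_eq_lintegral_mul₀ (g := fun x => f (Φ x)) c2
    (hf.comp c1).aemeasurable]
  exact setLIntegral_congr_fun ht fun x hx => by simp [e x hx, mul_comm]

/-- the area formula as an identity of measures -/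
theorem Imm.map_eq [SecondCountableTopology E] (h : Imm m S T Ψ A) {t : Set D}
    (ht : MeasurableSet t) (hS : t ⊆ S) (hi : InjOn Ψ t) :
    ((μH[m].restrict t).withDensity fun x => ENNReal.ofReal (jacT (A x) (T x))).map Ψ =
      (μH[m] : Measure E).restrict (Ψ '' t) := by
  classical
  have c1 := (h.continuousOn.mono hS).measurable_piecewise (g := fun _ => (0 : E))
    continuousOn_const ht
  set Φ := t.piecewise Ψ fun _ => (0 : E)
  have e : ∀ x ∈ t, Φ x = Ψ x := fun x hx => piecewise_eq_of_mem _ _ _ hx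
  rw [Measure.map_congr (g := Φ) ((withDensity_absolutelyContinuous _ _).ae_le
    ((ae_restrict_mem ht).mono fun x hx => (e x hx).symm))]
  ext B hB
  rw [Measure.restrict_apply hB, Measure.map_apply c1 hB, withDensity_apply _ (c1 hB),
    Measure.restrict_restrict (c1 hB), ← h.eq ((c1 hB).inter ht) (inter_subset_right.trans hS)
      (hi.mono inter_subset_right)]
  congr 1
  ext y
  constructor
  · rintro ⟨x, ⟨k, hx⟩, rfl⟩
    exact ⟨e x hx ▸ k, x, hx, rfl⟩
  · rintro ⟨k, x, hx, rfl⟩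
    exact ⟨x, ⟨show Φ x ∈ B from e x hx ▸ k, hx⟩, rfl⟩

/-- the area formula for integrals -/
theorem Imm.integral_eq [SecondCountableTopology E] (h : Imm m S T Ψ A) {t : Set D}
    (ht : MeasurableSet t) (hS : t ⊆ S) (hi : InjOn Ψ t) {F : Type*} [NormedAddCommGroup F]
    [NormedSpace ℝ F] {f : E → F} (hf : AEStronglyMeasurable f (μH[m].restrict (Ψ '' t))) :
    ∫ y in Ψ '' t, f y ∂μH[m] = ∫ x in t, jacT (A x) (T x) • f (Ψ x) ∂μH[m] := by
  have c1 : AEMeasurable Ψ (μH[m].restrict t) := (h.continuousOn.mono hS).aemeasurable ht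
  have c2 : AEMeasurable (fun x => (jacT (A x) (T x)).toNNReal) (μH[m].restrict t) :=
    ((h.cont.mono hS).aemeasurable ht).real_toNNReal
  rw [← h.map_eq ht hS hi] at hf ⊢
  rw [integral_map (c1.mono_ac (withDensity_absolutelyContinuous _ _)) hf]
  refine (integral_withDensity_eq_integral_smul₀ c2 _).trans ?_
  exact integral_congr_ae (Eventually.of_forall fun x => by
    simp [NNReal.smul_def, jacT_nonneg])

theorem Imm.lintegral_eq [SecondCountableTopology E] (h : Imm m S T Ψ A) {t : Set D}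
    (ht : MeasurableSet t) (hS : t ⊆ S) (hi : InjOn Ψ t) {f : E → ℝ≥0∞} (hf : Measurable f) :
    ∫⁻ y in Ψ '' t, f y ∂μH[m] =
      ∫⁻ x in t, f (Ψ x) * ENNReal.ofReal (jacT (A x) (T x)) ∂μH[m] := by
  have c1 : AEMeasurable Ψ (μH[m].restrict t) := (h.continuousOn.mono hS).aemeasurable ht
  have c2 : AEMeasurable (fun x => ENNReal.ofReal (jacT (A x) (T x))) (μH[m].restrict t) :=
    ((h.cont.mono hS).aemeasurable ht).ennreal_ofReal
  rw [← h.map_eq ht hS hi, lintegral_map' hf.aemeasurable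
    (c1.mono_ac (withDensity_absolutelyContinuous _ _)),
    lintegral_withDensity_eq_lintegral_mul₀ (g := fun x => f (Ψ x)) c2 (hf.comp_aemeasurable c1)]
  exact lintegral_congr fun x => mul_comm _ _

end Vale.Agent.P218B
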