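import Mathlib

/-!
# P218B: bounds for 2-jets, functions descended along local diffeomorphisms, near identity maps
-/

noncomputable section

open Set Filter Topology Module
open scoped ContDiff

set_option linter.unusedSectionVars false

namespace Vale.Agent.P218B

variable {D E F G : Type*} [NormedAddCommGroup D] [NormedSpace ℝ D] [NormedAddCommGroup E]
  [NormedSpace ℝ E] [NormedAddCommGroup F] [NormedSpace ℝ F] [NormedAddCommGroup G]
  [NormedSpace ℝ G]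

/-- the second derivative -/
abbrev d2 (f : D → E) (x : D) : D →L[ℝ] D →L[ℝ] E := fderiv ℝ (fderiv ℝ f) x

section basic

variable {f f' : D → E} {g : D → F} {x : D}

theorem hasD1 (h : ContDiffAt ℝ 2 f x) : HasFDerivAt f (fderiv ℝ f x) x :=
  (h.differentiableAt (by simp)).hasFDerivAt

theorem hasD2 (h : ContDiffAt ℝ 2 f x) : HasFDerivAt (fderiv ℝ f) (d2 f x) x :=
  ((h.fderiv_right (m := 1) (by norm_num)).differentiableAt (by simp)).hasFDerivAt

theorem evD1 (h : ContDiffAt ℝ 2 f x) : ∀ᶠ y in 𝓝 x, HasFDerivAt f (fderiv ℝ f y) y :=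
  (h.eventually (by simp)).mono fun _ k => hasD1 k

theorem d2_symm (h : ContDiffAt ℝ 2 f x) (v v' : D) : d2 f x v v' = d2 f x v' v :=
  (h.isSymmSndFDerivAt (by simp)).eq v v'

theorem d2_congr (h : f =ᶠ[𝓝 x] f') : d2 f x = d2 f' x := h.fderiv.fderiv_eq

theorem d2_of {A : D → D →L[ℝ] E} {B : D →L[ℝ] D →L[ℝ] E} (h : ∀ᶠ y in 𝓝 x, HasFDerivAt f (A y) y)
    (h' : HasFDerivAt A B x) : d2 f x = B :=
  (h'.congr_of_eventuallyEq (h.mono fun _ k => k.fderiv)).fderiv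

theorem d2_comp {φ : E → F} (hφ : ContDiffAt ℝ 2 φ (f x)) (hf : ContDiffAt ℝ 2 f x) (v v' : D) :
    d2 (fun y => φ (f y)) x v v' = d2 φ (f x) (fderiv ℝ f x v) (fderiv ℝ f x v') +
      fderiv ℝ φ (f x) (d2 f x v v') := by
  have h1 : ∀ᶠ y in 𝓝 x, HasFDerivAt (fun y => φ (f y)) (fderiv ℝ φ (f y) ∘L fderiv ℝ f y) y := by
    filter_upwards [evD1 hf, hf.continuousAt.eventually (evD1 hφ)] with y k1 k2
    exact k2.comp y k1
  rw [d2_of h1 (((hasD2 hφ).comp x (hasD1 hf)).clm_comp (hasD2 hf))]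
  simp [add_comm]

theorem d1_comp {φ : E → F} (hφ : ContDiffAt ℝ 2 φ (f x)) (hf : ContDiffAt ℝ 2 f x) (v : D) :
    fderiv ℝ (fun y => φ (f y)) x v = fderiv ℝ φ (f x) (fderiv ℝ f x v) := by
  have h : HasFDerivAt (fun y => φ (f y)) _ x := (hasD1 hφ).comp x (hasD1 hf)
  rw [h.fderiv]
  rfl

theorem d1_bil (B : E →L[ℝ] F →L[ℝ] G) (hf : ContDiffAt ℝ 2 f x) (hg : ContDiffAt ℝ 2 g x) (v : D) :
    fderiv ℝ (fun y => B (f y) (g y)) x v =
      B (fderiv ℝ f x v) (g x) + B (f x) (fderiv ℝ g x v) := by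
  rw [(B.hasFDerivAt_of_bilinear (hasD1 hf) (hasD1 hg)).fderiv]
  simp [add_comm]

theorem d2_bil (B : E →L[ℝ] F →L[ℝ] G) (hf : ContDiffAt ℝ 2 f x) (hg : ContDiffAt ℝ 2 g x)
    (v v' : D) : d2 (fun y => B (f y) (g y)) x v v' =
      B (d2 f x v v') (g x) + B (fderiv ℝ f x v') (fderiv ℝ g x v) +
        B (fderiv ℝ f x v) (fderiv ℝ g x v') + B (f x) (d2 g x v v') := by
  have h1 : ∀ᶠ y in 𝓝 x, HasFDerivAt (fun y => B (f y) (g y))
      (B.precompR D (f y) (fderiv ℝ g y) + B.precompL D (fderiv ℝ f y) (g y)) y := by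
    filter_upwards [evD1 hf, evD1 hg] with y k1 k2
    exact B.hasFDerivAt_of_bilinear k1 k2
  rw [d2_of h1 (((B.precompR D).hasFDerivAt_of_bilinear (hasD1 hf) (hasD2 hg)).add
    ((B.precompL D).hasFDerivAt_of_bilinear (hasD2 hf) (hasD1 hg)))]
  simp
  abel

theorem d2_add (hf : ContDiffAt ℝ 2 f x) (hg : ContDiffAt ℝ 2 f' x) :
    d2 (fun y => f y + f' y) x = d2 f x + d2 f' x :=
  d2_of ((evD1 hf).mp ((evD1 hg).mono fun _ k2 k1 => k1.add k2)) ((hasD2 hf).add (hasD2 hg))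

theorem d2_sub (hf : ContDiffAt ℝ 2 f x) (hg : ContDiffAt ℝ 2 f' x) :
    d2 (fun y => f y - f' y) x = d2 f x - d2 f' x :=
  d2_of ((evD1 hf).mp ((evD1 hg).mono fun _ k2 k1 => k1.sub k2)) ((hasD2 hf).sub (hasD2 hg))

theorem d2_clm (L : D →L[ℝ] E) (x : D) : d2 L x = 0 :=
  d2_of (Eventually.of_forall fun _ => L.hasFDerivAt) (hasFDerivAt_const _ _)

theorem d2_const (c : E) (x : D) : d2 (fun _ => c) x = 0 :=
  d2_of (Eventually.of_forall fun _ => hasFDerivAt_const _ _) (hasFDerivAt_const _ _)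

theorem d2_id (x : D) : d2 (fun y : D => y) x = 0 := d2_clm (.id ℝ D) x

theorem norm_d2_le {B : D →L[ℝ] D →L[ℝ] E} {c : ℝ} (c0 : 0 ≤ c)
    (h : ∀ v v', ‖B v v'‖ ≤ c * ‖v‖ * ‖v'‖) : ‖B‖ ≤ c :=
  B.opNorm_le_bound₂ c0 h

end basic

/-- bounds for the 2-jet of `f` at `x` -/
structure J2 (f : D → E) (x : D) (a b c : ℝ) : Prop where
  cd : ContDiffAt ℝ 2 f x
  h0 : ‖f x‖ ≤ a
  h1 : ‖fderiv ℝ f x‖ ≤ b
  h2 : ‖d2 f x‖ ≤ c

namespace J2

variable {f f' : D → E} {g : D → F} {x : D} {a b c a' b' c' : ℝ}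

theorem a0 (h : J2 f x a b c) : 0 ≤ a := (norm_nonneg _).trans h.h0
theorem b0 (h : J2 f x a b c) : 0 ≤ b := (norm_nonneg _).trans h.h1
theorem c0 (h : J2 f x a b c) : 0 ≤ c := (d2 f x).opNorm_nonneg.trans h.h2

theorem d1 (h : J2 f x a b c) (v : D) : ‖fderiv ℝ f x v‖ ≤ b * ‖v‖ :=
  (fderiv ℝ f x).le_of_opNorm_le h.h1 v

theorem dd (h : J2 f x a b c) (v v' : D) : ‖d2 f x v v'‖ ≤ c * ‖v‖ * ‖v'‖ :=
  (d2 f x).le_of_opNorm₂_le_of_le h.h2 le_rfl le_rfl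

theorem self (h : ContDiffAt ℝ 2 f x) : J2 f x ‖f x‖ ‖fderiv ℝ f x‖ ‖d2 f x‖ :=
  ⟨h, le_rfl, le_rfl, le_rfl⟩

theorem mono (h : J2 f x a b c) (ha : a ≤ a') (hb : b ≤ b') (hc : c ≤ c') : J2 f x a' b' c' :=
  ⟨h.cd, h.h0.trans ha, h.h1.trans hb, h.h2.trans hc⟩

theorem congr (h : J2 f x a b c) (e : f' =ᶠ[𝓝 x] f) : J2 f' x a b c :=
  ⟨h.cd.congr_of_eventuallyEq e, e.eq_of_nhds ▸ h.h0, e.fderiv_eq (𝕜 := ℝ) ▸ h.h1,
    d2_congr e ▸ h.h2⟩

theorem const (v : E) (x : D) : J2 (fun _ => v) x ‖v‖ 0 0 :=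
  ⟨contDiffAt_const, le_rfl, by simp, norm_d2_le le_rfl (by simp [d2_const])⟩

theorem zero (e : f =ᶠ[𝓝 x] fun _ => 0) : J2 f x 0 0 0 := by
  simpa using (const (0 : E) x).congr e

theorem clm (L : D →L[ℝ] E) (x : D) : J2 L x (‖L‖ * ‖x‖) ‖L‖ 0 :=
  ⟨L.contDiff.contDiffAt, L.le_opNorm x, by rw [L.fderiv], norm_d2_le le_rfl (by simp [d2_clm])⟩

theorem id (x : D) : J2 (fun y : D => y) x ‖x‖ 1 0 :=
  ⟨contDiffAt_id, le_rfl, by simpa using ContinuousLinearMap.norm_id_le,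
    norm_d2_le le_rfl (by simp [d2_id])⟩

theorem add (h : J2 f x a b c) (h' : J2 f' x a' b' c') :
    J2 (fun y => f y + f' y) x (a + a') (b + b') (c + c') where
  cd := h.cd.add h'.cd
  h0 := norm_add_le_of_le h.h0 h'.h0
  h1 := by
    rw [((hasD1 h.cd).fun_add (hasD1 h'.cd)).fderiv]
    exact norm_add_le_of_le h.h1 h'.h1
  h2 := norm_d2_le (add_nonneg h.c0 h'.c0) fun v v' => by
    rw [d2_add h.cd h'.cd]
    exact (norm_add_le_of_le (h.dd v v') (h'.dd v v')).trans_eq (by ring)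

theorem sub (h : J2 f x a b c) (h' : J2 f' x a' b' c') :
    J2 (fun y => f y - f' y) x (a + a') (b + b') (c + c') where
  cd := h.cd.sub h'.cd
  h0 := norm_sub_le_of_le h.h0 h'.h0
  h1 := by
    rw [((hasD1 h.cd).fun_sub (hasD1 h'.cd)).fderiv]
    exact norm_sub_le_of_le h.h1 h'.h1
  h2 := norm_d2_le (add_nonneg h.c0 h'.c0) fun v v' => by
    rw [d2_sub h.cd h'.cd]
    exact (norm_sub_le_of_le (h.dd v v') (h'.dd v v')).trans_eq (by ring)

theorem sum {ι : Type*} (s : Finset ι) {u : ι → D → E} (h : ∀ i ∈ s, J2 (u i) x a b c) :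
    J2 (fun y => ∑ i ∈ s, u i y) x (s.card * a) (s.card * b) (s.card * c) := by
  classical
  induction s using Finset.induction_on with
  | empty => simpa using zero (f := fun _ : D => (0 : E)) (x := x) .rfl
  | insert i s hi ih =>
    simp only [Finset.sum_insert hi, Finset.card_insert_of_notMem hi]
    refine ((h i (by simp)).add (ih fun j hj => h j (by simp [hj]))).mono ?_ ?_ ?_ <;>
      push_cast <;> linarith

theorem comp {φ : E → F} (hφ : J2 φ (f x) a b c) (h : J2 f x a' b' c') :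
    J2 (fun y => φ (f y)) x a (b * b') (c * b' ^ 2 + b * c') where
  cd := hφ.cd.comp x h.cd
  h0 := hφ.h0
  h1 := ContinuousLinearMap.opNorm_le_bound _ (mul_nonneg hφ.b0 h.b0) fun v => by
    rw [d1_comp hφ.cd h.cd, mul_assoc]
    exact (hφ.d1 _).trans (mul_le_mul_of_nonneg_left (h.d1 v) hφ.b0)
  h2 := by
    have := hφ.b0
    have := hφ.c0
    have := h.b0
    have := h.c0
    refine norm_d2_le (by positivity) fun v v' => ?_
    rw [d2_comp hφ.cd h.cd]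
    refine (norm_add_le_of_le (hφ.dd _ _) (hφ.d1 _)).trans ?_
    calc _ ≤ c * (b' * ‖v‖) * (b' * ‖v'‖) + b * (c' * ‖v‖ * ‖v'‖) := by
          gcongr
          exacts [h.d1 v, h.d1 v', h.dd v v']
      _ = _ := by ring

theorem bil (B : E →L[ℝ] F →L[ℝ] G) (hB : ‖B‖ ≤ 1) (h : J2 f x a b c) (h' : J2 g x a' b' c') :
    J2 (fun y => B (f y) (g y)) x (a * a') (b * a' + a * b') (c * a' + 2 * b * b' + a * c') := by
  have := h.a0
  have := h.b0
  have := h.c0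
  have := h'.a0
  have := h'.b0
  have := h'.c0
  have k : ∀ {u w} {s t : ℝ}, ‖u‖ ≤ s → ‖w‖ ≤ t → ‖B u w‖ ≤ s * t := fun k1 k2 => by
    simpa using B.le_of_opNorm₂_le_of_le hB k1 k2
  refine ⟨(B.contDiff.contDiffAt.comp x h.cd).clm_apply h'.cd, k h.h0 h'.h0,
    ContinuousLinearMap.opNorm_le_bound _ (by positivity) fun v => ?_,
    norm_d2_le (by positivity) fun v v' => ?_⟩
  · rw [d1_bil B h.cd h'.cd]
    exact (norm_add_le_of_le (k (h.d1 v) h'.h0) (k h.h0 (h'.d1 v))).trans_eq (by ring)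
  · rw [d2_bil B h.cd h'.cd]
    exact (norm_add_le_of_le (norm_add_le_of_le (norm_add_le_of_le (k (h.dd v v') h'.h0)
      (k (h.d1 v') (h'.d1 v))) (k (h.d1 v) (h'.d1 v'))) (k h.h0 (h'.dd v v'))).trans_eq (by ring)

theorem smul {u : D → ℝ} (h : J2 u x a b c) (h' : J2 f x a' b' c') :
    J2 (fun y => u y • f y) x (a * a') (b * a' + a * b') (c * a' + 2 * b * b' + a * c') :=
  bil (ContinuousLinearMap.lsmul ℝ ℝ) ContinuousLinearMap.opNorm_lsmul_le h h'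

theorem mul {u u' : D → ℝ} (h : J2 u x a b c) (h' : J2 u' x a' b' c') :
    J2 (fun y => u y * u' y) x (a * a') (b * a' + a * b') (c * a' + 2 * b * b' + a * c') :=
  h.smul h'

theorem lin (L : E →L[ℝ] F) {l : ℝ} (hL : ‖L‖ ≤ l) (h : J2 f x a b c) :
    J2 (fun y => L (f y)) x (l * a) (l * b) (l * c) := by
  have l0 := (norm_nonneg _).trans hL
  refine ((clm L (f x)).comp h).mono (mul_le_mul hL h.h0 (norm_nonneg _) l0)
    (mul_le_mul_of_nonneg_right hL h.b0) ?_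
  simpa using mul_le_mul_of_nonneg_right hL h.c0

theorem prodMk {s t r : ℝ} (h : J2 f x s t r) (h' : J2 g x s t r) :
    J2 (fun y => (f y, g y)) x s t r := by
  have e : (fun y => (f y, g y)) = fun y => ContinuousLinearMap.inl ℝ E F (f y) +
    ContinuousLinearMap.inr ℝ E F (g y) := by
    funext y
    simp
  have c1 : ContDiffAt ℝ 2 (fun y => ContinuousLinearMap.inl ℝ E F (f y)) x := by
    have := h.cd
    fun_prop
  have c2 : ContDiffAt ℝ 2 (fun y => ContinuousLinearMap.inr ℝ E F (g y)) x := by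
    have := h'.cd
    fun_prop
  refine ⟨h.cd.prodMk h'.cd, norm_prod_le_iff.2 ⟨h.h0, h'.h0⟩,
    ContinuousLinearMap.opNorm_le_bound _ h.b0 fun v => ?_, norm_d2_le h.c0 fun v v' => ?_⟩
  · rw [((hasD1 h.cd).prodMk (hasD1 h'.cd)).fderiv]
    exact norm_prod_le_iff.2 ⟨h.d1 v, h'.d1 v⟩
  · rw [e, d2_add c1 c2, add_apply, add_apply,
      d2_comp (ContinuousLinearMap.contDiff _).contDiffAt h.cd,
      d2_comp (ContinuousLinearMap.contDiff _).contDiffAt h'.cd]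
    simp only [d2_clm, ContinuousLinearMap.fderiv, zero_apply, zero_add,
      ContinuousLinearMap.inl_apply, ContinuousLinearMap.inr_apply, Prod.mk_add_mk, add_zero]
    exact norm_prod_le_iff.2 ⟨h.dd v v', h'.dd v v'⟩

/-- bounds for `φ` from bounds for `φ ∘ f` -/
theorem of_comp {φ : E → F} {κ m : ℝ} (hφ : ContDiffAt ℝ 2 φ (f x)) (hf : ContDiffAt ℝ 2 f x)
    (κ0 : 0 ≤ κ) (hs : ∀ w, ∃ v, fderiv ℝ f x v = w ∧ ‖v‖ ≤ κ * ‖w‖) (hm : ‖d2 f x‖ ≤ m)
    (h : J2 (fun y => φ (f y)) x a b c) : J2 φ (f x) a (b * κ) ((c + b * κ * m) * κ ^ 2) := by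
  have := h.b0
  have := h.c0
  have m0 := (d2 f x).opNorm_nonneg.trans hm
  have k1 : ‖fderiv ℝ φ (f x)‖ ≤ b * κ :=
    ContinuousLinearMap.opNorm_le_bound _ (by positivity) fun w => by
      obtain ⟨v, rfl, k⟩ := hs w
      rw [← d1_comp hφ hf, mul_assoc]
      exact (h.d1 v).trans (by gcongr)
  refine ⟨hφ, h.h0, k1, norm_d2_le (by positivity) fun w w' => ?_⟩
  obtain ⟨v, e, k⟩ := hs w
  obtain ⟨v', e', k'⟩ := hs w'
  have e2 := d2_comp hφ hf v v'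
  rw [e, e', ← sub_eq_iff_eq_add] at e2
  rw [← e2]
  refine (norm_sub_le_of_le (h.dd v v') ((fderiv ℝ φ (f x)).le_of_opNorm_le_of_le k1
    ((d2 f x).le_of_opNorm₂_le_of_le hm k k'))).trans ?_
  calc _ ≤ c * (κ * ‖w‖) * (κ * ‖w'‖) + b * κ * (m * (κ * ‖w‖) * (κ * ‖w'‖)) := by gcongr
    _ = _ := by ring

end J2

/-! ### descent along local diffeomorphisms -/

open Classical in
/-- the function on `Φ '' O` induced by `u` -/
def desc (Φ : D → E) (O : Set D) (u : D → F) (y : E) : F :=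
  if h : ∃ a ∈ O, Φ a = y then u h.choose else 0

/-- `u` is constant on the fibres of `Φ` in `O` -/
def Fib (Φ : D → E) (O : Set D) (u : D → F) : Prop := ∀ a ∈ O, ∀ b ∈ O, Φ a = Φ b → u a = u b

/-- `Φ` is a local diffeomorphism of class `C^n` on the open set `O` -/
structure Loc (n : WithTop ℕ∞) (Φ : D → E) (O : Set D) : Prop where
  ne : n ≠ 0
  dim : finrank ℝ D = finrank ℝ E
  op : IsOpen O
  cd : ∀ a ∈ O, ContDiffAt ℝ n Φ a
  inj : ∀ a ∈ O, ∀ v, fderiv ℝ Φ a v = 0 → v = 0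

section desc

variable {Φ : D → E} {O : Set D} {u : D → F} {a : D} {n : WithTop ℕ∞}

theorem desc_apply (h : Fib Φ O u) (ha : a ∈ O) : desc Φ O u (Φ a) = u a := by
  have e : ∃ b ∈ O, Φ b = Φ a := ⟨a, ha, rfl⟩
  rw [desc, dif_pos e]
  exact h _ e.choose_spec.1 _ ha e.choose_spec.2

theorem desc_of_notMem {y : E} (hy : y ∉ Φ '' O) : desc Φ O u y = 0 := dif_neg hy

theorem desc_mem {y : E} {s : Set F} (h0 : 0 ∈ s) (h : ∀ a ∈ O, Φ a = y → u a ∈ s) :
    desc Φ O u y ∈ s := by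
  unfold desc
  split_ifs with e
  exacts [h _ e.choose_spec.1 e.choose_spec.2, h0]

theorem fib_of_injOn (h : InjOn Φ O) : Fib Φ O u := fun _ ha _ hb e => by rw [h ha hb e]

variable [FiniteDimensional ℝ D] [FiniteDimensional ℝ E]

theorem exists_equiv (hd : finrank ℝ D = finrank ℝ E) {A : D →L[ℝ] E}
    (h : ∀ v, A v = 0 → v = 0) : ∃ A' : D ≃L[ℝ] E, (A' : D →L[ℝ] E) = A := by
  have i : Function.Injective A.toLinearMap := (injective_iff_map_eq_zero _).2 h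
  exact ⟨(LinearEquiv.ofBijective A.toLinearMap ⟨i,
    (LinearMap.injective_iff_surjective_of_finrank_eq_finrank hd).1 i⟩).toContinuousLinearEquiv,
    rfl⟩

theorem right_inv (hd : finrank ℝ D = finrank ℝ E) {A : D →L[ℝ] E} {κ : ℝ}
    (h : ∀ v, ‖v‖ ≤ κ * ‖A v‖) (w : E) : ∃ v, A v = w ∧ ‖v‖ ≤ κ * ‖w‖ := by
  obtain ⟨A', rfl⟩ := exists_equiv hd (A := A) fun v hv => norm_le_zero_iff.1 (by simpa [hv] using h v)
  obtain ⟨v, rfl⟩ := A'.surjective w
  exact ⟨v, rfl, h v⟩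

theorem Loc.mono (h : Loc n Φ O) {O' : Set D} (h' : IsOpen O') (hO : O' ⊆ O) : Loc n Φ O' :=
  ⟨h.ne, h.dim, h', fun a ha => h.cd a (hO ha), fun a ha => h.inj a (hO ha)⟩

theorem Loc.inv (h : Loc n Φ O) (ha : a ∈ O) : ∃ g : E → D, ContDiffAt ℝ n g (Φ a) ∧
    g (Φ a) = a ∧ (∀ᶠ y in 𝓝 (Φ a), g y ∈ O ∧ Φ (g y) = y) ∧ ∀ᶠ b in 𝓝 a, g (Φ b) = b := by
  have := FiniteDimensional.complete ℝ D
  obtain ⟨A, hA⟩ := exists_equiv h.dim (h.inj a ha)
  have k : HasFDerivAt Φ (A : D →L[ℝ] E) a := hA ▸ ((h.cd a ha).differentiableAt h.ne).hasFDerivAt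
  have s := (h.cd a ha).hasStrictFDerivAt' k h.ne
  exact ⟨_, (h.cd a ha).to_localInverse k h.ne, s.localInverse_apply_image,
    (s.localInverse_tendsto.eventually (h.op.mem_nhds ha)).and s.eventually_right_inverse,
    s.eventually_left_inverse⟩

theorem Loc.image_mem (h : Loc n Φ O) (ha : a ∈ O) {N : Set D} (hN : N ∈ 𝓝 a) :
    Φ '' N ∈ 𝓝 (Φ a) := by
  obtain ⟨g, k1, k2, k3, -⟩ := h.inv ha
  filter_upwards [k3, k1.continuousAt.eventually (show ∀ᶠ b in 𝓝 (g (Φ a)), b ∈ N by rwa [k2])]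
    with y k k'
  exact ⟨_, k', k.2⟩

theorem Loc.isOpen_image (h : Loc n Φ O) : IsOpen (Φ '' O) := isOpen_iff_mem_nhds.2 <| by
  rintro _ ⟨a, ha, rfl⟩
  exact h.image_mem ha (h.op.mem_nhds ha)

theorem Loc.desc_ev (h : Loc n Φ O) (hu : Fib Φ O u) (ha : a ∈ O) :
    (fun b => desc Φ O u (Φ b)) =ᶠ[𝓝 a] u :=
  (h.op.eventually_mem ha).mono fun _ k => desc_apply hu k

theorem Loc.contDiffAt_desc (h : Loc n Φ O) (hu : Fib Φ O u) (ha : a ∈ O) {k : WithTop ℕ∞}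
    (hk : k ≤ n) (hc : ContDiffAt ℝ k u a) : ContDiffAt ℝ k (desc Φ O u) (Φ a) := by
  obtain ⟨g, k1, k2, k3, -⟩ := h.inv ha
  refine (ContDiffAt.comp (Φ a) (show ContDiffAt ℝ k u (g (Φ a)) by rwa [k2])
    (k1.of_le hk)).congr_of_eventuallyEq (k3.mono fun y k => ?_)
  rw [Function.comp, ← desc_apply hu k.1, k.2]

theorem Loc.continuousAt_desc (h : Loc n Φ O) (hu : Fib Φ O u) (ha : a ∈ O)
    (hc : ContinuousAt u a) : ContinuousAt (desc Φ O u) (Φ a) := by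
  obtain ⟨g, k1, k2, k3, -⟩ := h.inv ha
  refine (ContinuousAt.comp (show ContinuousAt u (g (Φ a)) by rwa [k2])
    k1.continuousAt).congr (k3.mono fun y k => ?_)
  rw [Function.comp, ← desc_apply hu k.1, k.2]

theorem Loc.j2_desc (h : Loc n Φ O) (hn : 2 ≤ n) (hu : Fib Φ O u) (ha : a ∈ O) {κ m α β γ : ℝ}
    (κ0 : 0 ≤ κ) (hκ : ∀ v, ‖v‖ ≤ κ * ‖fderiv ℝ Φ a v‖) (hm : ‖d2 Φ a‖ ≤ m) (hj : J2 u a α β γ) :
    J2 (desc Φ O u) (Φ a) α (β * κ) ((γ + β * κ * m) * κ ^ 2) :=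
  J2.of_comp (h.contDiffAt_desc hu ha hn hj.cd) ((h.cd a ha).of_le hn) κ0 (right_inv h.dim hκ) hm
    (hj.congr (h.desc_ev hu ha))

/-- a descended function vanishes near points outside the closed image of its support -/
theorem desc_zero {y : E} {K : Set E} (hK : IsClosed K) (hy : y ∉ K)
    (h : ∀ a ∈ O, u a ≠ 0 → Φ a ∈ K) : desc Φ O u =ᶠ[𝓝 y] fun _ => 0 := by
  filter_upwards [hK.isOpen_compl.mem_nhds hy] with z hz
  exact desc_mem (s := {0}) rfl fun a ha e => by_contra fun k => hz (e ▸ h a ha k)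

end desc

/-! ### near identity maps -/

/-- a map of class `C²` whose derivative is close to the identity -/
structure NearId (Ψ : E → E) (M : ℝ) : Prop where
  cd : ContDiff ℝ 2 Ψ
  d1 : ∀ p, ‖fderiv ℝ Ψ p - .id ℝ E‖ ≤ 1 / 2
  dd : ∀ p, ‖d2 Ψ p‖ ≤ M

namespace NearId

variable {Ψ : E → E} {M : ℝ} (h : NearId Ψ M)
include h

theorem lo (p v : E) : ‖v‖ ≤ 2 * ‖fderiv ℝ Ψ p v‖ := by
  have k := (fderiv ℝ Ψ p - ContinuousLinearMap.id ℝ E).le_of_opNorm_le (h.d1 p) v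
  rw [sub_apply, ContinuousLinearMap.id_apply] at k
  have := norm_sub_norm_le v (fderiv ℝ Ψ p v)
  rw [norm_sub_rev] at this
  linarith

theorem hi (p : E) : ‖fderiv ℝ Ψ p‖ ≤ 3 / 2 := by
  have := norm_le_norm_add_norm_sub' (fderiv ℝ Ψ p) (.id ℝ E)
  have := ContinuousLinearMap.norm_id_le (𝕜 := ℝ) (E := E)
  have := h.d1 p
  linarith

theorem approx (p q : E) : ‖Ψ p - Ψ q - (p - q)‖ ≤ 1 / 2 * ‖p - q‖ :=
  convex_univ.norm_image_sub_le_of_norm_fderiv_le' (φ := .id ℝ E)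
    (fun z _ => h.cd.differentiable (by simp) z) (fun z _ => h.d1 z) (mem_univ q) (mem_univ p)

theorem anti (p q : E) : ‖p - q‖ ≤ 2 * ‖Ψ p - Ψ q‖ := by
  have k := h.approx p q
  have := norm_sub_norm_le (p - q) (Ψ p - Ψ q)
  rw [norm_sub_rev (p - q)] at this
  linarith

theorem lip (p q : E) : ‖Ψ p - Ψ q‖ ≤ 3 / 2 * ‖p - q‖ := by
  have k := h.approx p q
  have := norm_sub_norm_le (Ψ p - Ψ q) (p - q)
  linarith

theorem injective : Function.Injective Ψ := fun p q e =>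
  sub_eq_zero.1 (norm_le_zero_iff.1 (by simpa [e] using h.anti p q))

variable [FiniteDimensional ℝ E]

theorem surjective : Function.Surjective Ψ := by
  have := FiniteDimensional.complete ℝ E
  rcases subsingleton_or_nontrivial E with hE | hE
  · exact Function.surjective_to_subsingleton _
  refine ApproximatesLinearOn.surjective (f' := ContinuousLinearEquiv.refl ℝ E) (c := 1 / 2)
    (fun p _ q _ => by simpa using h.approx p q) (.inr ?_)
  simp
  norm_num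

theorem loc : Loc 2 Ψ univ :=
  ⟨by simp, rfl, isOpen_univ, fun _ _ => h.cd.contDiffAt,
    fun a _ v hv => norm_le_zero_iff.1 (by simpa [hv] using h.lo a v)⟩

theorem desc_apply (u : E → F) (p : E) : desc Ψ univ u (Ψ p) = u p :=
  P218B.desc_apply (fib_of_injOn h.injective.injOn) (mem_univ p)

theorem contDiff_desc {u : E → F} (hu : ContDiff ℝ 2 u) : ContDiff ℝ 2 (desc Ψ univ u) :=
  contDiff_iff_contDiffAt.2 fun y => by
    obtain ⟨p, rfl⟩ := h.surjective y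
    exact h.loc.contDiffAt_desc (fib_of_injOn h.injective.injOn) (mem_univ p) le_rfl hu.contDiffAt

theorem j2_desc {u : E → F} {p : E} {α β γ : ℝ} (hj : J2 u p α β γ) :
    J2 (desc Ψ univ u) (Ψ p) α (β * 2) ((γ + β * 2 * M) * 2 ^ 2) :=
  h.loc.j2_desc le_rfl (fib_of_injOn h.injective.injOn) (mem_univ p) zero_le_two (h.lo p) (h.dd p) hj

end NearId

end Vale.Agent.P218B
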