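import Vale.Agent.P218B.Spec

/-!
# P218B: far out, the ends lie in disjoint narrow cones
-/

set_option linter.all false

noncomputable section

open Set Filter Topology
open scoped RealInnerProductSpace Real

namespace Vale.Agent.P218B

open Vale.Agent.P218T

namespace Sep

theorem bdd_strip {Φ : ℝ × ℝ → E3} (hc : Continuous Φ) (hp : Per Φ) (R A : ℝ) :
    Bornology.IsBounded (Φ '' {y | R ≤ y.1 ∧ y.1 ≤ A}) := by
  refine (((isCompact_Icc (a := R) (b := A)).prod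
    (isCompact_Icc (a := (0 : ℝ)) (b := 2 * π))).image hc).isBounded.subset ?_
  rintro _ ⟨⟨z, θ⟩, hy, rfl⟩
  have h : Function.Periodic (fun θ => Φ (z, θ)) (2 * π) := hp z
  obtain ⟨θ', h1, h2⟩ := h.exists_mem_Ico₀ Real.two_pi_pos θ
  exact ⟨(z, θ'), ⟨hy, Ico_subset_Icc_self h1⟩, h2.symm⟩

theorem cyl_cont (Q : E3 ≃ₗᵢ[ℝ] E3) {f : ℝ × ℝ → ℝ} (hf : Decays f) : Continuous (cylPt Q f) := by
  have := hf.smooth.continuous
  unfold cylPt
  refine Q.continuous.comp ?_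
  refine (PiLp.continuous_toLp 2 _).comp (continuous_pi fun i => ?_)
  fin_cases i <;> simp <;> fun_prop

theorem cyl_per (Q : E3 ≃ₗᵢ[ℝ] E3) {f : ℝ × ℝ → ℝ} (hf : Decays f) : Per (cylPt Q f) := by
  intro z θ
  simp only [cylPt, hf.per, Real.cos_add_two_pi, Real.sin_add_two_pi]

theorem cone_cont {γ n : ℝ → E3} (h : IsLink γ n) {g : ℝ × ℝ → ℝ} (hg : Decays g) :
    Continuous (conePt γ n g) := by
  have := hg.smooth.continuous
  have := h.smooth.continuous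
  have := h.smooth_n.continuous
  unfold conePt
  fun_prop

theorem cone_per {γ n : ℝ → E3} (h : IsLink γ n) {g : ℝ × ℝ → ℝ} (hg : Decays g) :
    Per (conePt γ n g) := by
  intro z θ
  simp only [conePt, hg.per, h.per, h.per_n]

theorem norm_axis (Q : E3 ≃ₗᵢ[ℝ] E3) : ‖axis Q‖ = 1 := by
  rw [axis, Q.norm_map, EuclideanSpace.norm_eq]
  simp [Fin.sum_univ_three]

theorem range_compact {γ n : ℝ → E3} (h : IsLink γ n) : IsCompact (range γ) :=
  Function.Periodic.compact_of_continuous (c := 2 * π) h.per Real.two_pi_pos.ne'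
    h.smooth.continuous

/-- the direction of `x` is close to `a` -/
def Nr (a : E3) (τ : ℝ) (x : E3) : Prop := 0 < ‖x‖ ∧ ‖‖x‖ • a - x‖ ≤ 4 * τ * ‖x‖

theorem nr_of {a x : E3} {τ l : ℝ} (ha : ‖a‖ = 1) (hl : 0 < l) (h0 : 0 ≤ τ) (hτ : τ ≤ 1 / 2)
    (h : ‖x - l • a‖ ≤ τ * l) : Nr a τ x := by
  have h1 : |‖x‖ - l| ≤ τ * l := by
    have := abs_norm_sub_norm_le x (l • a)
    rw [norm_smul, ha, mul_one, Real.norm_of_nonneg hl.le] at this
    exact this.trans h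
  have h2 : l ≤ 2 * ‖x‖ := by nlinarith [(abs_le.1 h1).1]
  refine ⟨by linarith, ?_⟩
  have h3 : ‖x‖ • a - x = (‖x‖ - l) • a - (x - l • a) := by rw [sub_smul]; abel
  have h4 := norm_sub_le ((‖x‖ - l) • a) (x - l • a)
  rw [norm_smul, ha, mul_one, Real.norm_eq_abs] at h4
  rw [h3]
  nlinarith [mul_le_mul_of_nonneg_left h2 h0]

theorem Nr.dist {a b x : E3} {τ : ℝ} (ha : Nr a τ x) (hb : Nr b τ x) : ‖a - b‖ ≤ 8 * τ := by
  have h1 : ‖x‖ • (a - b) = (‖x‖ • a - x) - (‖x‖ • b - x) := by rw [smul_sub]; abel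
  have h2 := norm_sub_le (‖x‖ • a - x) (‖x‖ • b - x)
  rw [← h1, norm_smul, norm_norm] at h2
  refine le_of_mul_le_mul_left ?_ ha.1
  linarith [ha.2, hb.2]

theorem nr_Cn {e x : E3} {τ : ℝ} (he : ‖e‖ = 1) (h0 : 0 ≤ τ) (hτ : τ ≤ 1 / 2)
    (hx : x ∈ Cn e τ 1) : Nr e τ x :=
  nr_of he (one_pos.trans_le hx.1) h0 hτ hx.2

theorem nr_Ck {γ n : ℝ → E3} (h : IsLink γ n) {x : E3} {τ : ℝ} (h0 : 0 ≤ τ) (hτ : τ ≤ 1 / 2)
    (hx : x ∈ Ck γ n τ 1) : ∃ a ∈ range γ, Nr a τ x := by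
  obtain ⟨q, ⟨h1, h2⟩, rfl⟩ := hx
  have hz : 0 < q.1.1 := one_pos.trans_le h1
  refine ⟨_, ⟨q.1.2, rfl⟩, nr_of (h.unit _) hz h0 hτ ?_⟩
  rw [coc, smul_add, add_sub_cancel_left, norm_smul, norm_smul, h.unit_n, mul_one,
    Real.norm_of_nonneg hz.le, Real.norm_eq_abs, mul_comm]
  exact mul_le_mul_of_nonneg_right h2 hz.le

theorem ev_far {K L : Set E3} (hK : IsCompact K) (hL : IsCompact L) (h : Disjoint K L) :
    ∀ᶠ τ in 𝓝[>] (0 : ℝ), ∀ a ∈ K, ∀ b ∈ L, 8 * τ < ‖a - b‖ := by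
  obtain ⟨r, hr, h1⟩ := Metric.exists_pos_forall_lt_edist hK hL.isClosed h
  have h2 : ∀ᶠ τ in 𝓝[>] (0 : ℝ), τ < (r : ℝ) / 8 :=
    (eventually_lt_nhds (by positivity : (0 : ℝ) < (r : ℝ) / 8)).filter_mono nhdsWithin_le_nhds
  filter_upwards [h2] with τ hτ a ha b hb
  have h3 := h1 a ha b hb
  rw [edist_nndist, ENNReal.coe_lt_coe, ← NNReal.coe_lt_coe, coe_nndist, dist_eq_norm] at h3
  linarith

end Sep

open Sep in
theorem sep : SEP := by
  intro S w δ C n₁ n₂ Q f γ n g R h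
  refine ⟨fun A => ?_, ?_⟩
  · have hb := (h.cover.union (Bornology.isBounded_iUnion.2 fun j =>
      bdd_strip (cyl_cont (Q j) (h.cyl j)) (cyl_per (Q j) (h.cyl j)) R A)).union
      (Bornology.isBounded_iUnion.2 fun l =>
        bdd_strip (cone_cont (h.link l) (h.cone l)) (cone_per (h.link l) (h.cone l)) R A)
    obtain ⟨a, ha⟩ := hb.exists_norm_le
    refine ⟨a + 1, fun p hp hap => ?_⟩
    have hn : ∀ T : Set E3, T ⊆ _ → p ∉ T := fun T hT hpT => by linarith [ha p (hT hpT)]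
    have h1 := hn _ (subset_union_left.trans subset_union_left)
    have h2 := hn _ (subset_union_right.trans subset_union_left)
    have h3 := hn _ subset_union_right
    rw [mem_diff, not_and_not_right] at h1
    rcases h1 hp with h4 | h4
    · obtain ⟨j, y, hy, rfl⟩ := mem_iUnion.1 h4
      refine Or.inl ⟨j, y, ?_, rfl⟩
      by_contra hc
      exact h2 (mem_iUnion.2 ⟨j, y, ⟨hy, (not_le.1 hc).le⟩, rfl⟩)
    · obtain ⟨l, y, hy, rfl⟩ := mem_iUnion.1 h4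
      refine Or.inr ⟨l, y, ?_, rfl⟩
      by_contra hc
      exact h3 (mem_iUnion.2 ⟨l, y, ⟨hy, (not_le.1 hc).le⟩, rfl⟩)
  · have e1 : ∀ᶠ τ in 𝓝[>] (0 : ℝ), ∀ j j', j ≠ j' → ∀ a ∈ ({axis (Q j)} : Set E3),
        ∀ b ∈ ({axis (Q j')} : Set E3), 8 * τ < ‖a - b‖ :=
      eventually_all.2 fun j => eventually_all.2 fun j' => eventually_imp_distrib_left.2 fun hj =>
        ev_far isCompact_singleton isCompact_singleton
          (disjoint_singleton.2 fun h0 => hj (h.axis_inj h0))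
    have e2 : ∀ᶠ τ in 𝓝[>] (0 : ℝ), ∀ j l, ∀ a ∈ ({axis (Q j)} : Set E3),
        ∀ b ∈ range (γ l), 8 * τ < ‖a - b‖ :=
      eventually_all.2 fun j => eventually_all.2 fun l =>
        ev_far isCompact_singleton (range_compact (h.link l))
          (disjoint_singleton_left.2 fun ⟨θ, h0⟩ => h.axis_link j l θ h0.symm)
    have e3 : ∀ᶠ τ in 𝓝[>] (0 : ℝ), ∀ l l', l ≠ l' → ∀ a ∈ range (γ l),
        ∀ b ∈ range (γ l'), 8 * τ < ‖a - b‖ :=
      eventually_all.2 fun l => eventually_all.2 fun l' => eventually_imp_distrib_left.2 fun hl =>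
        ev_far (range_compact (h.link l)) (range_compact (h.link l'))
          (disjoint_left.2 fun _ ⟨θ, h0⟩ ⟨θ', h1⟩ => hl (h.link_link l l' θ θ' (h0.trans h1.symm)))
    have e4 : ∀ᶠ τ in 𝓝[>] (0 : ℝ), τ < 1 / 2 :=
      (eventually_lt_nhds (by norm_num : (0 : ℝ) < 1 / 2)).filter_mono nhdsWithin_le_nhds
    obtain ⟨τ, ⟨⟨⟨a1, a2⟩, a3⟩, a4⟩, a5⟩ :=
      ((((e1.and e2).and e3).and e4).and self_mem_nhdsWithin).exists
    have h0 : 0 < τ := a5
    refine ⟨τ, h0, by linarith, fun j j' hj => disjoint_left.2 fun x hx hx' => ?_,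
      fun j l => disjoint_left.2 fun x hx hx' => ?_,
      fun l l' hl => disjoint_left.2 fun x hx hx' => ?_⟩
    · exact (a1 j j' hj _ rfl _ rfl).not_ge
        ((nr_Cn (norm_axis _) h0.le a4.le hx).dist (nr_Cn (norm_axis _) h0.le a4.le hx'))
    · obtain ⟨b, hb, hb'⟩ := nr_Ck (h.link l) h0.le a4.le hx'
      exact (a2 j l _ rfl b hb).not_ge ((nr_Cn (norm_axis _) h0.le a4.le hx).dist hb')
    · obtain ⟨a, ha, ha'⟩ := nr_Ck (h.link l) h0.le a4.le hx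
      obtain ⟨b, hb, hb'⟩ := nr_Ck (h.link l') h0.le a4.le hx'
      exact (a3 l l' hl a ha b hb).not_ge (ha'.dist hb')

end Vale.Agent.P218B
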