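import Vale.Agent.P218B.Spec

/-!
# P218B: extension from a cone
-/

noncomputable section

open Set Filter Topology
open scoped RealInnerProductSpace Real ContDiff

namespace Vale.Agent.P218B

open Vale.Agent.P218T

namespace Xco

variable {γ n : ℝ → E3} {δ τ κ : ℝ}

/-- the domain of the conical coordinates -/
def dm (δ : ℝ) : Set ((ℝ × ℝ) × ℝ) := {q | 0 < q.1.1 ∧ |q.2| < δ}

/-- the derivative of the conical coordinates at height one -/
def dc (γ n : ℝ → E3) (θ t a b c : ℝ) : E3 :=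
  a • (γ θ + t • n θ) + (b • deriv γ θ + (t • b • deriv n θ + c • n θ))

theorem two : (2 : WithTop ℕ∞) ≤ ∞ := WithTop.coe_le_coe.2 le_top

theorem red (θ : ℝ) : ∃ k : ℤ, θ - k * (2 * π) ∈ Ico 0 (2 * π) :=
  ⟨toIcoDiv Real.two_pi_pos 0 θ, by
    rw [← zsmul_eq_mul]; exact toIcoMod_mem_Ico' Real.two_pi_pos θ⟩

theorem coc_per (h : IsLink γ n) (z θ t : ℝ) (k : ℤ) :
    coc γ n ((z, θ - k * (2 * π)), t) = coc γ n ((z, θ), t) := by
  simp only [coc, Function.Periodic.sub_int_mul_eq h.per, Function.Periodic.sub_int_mul_eq h.per_n]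

theorem cd_coc (h : IsLink γ n) : ContDiff ℝ ∞ (coc γ n) := by
  have := h.smooth
  have := h.smooth_n
  unfold coc
  fun_prop

theorem norm_coc (h : IsLink γ n) (q : (ℝ × ℝ) × ℝ) :
    ‖coc γ n q‖ ^ 2 = q.1.1 ^ 2 * (1 + q.2 ^ 2) := by
  rw [coc, norm_smul, mul_pow, Real.norm_eq_abs, sq_abs, norm_add_sq_real, norm_smul,
    real_inner_smul_right, real_inner_comm, h.perp, h.unit, h.unit_n]
  simp

theorem le_norm (h : IsLink γ n) (q : (ℝ × ℝ) × ℝ) : q.1.1 ≤ ‖coc γ n q‖ :=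
  (abs_le_of_sq_le_sq' (by nlinarith [norm_coc h q, sq_nonneg (q.1.1 * q.2)]) (norm_nonneg _)).2

theorem closed (h : IsLink γ n) (τ : ℝ) {a : ℝ} : IsClosed (Ck γ n τ a) := by
  refine isOpen_compl_iff.1 (isOpen_iff_mem_nhds.2 fun x hx => ?_)
  have k := (((isCompact_Icc (a := a) (b := ‖x‖ + 1)).prod (isCompact_Icc (a := 0) (b := 2 * π))
    ).prod (isCompact_Icc (a := -τ) (b := τ))).image (cd_coc h).continuous
  filter_upwards [k.isClosed.isOpen_compl.mem_nhds fun ⟨q, hq, e⟩ =>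
    hx ⟨q, ⟨hq.1.1.1, abs_le.2 hq.2⟩, e⟩,
    (isOpen_lt continuous_norm continuous_const).mem_nhds (lt_add_one ‖x‖)] with y h1 h2
  rintro ⟨q, hq, rfl⟩
  obtain ⟨j, hj⟩ := red q.1.2
  exact h1 ⟨((q.1.1, q.1.2 - j * (2 * π)), q.2), ⟨⟨⟨hq.1, (le_norm h q).trans (le_of_lt h2)⟩,
    Ico_subset_Icc_self hj⟩, abs_le.1 hq.2⟩, coc_per h ..⟩

theorem fd (h : IsLink γ n) (q v : (ℝ × ℝ) × ℝ) :
    fderiv ℝ (coc γ n) q v = dc γ n q.1.2 q.2 v.1.1 (q.1.1 * v.1.2) (q.1.1 * v.2) := by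
  have p1 := (hasFDerivAt_fst (𝕜 := ℝ) (p := q)).fst
  have p2 := (hasFDerivAt_fst (𝕜 := ℝ) (p := q)).snd
  have g := (h.smooth.differentiable (by simp) q.1.2).hasDerivAt.hasFDerivAt.comp q p2
  have g' := (h.smooth_n.differentiable (by simp) q.1.2).hasDerivAt.hasFDerivAt.comp q p2
  have := p1.smul (g.add (hasFDerivAt_snd.smul g'))
  rw [show fderiv ℝ (coc γ n) q = _ from this.fderiv]
  simp [dc]
  module

theorem low (h : IsLink γ n) : ∃ κ > 0, ∃ δ > 0, ∀ θ t, |t| < δ → ∀ a b c,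
    ‖((a, b), c)‖ ≤ κ * ‖dc γ n θ t a b c‖ := by
  obtain ⟨l, l0, hl⟩ := h.speed
  have p : Function.Periodic (deriv n) (2 * π) := fun θ => by
    rw [← deriv_comp_add_const]; simp only [h.per_n]
  obtain ⟨N, N0, hN⟩ := (p.isBounded_of_continuous (by positivity)
    (h.smooth_n.continuous_deriv (by simp))).exists_pos_norm_le
  refine ⟨2 * (1 + l⁻¹), by positivity, (2 * (1 + l⁻¹) * (1 + N))⁻¹, by positivity,
    fun θ t ht a b c => ?_⟩
  have d := (h.smooth.differentiable (by simp) θ).hasDerivAt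
  have o : ⟪deriv γ θ, γ θ⟫ = 0 := by
    have := (d.inner ℝ d).unique (by
      simpa only [real_inner_self_eq_norm_sq, h.unit] using hasDerivAt_const θ ((1 : ℝ) ^ 2))
    rw [real_inner_comm] at this
    linarith
  set w := a • γ θ + b • deriv γ θ + c • n θ with hw
  have i1 := abs_real_inner_le_norm w (γ θ)
  have i2 := abs_real_inner_le_norm w (deriv γ θ)
  have i3 := abs_real_inner_le_norm (n θ) w
  have o' : ⟪γ θ, deriv γ θ⟫ = 0 := (real_inner_comm _ _).trans o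
  have o2 : ⟪n θ, deriv γ θ⟫ = 0 := h.perp' θ
  simp only [hw, inner_add_left, inner_add_right, real_inner_smul_left, real_inner_smul_right,
    real_inner_self_eq_norm_sq, h.unit, h.unit_n, h.perp, o, o', o2, hl] at i1 i2 i3
  rw [← hw] at i1 i2 i3
  simp only [one_pow, mul_one, mul_zero, add_zero, zero_add, one_mul, abs_mul, abs_pow,
    abs_of_pos l0] at i1 i2 i3
  have li := inv_pos.2 l0
  have i4 : |b| ≤ l⁻¹ * ‖w‖ := by
    rw [le_inv_mul_iff₀ l0]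
    exact le_of_mul_le_mul_right (by linarith) l0
  have w0 := mul_nonneg li.le (norm_nonneg w)
  have a1 : ‖((a, b), c)‖ ≤ (1 + l⁻¹) * ‖w‖ := by
    simp only [Prod.norm_def, Real.norm_eq_abs, max_le_iff]
    exact ⟨⟨by linarith, by linarith [norm_nonneg w]⟩, by linarith⟩
  have ha : ‖a‖ ≤ ‖((a, b), c)‖ := (norm_fst_le (a, b)).trans (norm_fst_le ((a, b), c))
  have hb : ‖b‖ ≤ ‖((a, b), c)‖ := (norm_snd_le (a, b)).trans (norm_fst_le ((a, b), c))
  have a2 : ‖w‖ ≤ ‖dc γ n θ t a b c‖ + |t| * ((1 + N) * ‖((a, b), c)‖) := by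
    rw [show w = dc γ n θ t a b c - t • (a • n θ + b • deriv n θ) by rw [hw, dc]; module]
    refine norm_sub_le_of_le le_rfl ?_
    rw [norm_smul, Real.norm_eq_abs]
    refine mul_le_mul_of_nonneg_left ((norm_add_le _ _).trans ?_) (abs_nonneg t)
    rw [norm_smul, norm_smul, h.unit_n]
    nlinarith [mul_le_mul hb (hN _ (mem_range_self θ)) (norm_nonneg _) (norm_nonneg _)]
  have a3 : 2 * (1 + l⁻¹) * (1 + N) * |t| ≤ 1 := by
    rw [← le_div_iff₀' (by positivity), one_div]; exact ht.le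
  nlinarith [mul_le_mul_of_nonneg_left a2 (show 0 ≤ 1 + l⁻¹ by positivity),
    mul_le_mul_of_nonneg_right a3 (norm_nonneg ((a, b), c))]

theorem loc (h : IsLink γ n)
    (k : ∀ θ t, |t| < δ → ∀ a b c, ‖((a, b), c)‖ ≤ κ * ‖dc γ n θ t a b c‖) :
    Loc ∞ (coc γ n) (dm δ) := by
  refine ⟨by simp, by simp, IsOpen.and (isOpen_lt continuous_const (by fun_prop))
    (isOpen_lt (by fun_prop) continuous_const), fun _ _ => (cd_coc h).contDiffAt,
    fun q hq v hv => ?_⟩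
  have := k q.1.2 _ hq.2 v.1.1 (q.1.1 * v.1.2) (q.1.1 * v.2)
  rw [← fd h, hv, norm_zero, mul_zero, norm_le_zero_iff] at this
  simp only [Prod.mk_eq_zero, mul_eq_zero, hq.1.ne', false_or] at this
  exact Prod.ext (Prod.ext this.1.1 this.1.2) this.2

theorem inj (h : IsLink γ n) (δ0 : 0 < δ) (L : Loc ∞ (coc γ n) (dm δ)) : ∃ ε > 0,
    ∀ q ∈ dm ε, ∀ q' ∈ dm ε, coc γ n q = coc γ n q' → q'.2 = q.2 ∧ Eqm q.1 q'.1 := by
  have K := (isCompact_Icc (a := 0) (b := 2 * π)).prod (isCompact_Icc (a := 0) (b := 2 * π))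
  have c := (cd_coc h).continuous
  have E := K.eventually_forall_of_forall_eventually (x₀ := ((1 : ℝ), (0 : ℝ), (0 : ℝ)))
    (P := fun x y => coc γ n ((1, y.1), x.2.1) = coc γ n ((x.1, y.2), x.2.2) →
      x.2.2 = x.2.1 ∧ Eqm (1, y.1) (x.1, y.2)) fun y _ => by
    by_cases e : γ y.1 = γ y.2
    · obtain ⟨j, hj⟩ := red y.1
      obtain ⟨j', hj'⟩ := red y.2
      have e1 := h.inj hj hj' (by
        simp only [Function.Periodic.sub_int_mul_eq h.per, e])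
      obtain ⟨g, -, -, -, hg⟩ := L.inv (a := ((1, y.1), 0)) ⟨one_pos, by simpa using δ0⟩
      have t1 : Tendsto (fun z : (ℝ × ℝ × ℝ) × ℝ × ℝ => (((1 : ℝ), z.2.1), z.1.2.1))
          (𝓝 ((1, 0, 0), y)) (𝓝 ((1, y.1), 0)) := Continuous.tendsto' (by fun_prop) _ _ rfl
      have t2 : Tendsto (fun z : (ℝ × ℝ × ℝ) × ℝ × ℝ =>
          ((z.1.1, z.2.2 - (j' - j : ℤ) * (2 * π)), z.1.2.2)) (𝓝 ((1, 0, 0), y))
          (𝓝 ((1, y.1), 0)) := Continuous.tendsto' (by fun_prop) _ _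
            (Prod.ext (Prod.ext rfl (by push_cast; linarith)) rfl)
      filter_upwards [t1.eventually hg, t2.eventually hg] with z h1 h2 e2
      rw [coc_per h, ← e2, h1] at h2
      simp only [Prod.mk.injEq] at h2
      exact ⟨h2.2.symm, h2.1.1.symm, j' - j, by linarith [h2.1.2]⟩
    · have : IsOpen {z : (ℝ × ℝ × ℝ) × ℝ × ℝ |
          coc γ n ((1, z.2.1), z.1.2.1) ≠ coc γ n ((z.1.1, z.2.2), z.1.2.2)} :=
        isOpen_ne_fun (by fun_prop) (by fun_prop)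
      filter_upwards [this.mem_nhds (by simpa [coc] using e)] with z h1 e2 using (h1 e2).elim
  obtain ⟨ε, ε0, hε⟩ := Metric.eventually_nhds_iff.1 E
  refine ⟨min ε (1 / 2), by positivity, fun q hq q' hq' e => ?_⟩
  obtain ⟨j, hj⟩ := red q.1.2
  obtain ⟨j', hj'⟩ := red q'.1.2
  have z0 := hq.1
  have z0' := hq'.1
  obtain ⟨b1, b2⟩ := lt_min_iff.1 hq.2
  obtain ⟨b1', b2'⟩ := lt_min_iff.1 hq'.2
  have e1 : coc γ n ((1, q.1.2), q.2) = coc γ n ((q'.1.1 / q.1.1, q'.1.2), q'.2) := by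
    have := congrArg (q.1.1⁻¹ • ·) e
    simpa only [coc, smul_smul, inv_mul_cancel₀ z0.ne', div_eq_inv_mul] using this
  have n1 := norm_coc h ((1, q.1.2), q.2)
  rw [e1, norm_coc h] at n1
  have s0 := div_pos z0' z0
  have := hε (y := (q'.1.1 / q.1.1, q.2, q'.2)) (by
      simp only [Prod.dist_eq, Real.dist_eq, sub_zero, max_lt_iff, b1, b1', and_true]
      dsimp only at n1
      generalize q'.1.1 / q.1.1 = s at *
      have u1 : q.2 ^ 2 ≤ |q.2| / 2 := by nlinarith [sq_abs q.2, abs_nonneg q.2]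
      have u2 : q'.2 ^ 2 ≤ |q'.2| / 2 := by nlinarith [sq_abs q'.2, abs_nonneg q'.2]
      have u3 : s ^ 2 ≤ 2 := by nlinarith [sq_nonneg (s * q'.2)]
      have u4 := mul_le_mul u3 u2 (sq_nonneg _) zero_le_two
      rw [abs_lt]
      constructor <;> nlinarith [sq_nonneg q.2, sq_nonneg (s * q'.2), abs_nonneg q.2])
    (_, _) ⟨Ico_subset_Icc_self hj, Ico_subset_Icc_self hj'⟩ (by rw [coc_per h, coc_per h, e1])
  obtain ⟨e2, e3, k, e4⟩ := this
  refine ⟨e2, (div_eq_one_iff_eq z0.ne').1 e3, k + j' - j, ?_⟩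
  push_cast
  linarith

theorem Per.eqm {F : Type*} {u : ℝ × ℝ → F} (h : Per u) {y y' : ℝ × ℝ} (e : Eqm y y') :
    u y = u y' := by
  obtain ⟨e1, k, e2⟩ := e
  have : Function.Periodic (fun θ => u (y.1, θ)) (2 * π) := h y.1
  rw [show y' = (y.1, y.2 + k * (2 * π)) from Prod.ext e1 e2]
  exact (this.int_mul k y.2).symm

theorem bd {D E : Type*} [NormedAddCommGroup D] [NormedSpace ℝ D] [NormedAddCommGroup E]
    [NormedSpace ℝ E] {f : D → E} (h : ContDiff ℝ 2 f) {K : Set D} (hK : IsCompact K) :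
    ∃ B, 0 ≤ B ∧ ∀ x ∈ K, J2 f x B B B := by
  have c1 : ContDiff ℝ 1 (fderiv ℝ f) := h.fderiv_right (by norm_num)
  obtain ⟨B, hB⟩ := hK.exists_bound_of_continuousOn (h.continuous.prodMk
    (c1.continuous.prodMk (c1.continuous_fderiv one_ne_zero))).continuousOn
  exact ⟨|B|, abs_nonneg B, fun x hx =>
    have := norm_prod_le_iff.1 ((hB x hx).trans (le_abs_self B))
    ⟨h.contDiffAt, this.1, (norm_prod_le_iff.1 this.2).1, (norm_prod_le_iff.1 this.2).2⟩⟩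

end Xco

open Xco in
/-- **extension from a cone** -/
theorem xco : XCO := by
  intro γ n h
  obtain ⟨κ, κ0, δ, δ0, k⟩ := low h
  obtain ⟨ε, ε0, I⟩ := inj h δ0 (loc h k)
  refine ⟨min δ ε / 3, by positivity, fun τ a _ => closed h τ, fun τ τ0 hτ => ?_⟩
  set O := dm (min δ ε) with hO
  have L : Loc ∞ (coc γ n) O := loc h fun θ t ht => k θ t (ht.trans_le (min_le_left _ _))
  replace I : ∀ q ∈ O, ∀ q' ∈ O, coc γ n q = coc γ n q' → q'.2 = q.2 ∧ Eqm q.1 q'.1 :=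
    fun q hq q' hq' => I q ⟨hq.1, hq.2.trans_le (min_le_right _ _)⟩ q'
      ⟨hq'.1, hq'.2.trans_le (min_le_right _ _)⟩
  have mO : ∀ {y : ℝ × ℝ} {t}, 0 < y.1 → |t| ≤ 2 * τ → (y, t) ∈ O := fun h1 h2 =>
    ⟨h1, h2.trans_lt (by linarith)⟩
  let φ : ContDiffBump (0 : ℝ) := ⟨τ, 2 * τ, τ0, by linarith⟩
  have φ0 : ∀ t, φ t ≠ 0 → |t| ≤ 2 * τ := fun t ht => not_lt.1 fun l =>
    ht (φ.zero_of_le_dist (by simpa using l.le))
  have K := ((isCompact_singleton (x := (1 : ℝ))).prod (isCompact_Icc (a := 0) (b := 2 * π))).prod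
    (isCompact_Icc (a := -(2 * τ)) (b := 2 * τ))
  obtain ⟨B, B0, hB⟩ := bd (f := fun q : (ℝ × ℝ) × ℝ => φ q.2) (φ.contDiff.comp contDiff_snd) K
  obtain ⟨m, m0, hm⟩ := bd ((cd_coc h).of_le two) K
  have fib : ∀ u : ℝ × ℝ → E3, Per u → Fib (coc γ n) O fun q => φ q.2 • u q.1 :=
    fun u p a ha b hb e => by simp only [(I a ha b hb e).1, Per.eqm p (I a ha b hb e).2]
  refine ⟨B + 2 * B * κ + (4 * B + 2 * B * κ * m) * κ ^ 2, by positivity,
    desc (coc γ n) O fun q => φ q.2, desc (coc γ n) O Prod.fst, fun x => ?_,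
    fun y t y0 ht => ⟨?_, fun ht' => ?_⟩, fun u p u0 x ρ ρ0 hu => ?_⟩
  · unfold desc
    split_ifs with e
    · refine ⟨abs_le.2 ⟨by linarith [φ.nonneg' e.choose.2], φ.le_one (x := _)⟩, ?_, fun k =>
        ⟨_, φ0 _ k, e.choose_spec.2.symm⟩⟩
      exact (le_norm h _).trans_eq (congrArg _ e.choose_spec.2)
    · simp
  · have e : ∃ a ∈ O, coc γ n a = coc γ n (y, t) := ⟨_, mO y0 ht, rfl⟩
    rw [desc, dif_pos e]
    exact (I _ (mO y0 ht) _ e.choose_spec.1 e.choose_spec.2.symm).2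
  · rw [desc_apply (fun a ha b hb e => by rw [(I a ha b hb e).1]) (mO y0 ht)]
    exact φ.one_of_mem_closedBall (by simpa using ht')
  have e : (fun y => desc (coc γ n) O (fun q => φ q.2) y • u (desc (coc γ n) O Prod.fst y)) =
      desc (coc γ n) O fun q => φ q.2 • u q.1 := funext fun y => by
    unfold desc
    split_ifs
    exacts [rfl, zero_smul _ _]
  rw [e]
  by_cases hx : x ∈ Ck γ n (2 * τ) 1
  swap
  · exact (J2.zero (desc_zero (closed h _) hx fun a _ k => ⟨a, ⟨not_lt.1 fun l =>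
      k (by rw [u0 _ l.le, smul_zero]), φ0 _ (left_ne_zero_of_smul k)⟩, rfl⟩)).mono
      (by positivity) (by positivity) (by positivity)
  obtain ⟨⟨⟨z, θ'⟩, t⟩, ⟨z1, ht⟩, ex⟩ := hx
  obtain ⟨j, hj⟩ := red θ'
  dsimp only at z1 ht
  rw [← coc_per h z θ' t j] at ex
  generalize θ' - j * (2 * π) = θ at hj ex
  have z0 : 0 < z := one_pos.trans_le z1
  have zx : z ≤ ‖x‖ := ex ▸ le_norm h ((z, θ), t)
  have mK : (((1 : ℝ), θ), t) ∈ (({1} : Set ℝ) ×ˢ Icc 0 (2 * π)) ×ˢ Icc (-(2 * τ)) (2 * τ) :=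
    ⟨⟨rfl, Ico_subset_Icc_self hj⟩, abs_le.1 ht⟩
  have j1 := (hB _ mK).smul (J2.comp (f := ContinuousLinearMap.fst ℝ (ℝ × ℝ) ℝ)
    (x := ((1, θ), t)) (hu z θ z1 zx) ((J2.clm _ _).mono le_rfl
      (ContinuousLinearMap.norm_fst_le ..) le_rfl))
  have j2 := L.j2_desc two (fib (scl u z) fun s θ => by simp only [scl, p _ θ])
    (mO one_pos ht) κ0.le (fun v => by
      simpa [fd h] using k θ t ((mO (y := (1, θ)) one_pos ht).2.trans_le (min_le_left _ _))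
        v.1.1 v.1.2 v.2) (hm _ mK).h2 j1
  have sc : ∀ q : (ℝ × ℝ) × ℝ, z⁻¹ • coc γ n q = coc γ n ((z⁻¹ * q.1.1, q.1.2), q.2) := fun q => by
    simp only [coc, smul_smul]
  have n1 : ∀ s : ℝ, 0 ≤ s → ‖s • ContinuousLinearMap.id ℝ E3‖ ≤ s := fun s s0 => by
    rw [norm_smul, Real.norm_of_nonneg s0]
    exact mul_le_of_le_one_right s0 ContinuousLinearMap.norm_id_le
  have j3 := (J2.comp (f := z⁻¹ • ContinuousLinearMap.id ℝ E3) (x := x) (by
    convert j2 using 1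
    rw [← ex]
    exact (sc _).trans (by rw [inv_mul_cancel₀ z0.ne'])) ((J2.clm _ _).mono le_rfl
      (n1 _ (by positivity)) le_rfl)).lin _ (n1 z z0.le)
  refine (j3.congr ?_).mono ?_ ?_ ?_
  · filter_upwards [L.isOpen_image.mem_nhds ⟨_, mO z0 ht, ex⟩]
    rintro _ ⟨q, hq, rfl⟩
    rw [desc_apply (fib u p) hq]
    change _ = z • desc (coc γ n) O (fun q => φ q.2 • scl u z q.1) (z⁻¹ • coc γ n q)
    rw [sc, desc_apply (a := ((z⁻¹ * q.1.1, q.1.2), q.2))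
      (fib (scl u z) fun s θ => by simp only [scl, p _ θ]) ⟨mul_pos (inv_pos.2 z0) hq.1, hq.2⟩,
      scl, smul_comm z, smul_inv_smul₀ z0.ne', mul_inv_cancel_left₀ z0.ne']
  · rw [mul_comm z]
    gcongr
    exact le_add_of_le_of_nonneg (le_add_of_nonneg_right (by positivity)) (by positivity)
  · rw [mul_comm _ z⁻¹, mul_inv_cancel_left₀ z0.ne']
    nlinarith [mul_nonneg B0 ρ0, mul_nonneg ρ0
      (show 0 ≤ (4 * B + 2 * B * κ * m) * κ ^ 2 by positivity)]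
  · have zi : z⁻¹ ≤ 1 := inv_le_one_of_one_le₀ z1
    rw [mul_zero, add_zero, mul_zero, add_zero, sq z⁻¹, mul_comm _ (z⁻¹ * z⁻¹), mul_assoc z⁻¹,
      mul_inv_cancel_left₀ z0.ne']
    refine (mul_le_of_le_one_left (by positivity) zi).trans ?_
    nlinarith [mul_nonneg B0 ρ0, mul_nonneg ρ0 (show 0 ≤ 2 * B * κ by positivity)]

end Vale.Agent.P218B
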