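import Vale.Agent.P218B.Spec

/-!
# P218B: row XRO
-/

noncomputable section

open Set Filter Topology
open scoped RealInnerProductSpace

namespace Vale.Agent.P218B

open Vale.Agent.P218T

namespace Xro

theorem cpt {D F : Type*} [NormedAddCommGroup D] [NormedSpace ℝ D] [NormedAddCommGroup F]
    [NormedSpace ℝ F] {g : D → F} {K : Set D} (hK : IsCompact K)
    (h : ∀ x ∈ K, ContDiffAt ℝ 2 g x) : ∃ C, 0 ≤ C ∧ ∀ x ∈ K, J2 g x C C C := by
  obtain ⟨C, hC⟩ := hK.exists_bound_of_continuousOn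
    (f := fun x => (g x, fderiv ℝ g x, d2 g x)) fun x hx =>
    have h1 := (h x hx).fderiv_right (m := 1) le_rfl
    ((h x hx).continuousAt.prodMk (h1.continuousAt.prodMk
      (h1.fderiv_right (m := 0) le_rfl).continuousAt)).continuousWithinAt
  refine ⟨|C|, abs_nonneg _, fun x hx => ?_⟩
  have := (hC x hx).trans (le_abs_self C)
  simp only [norm_prod_le_iff] at this
  exact (J2.self (h x hx)).mono this.1 this.2.1 this.2.2

/-- the profile -/
def g (τ : ℝ) (p : ℝ × ℝ) : ℝ := Real.smoothTransition ((1 + 4 * τ ^ 2 - p.1 / p.2 ^ 2) / (3 * τ ^ 2))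

theorem sq {e : E3} (he : ‖e‖ = 1) (x : E3) : ‖x - ⟪e, x⟫ • e‖ ^ 2 = ⟪x, x⟫ - ⟪e, x⟫ ^ 2 := by
  rw [norm_sub_sq_real, inner_smul_right, norm_smul, he, real_inner_comm x e,
    real_inner_self_eq_norm_sq, mul_one, Real.norm_eq_abs, sq_abs]
  ring

theorem jk (τ : ℝ) : ∃ C, 0 ≤ C ∧ ∀ (e x : E3) (l : ℝ), ‖e‖ = 1 → l = ⟪e, x⟫ → 1 ≤ l →
    l⁻¹ * ‖x‖ ≤ 3 → J2 (fun y => g τ (⟪y, y⟫, ⟪e, y⟫)) x C (C * l⁻¹) (C * l⁻¹) := by
  obtain ⟨C, C0, hC⟩ := cpt (g := g τ) (isCompact_Icc (a := (0, 1)) (b := (9, 1))) fun p hp =>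
    Real.smoothTransition.contDiffAt.comp p ((contDiffAt_const.sub (contDiffAt_fst.div
      (contDiffAt_snd.pow 2) (by simp [le_antisymm hp.2.2 hp.1.2]))).div_const _)
  refine ⟨38 * C, by positivity, fun e x l he hl l1 i2 => ?_⟩
  have l0 : 0 < l := by linarith
  have i0 : 0 < l⁻¹ := by positivity
  have i1 : l⁻¹ ≤ 1 := inv_le_one_of_one_le₀ l1
  have n1 : ‖innerSL ℝ e‖ ≤ 1 := by simp [he]
  have j1 : J2 (fun y : E3 => l⁻¹ • y) x 3 l⁻¹ 0 := ((J2.const l⁻¹ x).smul (J2.id x)).mono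
    (by rwa [Real.norm_of_nonneg i0.le]) (by simp [l0.le, abs_of_nonneg]) (by simp)
  refine (((hC (⟪l⁻¹ • x, l⁻¹ • x⟫, ⟪e, l⁻¹ • x⟫) ⟨⟨real_inner_self_nonneg, by
    simp [inner_smul_right, ← hl, l0.ne']⟩, by
      simpa only [real_inner_self_eq_norm_sq] using
        (pow_le_pow_left₀ (norm_nonneg _) j1.h0 2).trans (by norm_num), by
      simp [inner_smul_right, ← hl, l0.ne']⟩).comp (f := fun y => (⟪l⁻¹ • y, l⁻¹ • y⟫, ⟪e, l⁻¹ • y⟫))
    ((j1.bil (innerSL ℝ) (norm_innerSL_le ℝ) j1).prodMk ((j1.lin _ n1).mono (by norm_num)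
      (by linarith) (by nlinarith [mul_pos i0 i0])))).congr (.of_forall fun y => ?_)).mono
    (by linarith) (by nlinarith [mul_nonneg C0 i0.le])
    (by nlinarith [mul_le_mul_of_nonneg_left (mul_le_of_le_one_left i0.le i1) C0])
  simp only [g, inner_smul_left, inner_smul_right, conj_trivial]
  congr 3
  by_cases h : ⟪e, y⟫ = 0
  · simp [h]
  · field_simp

end Xro

open Xro

theorem xro : XRO := fun τ a b t0 t1 a1 => by
  obtain ⟨C, C0, hC⟩ := jk τ
  have b0 := abs_nonneg b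
  have t2 : 0 < 3 * τ ^ 2 := by positivity
  have gz : ∀ s t : ℝ, 0 < t → (1 + 4 * τ ^ 2) * t ^ 2 ≤ s → g τ (s, t) = 0 := fun s t h h' =>
    Real.smoothTransition.zero_of_nonpos (div_nonpos_of_nonpos_of_nonneg
      (sub_nonpos.2 ((le_div_iff₀ (by positivity)).2 h')) t2.le)
  refine ⟨C * (10 + 24 * |b|), by positivity, fun e he => ⟨fun y => g τ (⟪y, y⟫, ⟪e, y⟫),
    fun x => abs_le.2 ⟨neg_one_lt_zero.le.trans (Real.smoothTransition.nonneg _),
      Real.smoothTransition.le_one _⟩,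
    fun x hx => ?_, fun x hx h => ⟨hx, ?_⟩, fun B Y x ω h1 h2 h3 h4 => ?_⟩⟩
  · have h := pow_le_pow_left₀ (norm_nonneg _) hx.2 2
    have : 0 < ⟪e, x⟫ := by linarith [hx.1]
    refine Real.smoothTransition.one_of_one_le ((one_le_div t2).2 ?_)
    have := (div_le_iff₀ (pow_pos this 2)).2
      (show ⟪x, x⟫ ≤ (1 + τ ^ 2) * ⟪e, x⟫ ^ 2 by rw [sq he] at h; linarith)
    linarith
  · have : 0 < ⟪e, x⟫ := by linarith
    refine abs_le_of_sq_le_sq' ?_ (by positivity) |>.2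
    linarith [sq he x, not_le.1 (mt (gz _ _ this) h)]
  have w0 := (h3 0).a0
  have z : ∀ {f : E3 → E3}, (f =ᶠ[𝓝 x] fun _ => 0) → J2 f x (C * (10 + 24 * |b|) * ω * (1 + ‖x‖))
      (C * (10 + 24 * |b|) * ω) (C * (10 + 24 * |b|) * ω) := fun h =>
    (J2.zero h).mono (by positivity) (by positivity) (by positivity)
  have c : Continuous fun y : E3 => ⟪e, y⟫ := by fun_prop
  rcases lt_or_ge ⟪e, x⟫ a with h | h
  · exact z ((c.continuousAt.eventually_lt_const h).mono fun y hy => by simp [h1 _ hy.le])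
  obtain ⟨l, hl⟩ : ∃ l, l = ⟪e, x⟫ := ⟨_, rfl⟩
  have l1 : 1 ≤ l := by linarith
  have l0 : 0 < l := by linarith
  rcases lt_or_ge (3 * ⟪e, x⟫) ‖x‖ with h' | h'
  · refine z ?_
    filter_upwards [(continuous_const.mul c).continuousAt.eventually_lt
      continuous_norm.continuousAt h', c.continuousAt.eventually_const_lt (l0.trans_eq hl)] with y h5 h6
    rw [gz _ _ h6, zero_smul]
    rw [real_inner_self_eq_norm_sq]
    nlinarith [pow_le_pow_left₀ (mul_pos three_pos h6).le h5.le 2, mul_le_mul_of_nonneg_right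
      (pow_le_one₀ t0.le t1 : τ ^ 2 ≤ 1) (sq_nonneg ⟪e, y⟫)]
  rw [← hl] at h'
  have i0 : 0 < l⁻¹ := by positivity
  have i1 : l⁻¹ ≤ 1 := inv_le_one_of_one_le₀ l1
  have i2 : l⁻¹ * ‖x‖ ≤ 3 := by rwa [inv_mul_le_iff₀' l0]
  have n1 : ‖innerSL ℝ e‖ ≤ 1 := by simp [he]
  obtain ⟨β, β0, β1, j3⟩ : ∃ β, 0 ≤ β ∧ β ≤ l⁻¹ * |b| * ω ∧ J2 (fun y => B ⟪e, y⟫) x ω β β := by
    rcases le_or_gt l b with h5 | h5
    · refine ⟨ω, w0, le_mul_of_one_le_left w0 ?_, ((h3 _).comp (f := fun y => ⟪e, y⟫)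
        ((J2.id x).lin _ n1)).mono le_rfl (by simp) (by simp)⟩
      rw [le_inv_mul_iff₀ l0]
      linarith [le_abs_self b]
    · exact ⟨0, le_rfl, by positivity, ((J2.const (B b) x).mono (h3 b).h0 le_rfl le_rfl).congr
        ((c.continuousAt.eventually_const_lt (h5.trans_eq hl)).mono fun y hy => h2 _ hy.le)⟩
  have p := mul_nonneg b0 w0
  have β2 : β ≤ |b| * ω := by nlinarith
  have β3 : β * (‖x‖ + 1) ≤ 4 * (|b| * ω) := by
    nlinarith [mul_le_mul_of_nonneg_right β1 (norm_nonneg x)]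
  have j4 : J2 (fun y => B ⟪e, y⟫ (y + Y y)) x (ω * (‖x‖ + 1)) (8 * (|b| * ω) + 2 * ω)
      (8 * (|b| * ω) + 2 * ω) := by
    have := j3.bil (ContinuousLinearMap.id ℝ (E3 →L[ℝ] E3)) ContinuousLinearMap.norm_id_le
      ((J2.id x).add h4)
    simp only [ContinuousLinearMap.id_apply] at this
    exact this.mono le_rfl (by linarith) (by linarith)
  have q1 := mul_nonneg C0 w0
  have q2 := mul_nonneg C0 p
  have q3 := mul_le_mul_of_nonneg_left (add_le_add i2 i1) q1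
  refine ((hC e x l he hl l1 i2).smul j4).mono ?_ (by nlinarith) ?_
  · nlinarith [mul_nonneg q1 (norm_nonneg x), mul_nonneg q2 (norm_nonneg x)]
  · nlinarith [mul_le_mul_of_nonneg_left i1 q1, mul_le_mul_of_nonneg_left i1 q2]

end Vale.Agent.P218B
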