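import Vale.Agent.P218B.Xcy
import Vale.Agent.P218B.Xro
import Vale.Agent.P218B.Xco
import Vale.Agent.P218B.Sep
import Vale.Agent.P218B.Nem
import Vale.Agent.P218C.Lift

/-!
# P218B: extension of displacements from the core and from the ends
-/

noncomputable section

open Set Filter Topology Metric
open scoped RealInnerProductSpace Real

namespace Vale.Agent.P218B

open Vale.Agent.P218T hiding E3 Per
open Vale.Agent.P218H (prw)

theorem cyc_eq (Q : E3 ≃ₗᵢ[ℝ] E3) (y : ℝ × ℝ) (r : ℝ) :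
    cyc Q (y, r) = y.1 • axis Q + r • eR Q y.2 := by
  rw [cyc, axis, eR, ← map_smul, ← map_smul, ← map_add]
  congr 1
  ext i
  fin_cases i <;> simp

theorem norm_eR (Q : E3 ≃ₗᵢ[ℝ] E3) (θ : ℝ) : ‖eR Q θ‖ = 1 := by
  rw [eR, Q.norm_map, EuclideanSpace.norm_eq]
  simp [Fin.sum_univ_three]

theorem axis_eR (Q : E3 ≃ₗᵢ[ℝ] E3) (θ : ℝ) : ⟪axis Q, eR Q θ⟫ = 0 := by
  rw [eR, axis, Q.inner_map_map]
  simp [PiLp.inner_apply, Fin.sum_univ_three]

theorem axis_cyc (Q : E3 ≃ₗᵢ[ℝ] E3) (y : ℝ × ℝ) (r : ℝ) : ⟪axis Q, cyc Q (y, r)⟫ = y.1 := by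
  rw [cyc_eq, inner_add_right, real_inner_smul_right, real_inner_smul_right, axis_eR,
    real_inner_self_eq_norm_sq, Sep.norm_axis]
  ring

theorem cyc_mem (Q : E3 ≃ₗᵢ[ℝ] E3) {y : ℝ × ℝ} {r τ a : ℝ} (h : a ≤ y.1) (hr : |r| ≤ τ * y.1) :
    cyc Q (y, r) ∈ Cn (axis Q) τ a := by
  refine ⟨by rwa [axis_cyc], ?_⟩
  rwa [axis_cyc, cyc_eq, add_sub_cancel_left, norm_smul, norm_eR, mul_one]

theorem Cn.mono {e x : E3} {τ τ' a a' : ℝ} (h : x ∈ Cn e τ a) (h1 : τ ≤ τ') (h2 : a' ≤ a)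
    (h3 : 0 ≤ a) : x ∈ Cn e τ' a' :=
  ⟨h2.trans h.1, h.2.trans (mul_le_mul_of_nonneg_right h1 (h3.trans h.1))⟩

theorem Decays.small {f : ℝ × ℝ → ℝ} (h : Decays f) {ε : ℝ} (ε0 : 0 < ε) :
    ∃ R : ℝ, ∀ y : ℝ × ℝ, R ≤ y.1 → J2 f y ε ε ε := by
  obtain ⟨a, ha⟩ := h.lim 0 ε ε0
  obtain ⟨b, hb⟩ := h.lim 1 ε ε0
  obtain ⟨c, hc⟩ := h.lim 2 ε ε0
  refine ⟨max a (max b c), fun y hy => ⟨h.smooth.contDiffAt.of_le Xco.two, ?_, ?_, ?_⟩⟩
  · simpa using ha y (le_of_max_le_left hy)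
  · simpa using hb y (le_of_max_le_left (le_of_max_le_right hy))
  · refine norm_d2_le ε0.le fun v v' => ?_
    have := (iteratedFDeriv ℝ 2 f y).le_of_opNorm_le
      (hc y (le_of_max_le_right (le_of_max_le_right hy))) ![v, v']
    simpa [iteratedFDeriv_two_apply, mul_assoc] using this

variable {M : Mod}

theorem P_cyl (j : Fin M.n₁) (y : ℝ × ℝ) : M.P (.inl j) y = cyc (M.Q j) (y, √2 + M.f j y) := rfl

theorem P_con (l : Fin M.n₂) {y : ℝ × ℝ} (h : 0 < y.1) :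
    M.P (.inr l) y = coc (M.γ l) (M.n l) (y, M.g l (Real.log y.1, y.2)) := by
  simp only [Mod.P, conP, conePt, coc, Real.exp_log h]

theorem sqrt2_le : √2 ≤ (3 / 2 : ℝ) := Real.sqrt_le_iff.2 (by norm_num)

/-- extension from the ends -/
theorem ext_ends (g : M.Geo) : ∃ a, ∀ H, a ≤ H → M.R + 1 ≤ H ∧ ∃ C, 0 ≤ C ∧
    ∃ T : (M.I → ℝ × ℝ → E3) → (Fin M.n₁ → ℝ → E3 →L[ℝ] E3) → E3 → E3, ∀ u B, (∀ e, Per (u e)) →
      (∀ e y, y.1 ≤ H → u e y = 0) → (∀ j z, z ≤ H → B j z = 0) →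
      (∀ j z, H + 1 ≤ z → B j z = B j (H + 1)) → (∀ x, ‖x‖ ≤ H → T u B x = 0) ∧
      (∀ j y, H - 1 / 4 < y.1 →
        T u B (M.P (.inl j) y) = u (.inl j) y + B j y.1 (M.P (.inl j) y)) ∧
      (∀ l y, H - 1 / 4 < y.1 → T u B (M.P (.inr l) y) = u (.inr l) y) ∧
      ∀ x ω, 0 ≤ ω → (∀ j θ, J2 (u (.inl j)) (⟪axis (M.Q j), x⟫, θ) ω ω ω) →
        (∀ j z, J2 (B j) z ω ω ω) →
        (∀ l z θ, 1 ≤ z → z ≤ ‖x‖ → J2 (scl (u (.inr l)) z) (1, θ) ω ω ω) →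
        J2 (T u B) x (C * ω * (1 + ‖x‖)) (C * ω) (C * ω) := by
  obtain ⟨τ₁, t0, t1, d1, d2', d3⟩ := (sep _ _ _ _ _ _ _ _ _ _ _ _ g.ended).2
  choose τ₀ s0 _ hK using fun l => xco _ _ (g.ended.link l)
  obtain ⟨τ, ⟨t2, t3⟩, t4⟩ := (((eventually_all.2 fun l => mem_nhdsWithin_of_mem_nhds
    (Iic_mem_nhds (s0 l))).and (mem_nhdsWithin_of_mem_nhds (Iic_mem_nhds (half_pos t0)))).and
    (self_mem_nhdsWithin (a := (0 : ℝ)) (s := Ioi 0))).exists
  replace t3 : τ ≤ τ₁ / 2 := t3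
  replace t4 : 0 < τ := t4
  choose C₃ c3 χ₃ cd₃ k1 k2 k3 using fun l => hK l τ t4 (t2 l)
  obtain ⟨C₁, c1, hY⟩ := xcy
  choose χ cd l1 l2 l3 using fun j => hY (M.Q j)
  choose A hA using fun l => Decays.small (g.ended.cone l) t4
  obtain ⟨A', hA'⟩ := (finite_range A).bddAbove
  obtain ⟨C₃', hC₃⟩ := (finite_range C₃).bddAbove
  refine ⟨max (M.R + 1) (max (2 / τ + 1) (Real.exp A' + 1)), fun H hH => ?_⟩
  simp only [max_le_iff] at hH
  obtain ⟨H1, H2, H3⟩ := hH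
  have R1 := g.one.1
  have H4 : ∀ z, H - 1 / 4 < z → 2 ≤ τ * z := fun z hz => by
    have : 2 / τ ≤ z := by linarith
    rwa [div_le_iff₀' t4] at this
  obtain ⟨C₂, c2, hR⟩ := xro τ H (H + 1) t4 (by linarith) (by linarith)
  choose κ _ m2 m3 m4 using fun j => hR _ (Sep.norm_axis (M.Q j))
  refine ⟨H1, M.n₁ * (C₁ + C₂) + M.n₂ * |C₃'|, by positivity, fun u B x =>
    ∑ j, (χ j x • u (.inl j) (cd j x) + κ j x • B j ⟪axis (M.Q j), x⟫ (x + 0)) +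
      ∑ l, χ₃ l x • u (.inr l) (cd₃ l x), fun u B hu u0 B0 B1 => ?_⟩
  have z1 : ∀ j x, χ j x • u (.inl j) (cd j x) + κ j x • B j ⟪axis (M.Q j), x⟫ (x + 0) ≠ 0 →
      H < ‖x‖ ∧ x ∈ Cn (axis (M.Q j)) τ₁ 1 := fun j x k => by
    have hz : H < ⟪axis (M.Q j), x⟫ := not_le.1 fun k' => k (by
      rw [u0 _ _ ((l1 j x).2.1 ▸ k'), B0 _ _ k']
      simp)
    refine ⟨hz.trans_le ((real_inner_le_norm _ _).trans_eq (by rw [Sep.norm_axis, one_mul])), ?_⟩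
    by_cases k1 : χ j x = 0
    · exact Cn.mono (m3 j x hz.le fun k2 => k (by simp [k1, k2])) (by linarith) (by linarith)
        (by linarith)
    · exact ⟨by linarith, ((l1 j x).2.2 k1).trans ((H4 ⟪axis (M.Q j), x⟫ (by linarith)).trans
        (by nlinarith))⟩
  have z2 : ∀ l x, χ₃ l x • u (.inr l) (cd₃ l x) ≠ 0 →
      H < ‖x‖ ∧ x ∈ Ck (M.γ l) (M.n l) τ₁ 1 := fun l x k => by
    have hz : H < (cd₃ l x).1 := not_le.1 fun k' => k (by simp [u0 _ _ k'])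
    obtain ⟨t, k4, k5⟩ := (k1 l x).2.2 fun k' => k (by simp [k'])
    exact ⟨hz.trans_le (k1 l x).2.1, _, ⟨show 1 ≤ (cd₃ l x).1 by linarith,
      show |t| ≤ τ₁ by linarith⟩, k5.symm⟩
  have p1 : ∀ j (y : ℝ × ℝ), H - 1 / 4 < y.1 → |√2 + M.f j y| ≤ τ * y.1 := fun j y hy => by
    have := g.rs j y (by linarith)
    have := abs_add_le √2 (M.f j y)
    rw [abs_of_nonneg (Real.sqrt_nonneg _)] at this
    linarith [sqrt2_le, H4 _ hy]
  have p2 : ∀ l (y : ℝ × ℝ), H - 1 / 4 < y.1 → |M.g l (Real.log y.1, y.2)| ≤ τ := fun l y hy =>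
    (hA l _ ((hA' ⟨l, rfl⟩).trans ((Real.le_log_iff_exp_le (by linarith)).2 (by linarith)))).h0
  have q1 : ∀ j (y : ℝ × ℝ), H - 1 / 4 < y.1 → M.P (.inl j) y ∈ Cn (axis (M.Q j)) τ₁ 1 :=
    fun j y hy => cyc_mem _ (by linarith) ((p1 j y hy).trans (by nlinarith))
  have q2 : ∀ l (y : ℝ × ℝ), H - 1 / 4 < y.1 → M.P (.inr l) y ∈ Ck (M.γ l) (M.n l) τ₁ 1 :=
    fun l y hy => ⟨_, ⟨show 1 ≤ y.1 by linarith, (p2 l y hy).trans (by linarith)⟩,
      (P_con l (by linarith)).symm⟩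
  beta_reduce
  refine ⟨fun x hx => ?_, fun j y hy => ?_, fun l y hy => ?_, fun x ω ω0 j1 j2 j3 => ?_⟩
  · rw [Finset.sum_eq_zero fun j _ => by_contra fun k => (z1 j x k).1.not_ge hx,
      Finset.sum_eq_zero fun l _ => by_contra fun k => (z2 l x k).1.not_ge hx, add_zero]
  · rw [Finset.sum_eq_single j (fun j' _ e => by_contra fun k =>
        (d1 j' j e).notMem_of_mem_left (z1 j' _ k).2 (q1 j y hy)) (by simp),
      Finset.sum_eq_zero fun l _ => by_contra fun k =>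
        (d2' j l).notMem_of_mem_left (q1 j y hy) (z2 l _ k).2, add_zero, add_zero]
    obtain ⟨e1, e2⟩ := l2 j y (√2 + M.f j y) (by
      simpa using (g.rs j y (by linarith)).trans (by norm_num))
    rw [P_cyl, e1, one_smul, ← Xco.Per.eqm (hu _) e2, axis_cyc]
    rcases le_total y.1 H with k | k
    · simp [B0 _ _ k]
    · rw [m2 j _ (cyc_mem _ k (p1 j y hy)), one_smul]
  · rw [Finset.sum_eq_single l (fun l' _ e => by_contra fun k =>
        (d3 l' l e).notMem_of_mem_left (z2 l' _ k).2 (q2 l y hy)) (by simp),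
      Finset.sum_eq_zero fun j _ => by_contra fun k =>
        (d2' j l).notMem_of_mem_left (z1 j _ k).2 (q2 l y hy), zero_add]
    obtain ⟨e1, e2⟩ := k2 l y _ (by linarith) ((p2 l y hy).trans (by linarith))
    rw [P_con l (by linarith), e2 (p2 l y hy), one_smul, ← Xco.Per.eqm (hu _) e1]
  · have n := norm_nonneg x
    have a1 := J2.sum (a := (C₁ + C₂) * ω * (1 + ‖x‖)) (b := (C₁ + C₂) * ω) (c := (C₁ + C₂) * ω)
      Finset.univ fun j _ => ((l3 j _ (hu _) x ω (j1 j)).add (m4 j (B j) (fun _ => 0) x ω (B0 j)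
        (B1 j) (j2 j) ((J2.const 0 x).mono (by simp) zero_le_one zero_le_one))).mono
        (by nlinarith [mul_nonneg (mul_nonneg c1 ω0) n]) (by linarith) (by linarith)
    have b : ∀ l, C₃ l * ω ≤ |C₃'| * ω := fun l =>
      mul_le_mul_of_nonneg_right ((hC₃ ⟨l, rfl⟩).trans (le_abs_self _)) ω0
    have a2 := J2.sum (a := |C₃'| * ω * (1 + ‖x‖)) (b := |C₃'| * ω) (c := |C₃'| * ω)
      Finset.univ fun l _ => (k3 l _ (hu _) (fun y k => u0 _ y (by linarith)) x ω ω0 (j3 l)).mono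
        (mul_le_mul (b l) (by linarith) n (by positivity)) (b l) (b l)
    simp only [Finset.card_univ, Fintype.card_fin] at a1 a2
    exact (a1.add a2).mono (by linarith) (by linarith) (by linarith)

/-- extension from a bounded part of the surface -/
theorem ext_core (g : M.Geo) (H : ℝ) : ∃ C, 0 ≤ C ∧ ∃ Y : (E3 → E3) → E3 → E3,
    (∀ G, ∀ p ∈ M.S, Y G p = G p) ∧ (∀ G G' x ε, 0 ≤ ε →
      (∀ p ∈ M.S, ‖p - x‖ ≤ 1 / 2 → ‖G p - G' p‖ ≤ ε) → ‖Y G x - Y G' x‖ ≤ ε) ∧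
    ∀ G ω, 0 ≤ ω → (∀ p ∈ M.S, H < ‖p‖ → G p = 0) → (∀ p ∈ M.S, ‖p‖ ≤ H → J2 G p ω ω ω) →
      ∀ x, J2 (Y G) x (C * ω) (C * ω) (C * ω) := by
  have δ0 := g.shr.pos
  set β : ContDiffBump (0 : ℝ) := ⟨min M.δ 1 / 4, min M.δ 1 / 2, by positivity, by
    linarith [lt_min δ0 one_pos]⟩
  have s : ∀ x, |M.w x| ≤ min M.δ 1 / 2 → |M.w x| < M.δ ∧ prw M.w x ∈ M.S ∧
      ‖prw M.w x - x‖ ≤ 1 / 2 := fun x k => by
    have k1 : |M.w x| < M.δ := by linarith [min_le_left M.δ 1]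
    refine ⟨k1, (g.tb.foot x k1).1, ?_⟩
    rw [prw, sub_sub_cancel_left, norm_neg, norm_smul, g.shr.norm_grad x k1, Real.norm_eq_abs]
    linarith [min_le_right M.δ 1]
  have z : ∀ x, min M.δ 1 / 2 ≤ |M.w x| → β (M.w x) = 0 := fun x k =>
    β.zero_of_le_dist (by simpa using k)
  obtain ⟨B₁, b1, k1⟩ := j2_cpt (φ := fun x => β (M.w x)) (isCompact_closedBall (0 : E3) (H + 1))
    fun x _ => (β.contDiff.comp (g.smw.of_le Xco.two)).contDiffAt
  obtain ⟨B₂, b2, k2⟩ := j2_cpt (isCompact_closedBall (0 : E3) (H + 1))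
    fun x _ => (g.tb.spr.of_le Xco.two).contDiffAt
  refine ⟨B₁ * (2 + 4 * B₂ + B₂ ^ 2), by positivity, fun G x => β (M.w x) • G (prw M.w x),
    fun G p hp => ?_, fun G G' x ε ε0 h => ?_, fun G ω ω0 h0 h x => ?_⟩
  · beta_reduce
    rw [g.pr_self hp, g.w_zero hp, β.one_of_mem_closedBall (mem_closedBall_self β.rIn_pos.le),
      one_smul]
  · rcases le_total (min M.δ 1 / 2) |M.w x| with k | k
    · simpa [z x k] using ε0
    · rw [← smul_sub, norm_smul, Real.norm_of_nonneg β.nonneg]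
      exact (mul_le_of_le_one_left (norm_nonneg _) β.le_one).trans (h _ (s x k).2.1 (s x k).2.2)
  have o : ∀ {F : E3 → E3}, (F =ᶠ[𝓝 x] fun _ => 0) → J2 F x (B₁ * (2 + 4 * B₂ + B₂ ^ 2) * ω)
      (B₁ * (2 + 4 * B₂ + B₂ ^ 2) * ω) (B₁ * (2 + 4 * B₂ + B₂ ^ 2) * ω) := fun k =>
    (J2.zero k).mono (by positivity) (by positivity) (by positivity)
  rcases lt_or_ge (min M.δ 1 / 2) |M.w x| with k | k
  · exact o ((g.smw.continuous.abs.continuousAt.eventually (lt_mem_nhds k)).mono fun y k' => by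
      simp [z y k'.le])
  obtain ⟨-, s1, s2⟩ := s x k
  rcases lt_or_ge H ‖prw M.w x‖ with k' | k'
  · refine o ((g.tb.spr.continuous.norm.continuousAt.eventually (lt_mem_nhds k')).mono
      fun y k' => ?_)
    rcases le_total (min M.δ 1 / 2) |M.w y| with k | k
    · simp [z y k]
    · simp [h0 _ (s y k).2.1 k']
  have m : x ∈ closedBall (0 : E3) (H + 1) := mem_closedBall_zero_iff.2 (by
    linarith [norm_le_norm_add_norm_sub' x (prw M.w x), norm_sub_rev x (prw M.w x)])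
  have := mul_nonneg b1 ω0
  have := mul_nonneg this b2
  have := mul_nonneg this b2
  exact ((k1 x m).smul ((h _ s1 k').comp (k2 x m))).mono (by nlinarith) (by nlinarith)
    (by nlinarith)

/-- the cutoff at the height `H` -/
def cut (H z : ℝ) : ℝ := Real.smoothTransition (z - H)

theorem cut_zero {H z : ℝ} (h : z ≤ H) : cut H z = 0 :=
  Real.smoothTransition.zero_of_nonpos (by linarith)

theorem cut_one {H z : ℝ} (h : H + 1 ≤ z) : cut H z = 1 :=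
  Real.smoothTransition.one_of_one_le (by linarith)

/-- the cutoff as a function near the surface -/
theorem ex_th (g : M.Geo) {H : ℝ} (h : M.R + 1 ≤ H) : ∃ C, 0 ≤ C ∧ ∃ θ : E3 → ℝ,
    (∀ e y, M.R < y.1 → θ (M.P e y) = cut H y.1) ∧ (∀ p ∈ M.S, ‖p‖ ≤ H → θ p = 0) ∧
    ∀ p ∈ M.S, ‖p‖ ≤ H + 2 → J2 (fun x => 1 - θ x) p C C C := by
  have v : ∀ e y, M.R < y.1 → ∑ e', M.lift e' (fun y => cut H y.1) (M.P e y) = cut H y.1 :=
    fun e y hy => by
      rw [Finset.sum_eq_single e (fun e' _ k => (g.lift_other k hy).self_of_nhds) (by simp),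
        g.lift_P (per_z _) hy]
  obtain ⟨C, C0, hC⟩ := j2_cpt (φ := fun x => 1 - ∑ e, M.lift e (fun y => cut H y.1) x)
    ((isCompact_closedBall (0 : E3) (H + 2)).inter_left g.isClosed_S) fun p hp =>
      contDiffAt_const.sub (ContDiffAt.sum fun e _ => g.lift_cd_tube (t := Ici H) (per_z _)
        isClosed_Ici (fun z hz => show M.R < z by linarith [mem_Ici.1 hz])
        (fun y _ k => cut_zero (not_le.1 k).le) Xco.two (fun y _ =>
          (Real.smoothTransition.contDiff.comp (contDiff_fst.sub contDiff_const)).contDiffAt)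
        (g.w_lt hp.1))
  refine ⟨C, C0, _, v, fun p hp k => Finset.sum_eq_zero fun e _ => ?_,
    fun p hp k => hC p ⟨hp, mem_closedBall_zero_iff.2 k⟩⟩
  by_cases m : p ∈ M.Ph e '' M.O
  · obtain ⟨y, hy, e1⟩ := (g.mem_tube.1 m).2
    rw [g.pr_self hp] at e1
    subst e1
    rw [g.lift_P (per_z _) hy.1]
    exact cut_zero (((g.cht e).rad y hy.1).1.trans k)
  · exact Mod.lift_of_notMem m

end Vale.Agent.P218B
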