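import Vale.Agent.P218B.Push

/-!
# P218B: the interface `LF` in terms of near identity maps
-/

noncomputable section

open MeasureTheory Set Filter Topology Module Metric
open scoped ENNReal RealInnerProductSpace

set_option linter.unusedSectionVars false

namespace Vale.Agent.P218B

open Vale.Agent.P218 Vale.Agent.P218.H313 Vale.Agent.P218D
open Vale.Agent.P218.H63 (IsTubeShrinker stab)

variable {E : Type*} [NormedAddCommGroup E] [InnerProductSpace ℝ E] [FiniteDimensional ℝ E]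
  [MeasurableSpace E] [BorelSpace E]

/-- the nondegeneracy condition of `LF` -/
def ND (m : ℕ) {κ : Type} [Fintype κ] (w₀ : E → ℝ) (ψ : κ → E → ℝ) : Prop :=
  ∀ (u : E → ℝ) (l : κ → ℝ), AEStronglyMeasurable u (hm m w₀) →
    Integrable (fun p => u p ^ 2 * rho p) (hm m w₀) →
    (∀ ζ : E → ℝ, ContDiff ℝ 2 ζ → HasCompactSupport ζ →
      ∫ p, u p * stab w₀ ζ p * rho p ∂(hm m w₀)
        = ∫ p, (∑ i, l i * ψ i p) * ζ p * rho p ∂(hm m w₀)) →
    (∀ i, ∫ p, u p * ψ i p * rho p ∂(hm m w₀) = 0) → u =ᵐ[hm m w₀] 0 ∧ l = 0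

/-- the surfaces are the images of `S` under the maps `Ψ x ε` -/
structure LFP (m k : ℕ) (S : Set E) (w₀ : E → ℝ) (δ₀ C₀ : ℝ) (ψ : Fin k → E → ℝ) (γ : ℝ)
    (Ψ : (Fin k → ℝ) → ℝ → E → E) (lam : (Fin k → ℝ) → ℝ → Fin k → ℝ)
    (Z : (Fin k → ℝ) → ℝ → ℝ) (F R r K : ℝ) : Prop where
  shr : IsTubeShrinker S w₀ δ₀ C₀
  psi : ∀ i, ContDiff ℝ 1 (ψ i)
  supp : ∀ i p, ψ i p ≠ 0 → ‖p‖ ≤ R
  gam : 1 / 2 < γ
  rpos : 0 < r
  near : ∀ x ε, ‖x‖ ≤ r → 0 < ε → ε ≤ r → NearId (Ψ x ε) K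
  bx : ∀ x ε, ‖x‖ ≤ r → 0 < ε → ε ≤ r → ∀ p ∈ S,
    |⟪Ψ x ε p, grad (pw w₀ (Ψ x ε)) (Ψ x ε p)⟫| ≤ K ∨ |phiS (pw w₀ (Ψ x ε)) (Ψ x ε p)| ≤ K
  area : ∀ x ε, ‖x‖ ≤ r → 0 < ε → ε ≤ r →
    |FA (hm m (pw w₀ (Ψ x ε))) - F| ≤ K * (‖lam x ε‖ ^ (2 * γ) + ε)
  cut : ∀ x ε, ‖x‖ ≤ r → 0 < ε → ε ≤ r →
    1 ≤ Z x ε ∧ Real.exp (-(Z x ε) ^ 2 / 8) ≤ K * (‖lam x ε‖ ^ 3 + ε)
  small : ∀ ω > 0, ∃ η > 0, ∀ x ε, ‖x‖ ≤ η → 0 < ε → ε ≤ η →
    ‖lam x ε‖ ≤ ω ∧ Cid (Ψ x ε) ω⁻¹ ω ∧ ∀ p ∈ S, ‖Ψ x ε p‖ ≤ Z x ε →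
      |phiS (pw w₀ (Ψ x ε)) (Ψ x ε p) - ∑ i, lam x ε i * ψ i p| ≤ ω * ‖lam x ε‖
  cont : ∀ ε, 0 < ε → ε ≤ r → ∀ q, ‖q‖ ≤ R + 1 → ContinuousOn (fun x => Ψ x ε q) (closedBall 0 r)
  gauge : ∃ r₁ > 0, ∀ r', 0 < r' → r' ≤ r₁ → ∃ ε₀ > 0, ∀ ε, 0 < ε → ε ≤ ε₀ → ∀ x, ‖x‖ ≤ r' →
    (∀ p ∈ S, ‖p‖ ≤ R → ‖Ψ x ε p - p‖ ≤ K * r') ∧
      ∀ i, |∫ p, ⟪Ψ x ε p - p, grad w₀ p⟫ * ψ i p * rho p ∂(hm m w₀) - x i| ≤ r' / 8
  nd : ND m w₀ ψ

variable {m : ℕ} {S : Set E} {w₀ : E → ℝ} {δ C : ℝ}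

theorem lint_rho {μ : Measure E} (h : ∫⁻ x, ENNReal.ofReal (rho x) ∂μ ≠ ⊤) :
    ∫⁻ x, ENNReal.ofReal (rho x) ∂μ = ENNReal.ofReal (FA μ) :=
  (ofReal_integral_eq_lintegral_ofReal ((lintegral_ofReal_ne_top_iff_integrable
    continuous_rho.aestronglyMeasurable (.of_forall fun x => (rho_pos x).le)).1 h)
    (.of_forall fun x => (rho_pos x).le)).symm

theorem tail_zero {μ : Measure E} {B : ℝ}
    (h : ∫⁻ x in {x | (0 : ℝ) ≤ ‖x‖}, ENNReal.ofReal (rho x) ∂μ ≤ ENNReal.ofReal B) :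
    ∫⁻ x, ENNReal.ofReal (rho x) ∂μ = ENNReal.ofReal (FA μ) :=
  lint_rho (by simpa using (h.trans_lt ENNReal.ofReal_lt_top).ne)

theorem ae_sh (h₀ : IsTubeShrinker S w₀ δ C) : ∀ᵐ p ∂hm m w₀, p ∈ S := by
  rw [hm, sh_eq h₀]
  exact ae_restrict_mem (sh_meas h₀)

theorem jacT_id (T : Submodule ℝ E) : jacT (ContinuousLinearMap.id ℝ E) T = 1 := by
  simp [jacT, LinearMap.normDet_subtype]

theorem cont_dens (σ : ℝ) : Continuous fun z : (E × (E →L[ℝ] E)) × E × E =>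
    (1 + σ) * rho z.2.1 - rho (z.2.1 + z.1.1) * √(grm (.id ℝ E + z.1.2) (nP z.2.2)).det := by
  have c1 : Continuous fun z : (E × (E →L[ℝ] E)) × E × E => rho z.2.1 :=
    continuous_rho.comp continuous_snd.fst
  have c2 : Continuous fun z : (E × (E →L[ℝ] E)) × E × E => rho (z.2.1 + z.1.1) :=
    continuous_rho.comp (continuous_snd.fst.add continuous_fst.fst)
  have c3 : Continuous fun z : (E × (E →L[ℝ] E)) × E × E => grm (.id ℝ E + z.1.2) (nP z.2.2) :=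
    continuous_grm.comp₂ (continuous_const.add continuous_fst.snd)
      (continuous_nP.comp continuous_snd.snd)
  have c4 : Continuous fun z : (E × (E →L[ℝ] E)) × E × E =>
    (grm (.id ℝ E + z.1.2) (nP z.2.2)).det := ContinuousLinearMap.continuous_det.comp c3
  exact (continuous_const.mul c1).sub (c2.mul c4.sqrt)

theorem dens_le (ρ : ℝ) {σ : ℝ} (σ0 : 0 < σ) : ∃ η > 0, ∀ (p y n : E) (A : E →L[ℝ] E), ‖p‖ ≤ ρ →
    ‖n‖ = 1 → ‖y - p‖ ≤ η → ‖A - .id ℝ E‖ ≤ η → rho y * jacT A (ℝ ∙ n)ᗮ ≤ (1 + σ) * rho p := by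
  have := FiniteDimensional.proper_real E
  have c := cont_dens (E := E) σ
  generalize hG : (fun z : (E × (E →L[ℝ] E)) × E × E => (1 + σ) * rho z.2.1 -
    rho (z.2.1 + z.1.1) * √(grm (.id ℝ E + z.1.2) (nP z.2.2)).det) = G at c
  have k := ((isCompact_closedBall (0 : E) ρ).prod
    (isCompact_sphere (0 : E) 1)).eventually_forall_of_forall_eventually
    (x₀ := (0 : E × (E →L[ℝ] E))) (P := fun e z => 0 < G (e, z))
    fun z hz => c.continuousAt.eventually (lt_mem_nhds (by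
      have n1 : ‖z.2‖ = 1 := by simpa using hz.2
      simp only [← hG, Prod.fst_zero, Prod.snd_zero, add_zero]
      rw [← proj_perp n1, ← jacT_eq, jacT_id]
      nlinarith [rho_pos z.1]))
  obtain ⟨η, η0, hη⟩ := Metric.eventually_nhds_iff.1 k
  refine ⟨η / 2, half_pos η0, fun p y n A hp hn hy hA => ?_⟩
  have := @hη (y - p, A - .id ℝ E) (by
    rw [dist_zero_right]
    exact (norm_prod_le_iff.2 ⟨hy, hA⟩).trans_lt (half_lt_self η0)) (p, n)
    ⟨mem_closedBall_zero_iff.2 hp, by simpa using hn⟩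
  simp only [← hG, add_sub_cancel] at this
  rw [← proj_perp hn, ← jacT_eq] at this
  linarith

theorem dfn_self (h₀ : IsTubeShrinker S w₀ δ C) {K : ℝ} (h1 : 1 ≤ K) (h2 : C ≤ K)
    (h3 : 2 * ((finrank ℝ E + 1) * C) ≤ K) : Dfn w₀ δ (2 / 3) K := by
  refine ⟨h₀.pos, by norm_num, sh2 h₀, fun y hy => ?_, fun y hy => (h₀.norm_grad y hy).le.trans h1,
    fun y hy => (h₀.hess_le y hy).trans h2, fun y hy => ?_⟩
  · exact (h₀.norm_grad y hy).ge.trans' (by norm_num)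
  · have t := sh_mem h₀ ((h₀.mem_iff y).2 hy)
    have n : ‖grad w₀ y‖ = 1 := h₀.norm_grad y t
    refine (inner_le_phi (K := 0) (norm_pos_iff.1 (by linarith)) n.le (h₀.hess_le y t)
      (by rw [phiS_zero h₀ hy, abs_zero])).trans (by linarith)

/-- upper semicontinuity of the Gaussian area -/
theorem fa_le (hT : TAIL E m) (hE : finrank ℝ E = m + 1) (h₀ : IsTubeShrinker S w₀ δ C) {K : ℝ}
    (h1 : Dfn w₀ δ (2 / 3) K) (M : ℝ) {σ : ℝ} (σ0 : 0 < σ) : ∃ η > 0, ∀ Ψ, NearId Ψ M →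
      Dfn (pw w₀ Ψ) δ (2 / 3) K → Cid Ψ η⁻¹ η → FA (hm m (pw w₀ Ψ)) ≤ FA (hm m w₀) + σ := by
  obtain ⟨B, B0, hB⟩ := dfn_tail hT hE K h₀.pos (show (0 : ℝ) < 2 / 3 by norm_num) one_half_pos
  have F0 := RF.FA_nonneg (hm m w₀)
  obtain ⟨R, R1, R0⟩ : ∃ R : ℝ, B * Real.exp (-(1 - 1 / 2) * R ^ 2 / 4) < σ / 2 ∧ 0 ≤ R := by
    have : Tendsto (fun R : ℝ => B * Real.exp (-(1 - 1 / 2) * R ^ 2 / 4)) atTop (𝓝 (B * 0)) :=
      (Real.tendsto_exp_atBot.comp (((tendsto_pow_atTop two_ne_zero).const_mul_atTop_of_neg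
        (by norm_num)).atBot_div_const (by norm_num))).const_mul B
    exact ((this.eventually (gt_mem_nhds (by simpa using σ0))).and (eventually_ge_atTop 0)).exists
  obtain ⟨τ, τ0, hτ⟩ := dens_le (E := E) (2 * R + 2) (σ := σ / 2 / (FA (hm m w₀) + 1))
    (by positivity)
  refine ⟨min τ (2 * R + 2)⁻¹ ⊓ 1, by positivity, fun Ψ h hd hc => ?_⟩
  have hc' : Cid Ψ (2 * R + 2) (min τ 1) := hc.mono
    (le_inv_of_le_inv₀ (by positivity) (inf_le_left.trans (min_le_right _ _)))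
    (min_le_min_right _ (min_le_left _ _))
  have ms : MeasurableSet {x : E | R ≤ ‖x‖} := measurableSet_le measurable_const measurable_norm
  have mr : Measurable fun x : E => ENNReal.ofReal (rho x) := continuous_rho.measurable.ennreal_ofReal
  rw [← ENNReal.ofReal_le_ofReal_iff (by positivity), ← tail_zero ((hB _ hd).2 0 le_rfl),
    ← lintegral_add_compl _ ms, lint_pw hE h₀ h ms.compl mr]
  calc _ ≤ ENNReal.ofReal (σ / 2) + ∫⁻ p in Ψ ⁻¹' {x : E | R ≤ ‖x‖}ᶜ,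
        ENNReal.ofReal (1 + σ / 2 / (FA (hm m w₀) + 1)) * ENNReal.ofReal (rho p) ∂(hm m w₀) := by
        refine add_le_add (((hB _ hd).2 R R0).trans (ENNReal.ofReal_le_ofReal R1.le))
          (lintegral_mono_ae ((ae_restrict_iff' (h.cd.continuous.measurable ms.compl)).2 ?_))
        filter_upwards [ae_sh h₀] with p hp hp'
        have k0 : ‖p‖ ≤ 2 * R + 2 := by
          have k1 := h.anti p 0
          have k2 := (hc' 0 (by simp; positivity)).h0.trans (min_le_right _ _)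
          have k3 : ‖Ψ p‖ < R := not_le.1 hp'
          simp only [sub_zero] at k1 k2
          linarith [norm_sub_le (Ψ p) (Ψ 0)]
        rw [← ENNReal.ofReal_mul (rho_pos _).le, ← ENNReal.ofReal_mul (by positivity)]
        exact ENNReal.ofReal_le_ofReal (hτ p _ _ _ k0 (h₀.norm_grad p (sh_mem h₀ hp))
          ((hc' p k0).h0.trans (min_le_left _ _)) (ContinuousLinearMap.opNorm_le_bound _ τ0.le
            ((hc' p k0).mono le_rfl (min_le_left _ _) le_rfl).sub_id.2.1))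
    _ ≤ _ := by
        refine (add_le_add_right (setLIntegral_le_lintegral _ _) _).trans ?_
        rw [lintegral_const_mul _ mr, tail_zero ((hB _ h1).2 0 le_rfl),
          ← ENNReal.ofReal_mul (by positivity), ← ENNReal.ofReal_add (by positivity) (by positivity)]
        refine ENNReal.ofReal_le_ofReal ?_
        have : σ / 2 / (FA (hm m w₀) + 1) * FA (hm m w₀) ≤ σ / 2 := by
          rw [div_mul_eq_mul_div, div_le_iff₀ (by positivity)]
          nlinarith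
        linarith

/-- first order expansion of the new defining function on `S` -/
theorem pw_expand (h₀ : IsTubeShrinker S w₀ δ C) (R : ℝ) {σ : ℝ} (σ0 : 0 < σ) : ∃ η > 0, η ≤ 1 / 2 ∧
    ∀ Ψ M, NearId Ψ M → Cid Ψ (R + 1) η → ∀ p ∈ S, ‖p‖ ≤ R →
      |pw w₀ Ψ p + ⟪Ψ p - p, grad w₀ p⟫| ≤ σ * ‖Ψ p - p‖ := by
  obtain ⟨B, -, hB⟩ := unif_jet (sh2 h₀) R
  obtain ⟨τ, τ0, τ1, hτ⟩ := hB (σ / 4) (by positivity)
  refine ⟨min (τ / 2) (σ / 4), by positivity, (min_le_left _ _).trans (by linarith),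
    fun Ψ M h hc p hp hR => ?_⟩
  obtain ⟨q, e⟩ := h.surjective p
  have k0 : ‖q - p‖ ≤ 2 * ‖Ψ p - p‖ := by
    have := h.anti q p
    rwa [e, norm_sub_rev p] at this
  have k1 : ‖q - p‖ ≤ τ := by linarith [(hc p (by linarith)).h0.trans (min_le_left _ _)]
  have mq : q ∈ closedBall p τ := mem_closedBall_iff_norm.2 k1
  have mp : p ∈ closedBall p τ := mem_closedBall_self τ0.le
  have k2 := (convex_closedBall p τ).norm_image_sub_le_of_norm_fderiv_le' (φ := fderiv ℝ w₀ p)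
    (fun z _ => (sh2 h₀).differentiable (by simp) z) (fun z hz => (norm_sub_rev _ _).trans_le
      (hτ p z hR (mem_closedBall_iff_norm.1 hz)).2.2.1) mp mq
  have b : ∀ z ∈ closedBall p τ, J2 (fun y => Ψ y - y) z _ _ _ := fun z hz => hc z (by
    linarith [norm_le_norm_add_norm_sub' z p, mem_closedBall_iff_norm.1 hz])
  have k3 := (convex_closedBall p τ).norm_image_sub_le_of_norm_fderiv_le
    (fun z hz => (b z hz).cd.differentiableAt (by simp))
    (fun z hz => (b z hz).h1.trans (min_le_right _ _)) mp mq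
  have k4 := (abs_real_inner_le_norm (Ψ q - q - (Ψ p - p)) (grad w₀ p))
  rw [show ‖grad w₀ p‖ = 1 from h₀.norm_grad p (sh_mem h₀ hp), mul_one] at k4
  have e1 : pw w₀ Ψ p = w₀ q := by rw [← e, pw, h.desc_apply]
  rw [(h₀.mem_iff p).1 hp, sub_zero, ← inner_grad', Real.norm_eq_abs] at k2
  have e2 : w₀ q + ⟪Ψ p - p, grad w₀ p⟫ =
      (w₀ q - ⟪q - p, grad w₀ p⟫) - ⟪Ψ q - q - (Ψ p - p), grad w₀ p⟫ := by
    simp only [inner_sub_left, e]
    ring
  rw [e1, e2]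
  refine (abs_sub _ _).trans ?_
  nlinarith

theorem LFP.lf (hT : TAIL E m) (hE : finrank ℝ E = m + 1) {k : ℕ} {ψ : Fin k → E → ℝ} {γ : ℝ}
    {Ψ : (Fin k → ℝ) → ℝ → E → E} {lam : (Fin k → ℝ) → ℝ → Fin k → ℝ}
    {Z : (Fin k → ℝ) → ℝ → ℝ} {F R r K : ℝ} (h : LFP m k S w₀ δ C ψ γ Ψ lam Z F R r K) :
    ∃ K', LF m k S w₀ δ C ψ γ (fun x ε => pw w₀ (Ψ x ε)) lam Z δ (2 / 3) r K' := by
  have := FiniteDimensional.proper_real E
  have h₀ := h.shr
  have r0 := h.rpos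
  have cs : ∀ i, HasCompactSupport (ψ i) := fun i => HasCompactSupport.intro
    (isCompact_closedBall (0 : E) R) fun p hp => by_contra fun e =>
      hp (mem_closedBall_zero_iff.2 (h.supp i p e))
  obtain ⟨K', k1, k2, k3, k4, k5, k6⟩ : ∃ K' : ℝ, 2 ≤ K' ∧ 4 * C + 8 * K ≤ K' ∧ K ≤ K' ∧
      2 * ((finrank ℝ E + 1) * (4 * C + 8 * K) + 2 * K) ≤ K' ∧ C ≤ K' ∧
      2 * ((finrank ℝ E + 1) * C) ≤ K' := ((eventually_ge_atTop _).and ((eventually_ge_atTop _).and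
    ((eventually_ge_atTop _).and ((eventually_ge_atTop _).and ((eventually_ge_atTop _).and
      (eventually_ge_atTop _)))))).exists
  have d0 := dfn_self h₀ (by linarith) k5 k6
  have d1 : ∀ x ε, ‖x‖ ≤ r → 0 < ε → ε ≤ r → Dfn (pw w₀ (Ψ x ε)) δ (2 / 3) K' :=
    fun x ε a b c => dfn_pw h₀ (h.near x ε a b c) (h.bx x ε a b c) k1 k2 k3 k4
  obtain ⟨B, -, hB⟩ := dfn_tail hT hE K' h₀.pos (show (0 : ℝ) < 2 / 3 by norm_num) one_half_pos
  have lf := (hB _ d0).1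
  have hF : F ≤ FA (hm m w₀) := le_of_forall_pos_le_add fun σ σ0 => by
    obtain ⟨η, η0, hη⟩ := fa_le hT hE h₀ d0 K (half_pos σ0)
    obtain ⟨ω, ω0, ω1, ω2, ω3⟩ : ∃ ω > 0, ω ≤ η ∧ ω ≤ 1 ∧ K' * (ω + ω) ≤ σ / 2 :=
      ⟨min (min η 1) (σ / (4 * K')), by positivity, (min_le_left _ _).trans (min_le_left _ _),
        (min_le_left _ _).trans (min_le_right _ _), by
          have := (le_div_iff₀ (by positivity)).1 (min_le_right (min η 1) (σ / (4 * K')))
          linarith⟩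
    obtain ⟨τ, τ0, hτ⟩ := h.small ω ω0
    have e0 : 0 < min (min τ r) ω := by positivity
    have e1 : min (min τ r) ω ≤ r := (min_le_left _ _).trans (min_le_right _ _)
    obtain ⟨l1, l2, -⟩ := hτ 0 _ (by simpa using τ0.le) e0 ((min_le_left _ _).trans (min_le_left _ _))
    have n0 : ‖(0 : Fin k → ℝ)‖ ≤ r := by simpa using r0.le
    have l3 := hη _ (h.near 0 _ n0 e0 e1) (d1 0 _ n0 e0 e1) (l2.mono (inv_anti₀ ω0 ω1) ω1)
    have l4 := (abs_le.1 (h.area 0 _ n0 e0 e1)).1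
    have l5 : ‖lam 0 (min (min τ r) ω)‖ ^ (2 * γ) ≤ ω :=
      (Real.rpow_le_rpow (norm_nonneg _) l1 (by linarith [h.gam])).trans
        (by simpa using Real.rpow_le_rpow_of_exponent_ge ω0 ω2 (show 1 ≤ 2 * γ by linarith [h.gam]))
    have l6 : K * (‖lam 0 (min (min τ r) ω)‖ ^ (2 * γ) + min (min τ r) ω) ≤ K' * (ω + ω) :=
      mul_le_mul k3 (add_le_add l5 (min_le_right _ _)) (by positivity) (by linarith)
    linarith
  refine ⟨K', h₀, fun i => ⟨h.psi i, cs i⟩, h.gam, r0, d0, d1, fun x ε a b c => ?_,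
    fun x ε a b c => ⟨(h.cut x ε a b c).1, (h.cut x ε a b c).2.trans (by gcongr)⟩,
    fun ω ω0 => ?_, ?_, h.nd⟩
  · rw [tail_zero ((hB _ (d1 x ε a b c)).2 0 le_rfl)]
    have : K * (‖lam x ε‖ ^ (2 * γ) + ε) ≤ K' * (‖lam x ε‖ ^ (2 * γ) + ε) := by gcongr
    exact ENNReal.ofReal_le_ofReal (by linarith [(abs_le.1 (h.area x ε a b c)).2])
  · obtain ⟨η, η0, hη⟩ := cl2_pw (sh2 h₀) K ω0
    choose L hL using fun i => ContDiff.lipschitzWith_of_hasCompactSupport (cs i) (h.psi i) one_ne_zero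
    have L0 : (0 : ℝ) ≤ ∑ i, (L i : ℝ) := by positivity
    obtain ⟨σ, σ0, σ1, σ2, σ3⟩ : ∃ σ > 0, σ ≤ η ∧ σ * (1 + ∑ i, (L i : ℝ)) ≤ ω ∧
        σ ≤ (2 * |R| + 2)⁻¹ := ⟨min η (min (ω / (1 + ∑ i, (L i : ℝ))) (2 * |R| + 2)⁻¹),
      by positivity, min_le_left _ _, (le_div_iff₀ (by positivity)).1
        ((min_le_right _ _).trans (min_le_left _ _)), (min_le_right _ _).trans (min_le_right _ _)⟩
    have σ4 : 2 * |R| + 2 ≤ σ⁻¹ := le_inv_of_le_inv₀ σ0 σ3
    have σ5 : σ ≤ 1 := σ3.trans (inv_le_one_of_one_le₀ (by linarith [abs_nonneg R]))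
    obtain ⟨τ, τ0, hτ⟩ := h.small σ σ0
    refine ⟨min τ r, by positivity, fun x ε a b c => ?_⟩
    obtain ⟨l1, l2, l3⟩ := hτ x ε (a.trans (min_le_left _ _)) b (c.trans (min_le_left _ _))
    have n := h.near x ε (a.trans (min_le_right _ _)) b (c.trans (min_le_right _ _))
    refine ⟨l1.trans (by nlinarith), hη _ n (l2.mono (inv_anti₀ σ0 σ1) σ1), fun y hy hZ => ?_⟩
    obtain ⟨p, hp, rfl⟩ : y ∈ Ψ x ε '' S := pw_zero h₀ n ▸ hy
    have l4 : ∀ i, |ψ i p - ψ i (Ψ x ε p)| ≤ L i * σ := fun i => by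
      rcases le_or_gt ‖p‖ σ⁻¹ with e | e
      · refine ((hL i).dist_le_mul _ _).trans (mul_le_mul_of_nonneg_left ?_ (L i).2)
        rw [dist_comm, dist_eq_norm]
        exact (l2 p e).h0
      · have z1 : ψ i p = 0 := by_contra fun z => by linarith [h.supp i _ z, le_abs_self R, abs_nonneg R]
        have z2 : ψ i (Ψ x ε p) = 0 := by_contra fun z => by
          have k1 := n.anti p 0
          have k2 := (l2 0 (by simpa using σ0.le)).h0
          simp only [sub_zero] at k1 k2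
          linarith [h.supp i _ z, le_abs_self R, norm_sub_le (Ψ x ε p) (Ψ x ε 0)]
        rw [z1, z2, sub_self, abs_zero]
        positivity
    have l5 : |∑ i, lam x ε i * ψ i p - ∑ i, lam x ε i * ψ i (Ψ x ε p)| ≤
        ∑ i, ‖lam x ε‖ * (L i * σ) := by
      rw [← Finset.sum_sub_distrib]
      refine (Finset.abs_sum_le_sum_abs _ _).trans (Finset.sum_le_sum fun i _ => ?_)
      rw [← mul_sub, abs_mul]
      exact mul_le_mul (norm_le_pi_norm (lam x ε) i) (l4 i) (abs_nonneg _) (norm_nonneg _)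
    rw [← Finset.mul_sum, ← Finset.sum_mul] at l5
    refine (abs_sub_le _ _ _).trans ((add_le_add (l3 p hp hZ) l5).trans ?_)
    nlinarith [norm_nonneg (lam x ε)]
  · obtain ⟨r₁, r1, hr⟩ := h.gauge
    have ci : ∀ i {f : E → ℝ}, Continuous f → Integrable (fun p => f p * ψ i p * rho p) (hm m w₀) :=
      fun i f hf => ((hf.mul (h.psi i).continuous).mul
        continuous_rho).integrable_of_hasCompactSupport ((cs i).mul_left.mul_right)
    have ia : ∀ i, Integrable (fun p => |ψ i p| * rho p) (hm m w₀) := fun i =>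
      (ci i continuous_one).abs.congr (.of_forall fun p => by simp [abs_of_pos (rho_pos p)])
    obtain ⟨A, A0, hA⟩ : ∃ A, 0 < A ∧ ∀ i, ∫ p, |ψ i p| * rho p ∂(hm m w₀) ≤ A := by
      obtain ⟨A, hA⟩ := (finite_range fun i => ∫ p, |ψ i p| * rho p ∂(hm m w₀)).bddAbove
      exact ⟨|A| + 1, by positivity, fun i => by linarith [hA ⟨i, rfl⟩, le_abs_self A]⟩
    obtain ⟨η, η0, η1, hη⟩ := pw_expand h₀ R (σ := 1 / (8 * K' * A)) (by positivity)
    obtain ⟨τ, τ0, hτ⟩ := h.small (min η (|R| + 1)⁻¹) (by positivity)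
    refine ⟨min r₁ (min τ r), by positivity, fun r' r2 r3 => ?_⟩
    obtain ⟨ε₀, ε1, hε⟩ := hr r' r2 (r3.trans (min_le_left _ _))
    have r4 := r3.trans (min_le_right _ _)
    refine ⟨min ε₀ (min τ r), by positivity, fun ε b c => ?_⟩
    have c' := c.trans (min_le_right _ _)
    have n : ∀ x, ‖x‖ ≤ r' → NearId (Ψ x ε) K ∧ Cid (Ψ x ε) (R + 1) η := fun x a =>
      ⟨h.near x ε (a.trans (r4.trans (min_le_right _ _))) b (c'.trans (min_le_right _ _)),
        (hτ x ε (a.trans (r4.trans (min_le_left _ _))) b (c'.trans (min_le_left _ _))).2.1.mono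
          ((add_le_add_left (le_abs_self R) 1).trans
            (le_inv_of_le_inv₀ (by positivity) (min_le_right _ _))) (min_le_left _ _)⟩
    refine ⟨fun i p hp x₀ a₀ => ?_, fun x a i => ?_⟩
    · obtain ⟨n1, n2⟩ := n x₀ (mem_closedBall_zero_iff.1 a₀)
      choose! q hq using fun x (a : x ∈ closedBall (0 : Fin k → ℝ) r') =>
        (n x (mem_closedBall_zero_iff.1 a)).1.surjective p
      have q1 : ‖q x₀‖ ≤ R + 1 := by
        have k1 := n1.anti (q x₀) p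
        rw [hq x₀ a₀, norm_sub_rev p] at k1
        linarith [(n2 p (by linarith [h.supp i p hp])).h0, h.supp i p hp,
          norm_le_norm_add_norm_sub' (q x₀) p]
      have q2 := ((h.cont ε b (c'.trans (min_le_right _ _)) _ q1).mono
        (closedBall_subset_closedBall (r4.trans (min_le_right _ _)))) x₀ a₀
      have q3 : ContinuousWithinAt q (closedBall 0 r') x₀ := by
        refine tendsto_iff_norm_sub_tendsto_zero.2 (squeeze_zero' (.of_forall fun _ => norm_nonneg _)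
          (eventually_mem_nhdsWithin.mono fun x a => ?_) (by
            simpa using (tendsto_iff_norm_sub_tendsto_zero.1 q2).const_mul 2))
        have := (n x (mem_closedBall_zero_iff.1 a)).1.anti (q x) (q x₀)
        rwa [hq x a, ← hq x₀ a₀, norm_sub_rev (Ψ x₀ ε _)] at this
      have e : ∀ x ∈ closedBall (0 : Fin k → ℝ) r', pw w₀ (Ψ x ε) p = w₀ (q x) := fun x a => by
        rw [← hq x a, pw, (n x (mem_closedBall_zero_iff.1 a)).1.desc_apply]
      exact ((sh2 h₀).continuous.continuousAt.comp_continuousWithinAt q3).congr e (e _ a₀)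
    · obtain ⟨n1, n2⟩ := n x a
      obtain ⟨g1, g2⟩ := hε ε b (c.trans (min_le_left _ _)) x a
      have i1 := ci i (n1.contDiff_desc (sh2 h₀)).continuous
      have i2 := ci i (f := fun p => ⟪Ψ x ε p - p, grad w₀ p⟫)
        ((n1.cd.continuous.sub continuous_id).inner (𝕜 := ℝ)
        (continuous_grad ((sh2 h₀).of_le (by norm_num))))
      have g3 := norm_integral_le_of_norm_le ((ia i).const_mul (r' / (8 * A))) (f := fun p =>
        pw w₀ (Ψ x ε) p * ψ i p * rho p + ⟪Ψ x ε p - p, grad w₀ p⟫ * ψ i p * rho p) (by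
          filter_upwards [ae_sh h₀] with p hp
          by_cases z : ψ i p = 0
          · simp [z]
          rw [← add_mul, ← add_mul, Real.norm_eq_abs, abs_mul, abs_mul, abs_of_pos (rho_pos p),
            mul_assoc]
          refine mul_le_mul_of_nonneg_right ((hη _ _ n1 n2 p hp (h.supp i p z)).trans ?_)
            (mul_nonneg (abs_nonneg _) (rho_pos p).le)
          calc _ ≤ 1 / (8 * K' * A) * (K' * r') := by
                gcongr
                exact (g1 p hp (h.supp i p z)).trans (by gcongr)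
            _ = _ := by field_simp)
      rw [integral_add i1 i2, integral_const_mul, Real.norm_eq_abs] at g3
      have g4 : r' / (8 * A) * ∫ p, |ψ i p| * rho p ∂(hm m w₀) ≤ r' / 8 :=
        (mul_le_mul_of_nonneg_left (hA i) (by positivity)).trans_eq (by field_simp)
      have g5 := abs_le.1 (g2 i)
      have g6 := abs_le.1 (g3.trans g4)
      exact abs_le.2 ⟨by linarith [g5.2, g6.1], by linarith [g5.1, g6.2]⟩

end Vale.Agent.P218B
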