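import Vale.Agent.P218B.Phi
import Vale.Agent.P218B.Lfp

/-!
# P218B: properties of the image of a shrinker under one near identity map
-/

noncomputable section

open MeasureTheory Set Filter Topology Module Metric
open scoped ENNReal RealInnerProductSpace

namespace Vale.Agent.P218B

open Vale.Agent.P218 Vale.Agent.P218.H313 Vale.Agent.P218D Vale.Agent.P218N
open Vale.Agent.P218.H63 (IsTubeShrinker)

theorem dd_ne {A : E3 →L[ℝ] E3} (h : ∀ v, A v = 0 → v = 0) :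
    (dd fun b => (A (e3 b)).ofLp) ≠ 0 := fun e => by
  have e' : (Matrix.of fun b => (A (e3 b)).ofLp).det = 0 := (dd_eq_det _).symm.trans e
  obtain ⟨v, v0, hv⟩ := Matrix.exists_vecMul_eq_zero_iff.2 e'
  refine v0 (congrArg WithLp.ofLp (h (WithLp.toLp 2 v) ?_))
  conv_lhs => rw [← ap_e3 (WithLp.toLp 2 v), map_ap]
  ext i
  simpa [ap, Matrix.vecMul, dotProduct, Fin.sum_univ_three] using congrFun hv i

theorem dd_pos {A : E3 →L[ℝ] E3} (h : ‖A - .id ℝ E3‖ ≤ 1 / 2) :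
    0 < dd fun b => (A (e3 b)).ofLp := by
  obtain ⟨φ, hφ⟩ : ∃ φ : ℝ → ℝ, ∀ t, φ t = dd fun b =>
    ((ContinuousLinearMap.id ℝ E3 + t • (A - .id ℝ E3)) (e3 b)).ofLp := ⟨_, fun _ => rfl⟩
  have c : Continuous φ := by
    rw [funext hφ]
    have : ∀ a c : Fin 3 → Fin 3 → ℝ, Continuous fun t : ℝ => dd fun b => a b + t • c b :=
      fun a c => by
        simp only [dd, dt, cr0, cr1, cr2, Pi.add_apply, Pi.smul_apply, smul_eq_mul]
        fun_prop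
    exact this (fun b => (e3 b).ofLp) fun b => ((A - .id ℝ E3) (e3 b)).ofLp
  have n : ∀ t ∈ Icc (0 : ℝ) 1, φ t ≠ 0 := fun t ht => by
    rw [hφ]
    refine dd_ne fun v k => ?_
    generalize A - .id ℝ E3 = B at h k
    have k1 := B.le_of_opNorm_le h v
    rw [add_apply, smul_apply, ContinuousLinearMap.id_apply] at k
    have k2 := congrArg norm (eq_neg_of_add_eq_zero_left k)
    rw [norm_neg, norm_smul, Real.norm_of_nonneg ht.1] at k2
    refine norm_le_zero_iff.1 ?_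
    nlinarith [ht.1, ht.2, norm_nonneg (B v)]
  have e0 : φ 0 = 1 := by simp [hφ, dd, dt, cr0, cr1, cr2]
  have e1 : φ 1 = dd fun b => (A (e3 b)).ofLp := by simp [hφ]
  by_contra k
  obtain ⟨t, ht, e⟩ := intermediate_value_Icc' zero_le_one c.continuousOn
    (show (0 : ℝ) ∈ Icc (φ 1) (φ 0) from ⟨e1 ▸ not_lt.1 k, e0 ▸ zero_le_one⟩)
  exact n t ht e

theorem phi_fin {G s σ n φ E : ℝ} (hG : 0 < G) (hn : 0 < n) (hσ : σ * σ = 1) (hs : 0 < σ * s)
    (h1 : 2 * G * n * φ = -s * E) (h2 : G * n ^ 2 = s * s) : φ = -(σ * E) / (2 * √G) := by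
  have r := Real.sqrt_pos.2 hG
  have r2 := Real.mul_self_sqrt hG.le
  have e : σ * s = √G * n := (pow_left_inj₀ hs.le (by positivity) two_ne_zero).1 (by
    linear_combination s * s * hσ - h2 - n ^ 2 * r2)
  rw [eq_div_iff (by positivity)]
  refine mul_left_cancel₀ (show √G * n ≠ 0 by positivity) ?_
  linear_combination h1 + 2 * n * φ * r2 - σ * E * e + s * E * hσ

theorem par_sq {G s : ℝ} {g : E3} {N : Fin 3 → ℝ} (hs : s = dt g.ofLp N)
    (h : ∀ i, G * g i = s * N i) : G * ‖g‖ ^ 2 = s * s := by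
  rw [← real_inner_self_eq_norm_sq, inner_eq_dt, dt]
  rw [dt] at hs
  linear_combination g 0 * h 0 + g 1 * h 1 + g 2 * h 2 - s * hs

variable {S : Set E3} {w₀ : E3 → ℝ} {δ C M : ℝ} {Ψ : E3 → E3} {p : E3}

theorem grad_e3 (w : E3 → ℝ) (p : E3) (b : Fin 3) : grad w p b = fderiv ℝ w p (e3 b) := by
  rw [← inner_grad]
  simp [EuclideanSpace.inner_single_right]

theorem pw_ne (h₀ : IsTubeShrinker S w₀ δ C) (h : NearId Ψ M) (hp : p ∈ S) :
    0 < ‖grad (pw w₀ Ψ) (Ψ p)‖ := by linarith [(pw_bd h₀ h (sh_mem h₀ hp)).1]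

theorem core_sign (h₀ : IsTubeShrinker S w₀ δ C) (h : NearId Ψ M) (hp : p ∈ S) :
    0 < P218N.gg (j1 Ψ p e3) (grad w₀ p).ofLp ∧
      0 < dt (grad (pw w₀ Ψ) (Ψ p)).ofLp (nn (j1 Ψ p e3) (grad w₀ p).ofLp) := by
  have d : 0 < dd (j1 Ψ p e3) := dd_pos (h.d1 p)
  have n : ‖grad w₀ p‖ = 1 := h₀.norm_grad p (sh_mem h₀ hp)
  have G : 0 < P218N.gg (j1 Ψ p e3) (grad w₀ p).ofLp := by
    have := jacT_pos (A := fderiv ℝ Ψ p) (T := (ℝ ∙ grad w₀ p)ᗮ)
      fun v _ hv => h.loc.inj p (mem_univ _) v hv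
    rw [jacT_gg _ n] at this
    exact Real.sqrt_pos.1 this
  have k := mu_eq (μ := 1) (g := (grad (pw w₀ Ψ) (Ψ p)).ofLp) (A := j1 Ψ p e3)
    (m := (grad w₀ p).ofLp) (fun b => by
      rw [j1, ← inner_eq_dt, pw_grad (sh2 h₀) h, inner_grad, one_mul, grad_e3]) G.ne'
  exact ⟨G, (pos_iff_pos_of_mul_pos (k ▸ by simpa using G)).2 d⟩

/-- the shrinker quantity at the image of a point near which `Ψ = X` -/
theorem phi_core (h₀ : IsTubeShrinker S w₀ δ C) (h : NearId Ψ M) (hp : p ∈ S) {X : E3 → E3}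
    (e : Ψ =ᶠ[𝓝 p] X) : 0 < P218N.gg (j1 X p e3) (grad w₀ p).ofLp ∧ phiS (pw w₀ Ψ) (Ψ p) =
      -eqn (X p).ofLp (j1 X p e3) (j2 X p e3) (grad w₀ p).ofLp (fun c b => d2 w₀ p (e3 c) (e3 b)) /
        (2 * √(P218N.gg (j1 X p e3) (grad w₀ p).ofLp)) := by
  have e1 : j1 X p e3 = j1 Ψ p e3 := funext fun b => by rw [j1, j1, e.fderiv_eq]
  have e2 : j2 X p e3 = j2 Ψ p e3 := funext₂ fun c b => by rw [j2, j2, d2_congr e]
  obtain ⟨k1, k2⟩ := core_sign h₀ h hp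
  have n := pw_ne h₀ h hp
  obtain ⟨l1, l2⟩ := phiS_amb (h.contDiff_desc (sh2 h₀)) h.cd.contDiffAt (sh2 h₀).contDiffAt
    (.of_forall fun y k => by rwa [h.desc_apply, h.desc_apply]) (grad_e3 w₀ p) (fun _ _ => rfl)
    k1.ne' (norm_pos_iff.1 n)
  rw [e1, e2, ← e.eq_of_nhds]
  exact ⟨k1, by simpa using phi_fin (σ := 1) k1 n (by simp) (by simpa) l1 (par_sq rfl l2)⟩

theorem cr_ap (A : Fin 3 → Fin 3 → ℝ) (a b : Fin 3 → ℝ) :
    cr (ap A a) (ap A b) = nn A (cr a b) := by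
  refine ext3 ?_ ?_ ?_ <;>
    simp only [nn, ap, cr0, cr1, cr2, Pi.add_apply, Pi.smul_apply, smul_eq_mul] <;> ring

variable {P X : ℝ × ℝ → E3} {y : ℝ × ℝ}

/-- the shrinker quantity in a chart -/
theorem phi_chart (h₀ : IsTubeShrinker S w₀ δ C) (h : NearId Ψ M) (hP : ContDiffAt ℝ 2 P y)
    (hS : ∀ᶠ q in 𝓝 y, P q ∈ S) (e : (fun q => Ψ (P q)) =ᶠ[𝓝 y] X) {s σ : ℝ} (hσ : σ * σ = 1)
    (hs : 0 < σ * s) (hN : cr (fderiv ℝ P y (1, 0)).ofLp (fderiv ℝ P y (0, 1)).ofLp =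
      s • (grad w₀ (P y)).ofLp) :
    0 < P218N.gg (j1 X y e2) m2 ∧ phiS (pw w₀ Ψ) (Ψ (P y)) =
      -(σ * eqn (X y).ofLp (j1 X y e2) (j2 X y e2) m2 0) / (2 * √(P218N.gg (j1 X y e2) m2)) := by
  have c : ContDiffAt ℝ 2 (fun q => Ψ (P q)) y := h.cd.contDiffAt.comp y hP
  have e1 : j1 X y e2 = j1 (fun q => Ψ (P q)) y e2 := funext fun b => by rw [j1, j1, e.fderiv_eq]
  have e2' : j2 X y e2 = j2 (fun q => Ψ (P q)) y e2 :=
    funext₂ fun c b => by rw [j2, j2, d2_congr e]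
  obtain ⟨k1, k2⟩ := core_sign h₀ h hS.self_of_nhds
  have n := pw_ne h₀ h hS.self_of_nhds
  have a : ∀ v, (fderiv ℝ (fun q => Ψ (P q)) y v).ofLp =
      ap (j1 Ψ (P y) e3) (fderiv ℝ P y v).ofLp := fun v => by
    rw [d1_comp h.cd.contDiffAt hP]
    conv_lhs => rw [← ap_e3 (fderiv ℝ P y v), map_ap, ofLp_ap]
    rfl
  have N : nn (j1 (fun q => Ψ (P q)) y e2) m2 = s • nn (j1 Ψ (P y) e3) (grad w₀ (P y)).ofLp := by
    rw [nn_par, a, a, cr_ap, hN, nn_smul]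
  have s0 : s ≠ 0 := by
    rintro rfl
    simp at hs
  have G : 0 < P218N.gg (j1 (fun q => Ψ (P q)) y e2) m2 := by
    rw [P218N.gg, N, smul_dt, dt_smul, ← mul_assoc]
    exact mul_pos (mul_self_pos.2 s0) k1
  obtain ⟨l1, l2⟩ := phiS_par (h.contDiff_desc (sh2 h₀)) c (c := 0)
    (hS.mono fun q k => by rw [h.desc_apply, (h₀.mem_iff _).1 k]) G.ne' (norm_pos_iff.1 n)
  rw [e1, e2', ← e.eq_of_nhds]
  refine ⟨G, phi_fin G n hσ ?_ l1 (par_sq rfl l2)⟩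
  rw [N, dt_smul, ← mul_assoc]
  exact mul_pos hs k2

theorem bx_chart (h₀ : IsTubeShrinker S w₀ δ C) (h : NearId Ψ M) (hP : ContDiffAt ℝ 2 P y)
    (hS : ∀ᶠ q in 𝓝 y, P q ∈ S) (e : (fun q => Ψ (P q)) =ᶠ[𝓝 y] X) (v : ℝ × ℝ) :
    |⟪Ψ (P y), grad (pw w₀ Ψ) (Ψ (P y))⟫| ≤ 2 * ‖X y - fderiv ℝ X y v‖ := by
  have c : ContDiffAt ℝ 2 (fun q => Ψ (P q)) y := h.cd.contDiffAt.comp y hP
  have k := (d12_of_const (f := fun q => pw w₀ Ψ (Ψ (P q))) (c := 0)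
    (hS.mono fun q k => (h.desc_apply _ _).trans ((h₀.mem_iff _).1 k))).1
  have k1 := d1_comp (φ := pw w₀ Ψ) (h.contDiff_desc (sh2 h₀)).contDiffAt c v
  rw [k, ← inner_grad, e.fderiv_eq] at k1
  have k2 := abs_real_inner_le_norm (grad (pw w₀ Ψ) (Ψ (P y))) (X y - fderiv ℝ X y v)
  rw [inner_sub_right, ← k1, ← e.eq_of_nhds, real_inner_comm] at k2
  simp only [zero_apply, sub_zero] at k2
  rw [← e.eq_of_nhds]
  exact k2.trans (mul_le_mul_of_nonneg_right (pw_bd h₀ h (sh_mem h₀ hS.self_of_nhds)).2.1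
    (norm_nonneg _))

theorem jc_eq (h₀ : IsTubeShrinker S w₀ δ C) (h : NearId Ψ M) (hp : p ∈ S) {X : E3 → E3}
    (hX : ContDiffAt ℝ 2 X p) (e : ∀ᶠ q in 𝓝 p, q ∈ S → Ψ q = X q) :
    jc w₀ Ψ p = √(P218N.gg (j1 X p e3) (grad w₀ p).ofLp) := by
  have n : ‖grad w₀ p‖ = 1 := h₀.norm_grad p (sh_mem h₀ hp)
  refine Eq.trans (congrArg LinearMap.normDet (LinearMap.ext fun v => ?_)) (jacT_gg (fderiv ℝ X p) n)
  have c := h.cd.contDiffAt.sub hX
  refine ext_inner_left ℝ fun a => ?_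
  obtain ⟨μ, k, -⟩ := lagrange (F := fun q => innerSL ℝ a (Ψ q - X q)) (d := w₀) (p := p)
    ((innerSL ℝ a).contDiff.contDiffAt.comp p c) (sh2 h₀).contDiffAt
    (fun k => by simp [norm_grad, k] at n) (e.mono fun q k1 k2 => by
      rw [k1 ((h₀.mem_iff q).2 (k2.trans ((h₀.mem_iff p).1 hp))), e.self_of_nhds hp, sub_self,
        sub_self])
  have k1 := k v
  rw [d1_comp (innerSL ℝ a).contDiff.contDiffAt c, ← inner_grad w₀,
    Submodule.mem_orthogonal_singleton_iff_inner_right.1 v.2, mul_zero,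
    ((hasD1 h.cd.contDiffAt).fun_sub (hasD1 hX)).fderiv, (innerSL ℝ a).fderiv] at k1
  simpa [inner_sub_right, sub_eq_zero] using k1

theorem gr2_ne {E : Type*} [NormedAddCommGroup E] [InnerProductSpace ℝ E] {A : ℝ × ℝ →L[ℝ] E}
    (h : ∀ v, A v = 0 → v = 0) : gr2 (A (1, 0)) (A (0, 1)) ≠ 0 := fun e => by
  have := jacT_pos (A := A ∘L (pl : EuclideanSpace ℝ (Fin 2) →L[ℝ] ℝ × ℝ)) (T := ⊤)
    fun v _ hv => pl.injective ((h _ hv).trans (map_zero _).symm)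
  simp [jacT_pl, e] at this

/-- the area of the part of the image in a ball -/
theorem area_le (h₀ : IsTubeShrinker S w₀ δ C) (h : NearId Ψ M) {ε : Type*} [Fintype ε]
    {P : ε → ℝ × ℝ → E3} {t : ε → Set (ℝ × ℝ)} (ht : ∀ e, MeasurableSet (t e))
    (hP : ∀ e, ∀ y ∈ t e, ContDiffAt ℝ 2 (P e) y ∧ P e y ∈ S ∧
      gr2 (fderiv ℝ (P e) y (1, 0)) (fderiv ℝ (P e) y (0, 1)) ≠ 0)
    {χ : E3 → ℝ} (hχ : ContinuousOn χ S) (h01 : ∀ p ∈ S, 0 ≤ χ p ∧ χ p ≤ 1) {ρ : ℝ}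
    (cov : ∀ p ∈ S, ‖Ψ p‖ < ρ → χ p ≠ 0 → ∃ e, p ∈ P e '' t e) :
    ∫⁻ x in ball 0 ρ, ENNReal.ofReal (rho x) ∂hm 2 (pw w₀ Ψ) ≤
      ∫⁻ p, ENNReal.ofReal ((1 - χ p) * rho (Ψ p) * jc w₀ Ψ p) ∂hm 2 w₀ +
        cH 2 * ∑ e, ∫⁻ y in t e, ENNReal.ofReal (χ (P e y) * rho (Ψ (P e y)) *
          √(gr2 (fderiv ℝ (fun q => Ψ (P e q)) y (1, 0))
            (fderiv ℝ (fun q => Ψ (P e q)) y (0, 1)))) := by
  classical
  have m0 := hχ.measurable_piecewise (g := fun _ => 0) continuousOn_const (sh_meas h₀)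
  set φ : E3 → ℝ := fun x => S.piecewise χ (fun _ => 0) (desc Ψ univ id x)
  have m1 : Measurable φ := m0.comp (h.contDiff_desc contDiff_id).continuous.measurable
  have e1 : ∀ p ∈ S, φ (Ψ p) = χ p := fun p hp => by simp [φ, h.desc_apply, hp]
  have m2 : Measurable fun x => ENNReal.ofReal ((1 - φ x) * rho x) :=
    ((measurable_const.sub m1).mul continuous_rho.measurable).ennreal_ofReal
  have m3 : Measurable fun x => ENNReal.ofReal (φ x * rho x) :=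
    (m1.mul continuous_rho.measurable).ennreal_ofReal
  refine (lintegral_mono (g := fun x => ENNReal.ofReal ((1 - φ x) * rho x) +
    ENNReal.ofReal (φ x * rho x)) fun x => ?_).trans ?_
  · exact (ENNReal.ofReal_le_ofReal (by linarith)).trans ENNReal.ofReal_add_le
  rw [lintegral_add_left m2]
  refine add_le_add ((setLIntegral_le_lintegral _ _).trans_eq ?_) ?_
  · have := lint_pw (m := 2) (by simp) h₀ h MeasurableSet.univ m2
    rw [Measure.restrict_univ, preimage_univ, Measure.restrict_univ] at this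
    refine this.trans (lintegral_congr_ae ((ae_sh h₀).mono fun p hp => ?_))
    simp only [e1 p hp, ENNReal.ofReal_mul (mul_nonneg (sub_nonneg.2 (h01 p hp).2) (rho_pos _).le)]
  rw [hm, Measure.restrict_restrict measurableSet_ball, pw_zero h₀ h,
    ← setLIntegral_eq_of_support_subset subset_rfl,
    Measure.restrict_restrict (measurableSet_support m3)]
  refine (lintegral_mono_set (t := ⋃ e, (fun q => Ψ (P e q)) '' t e) ?_).trans
    ((lintegral_iUnion_le _ _).trans ?_)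
  · rintro _ ⟨k1, k2, p, hp, rfl⟩
    obtain ⟨e, y, hy, rfl⟩ := cov p hp (mem_ball_zero_iff.1 k2) fun k => k1 (by simp [e1 p hp, k])
    exact mem_iUnion.2 ⟨e, y, hy, rfl⟩
  rw [tsum_fintype, Finset.mul_sum]
  refine Finset.sum_le_sum fun e _ => ?_
  have c : ∀ y ∈ t e, ContDiffAt ℝ 2 (fun q => Ψ (P e q)) y := fun y hy =>
    h.cd.contDiffAt.comp y (hP e y hy).1
  refine (Par.lintegral_le ⟨fun y hy => (c y hy).hasStrictFDerivAt (by simp), fun y hy =>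
    gr2_ne fun v hv => inj_of_gr2 (hP e y hy).2.2 (h.loc.inj (P e y) (mem_univ _) _ ?_),
    fun y hy => (hasD2 (c y hy)).continuousAt.continuousWithinAt⟩ (ht e) subset_rfl m3).trans_eq ?_
  · rwa [d1_comp h.cd.contDiffAt (hP e y hy).1] at hv
  · refine congrArg _ (setLIntegral_congr_fun (ht e) fun y hy => ?_)
    have k := (hP e y hy).2.1
    simp only [e1 _ k, ENNReal.ofReal_mul (mul_nonneg (h01 _ k).1 (rho_pos _).le)]

section

variable {E : Type*} [NormedAddCommGroup E] [InnerProductSpace ℝ E] [FiniteDimensional ℝ E]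
  {w : E → ℝ}

theorem bd_ball (hw : ContDiff ℝ 2 w) (R : ℝ) : ∃ B, 0 ≤ B ∧ ∀ x, ‖x‖ ≤ R → J2 w x B B B := by
  obtain ⟨B, B0, hB⟩ := unif_jet hw R
  obtain ⟨η, η0, -, k⟩ := hB 1 one_pos
  exact ⟨B, B0, fun x hx => (k x x hx (by simpa using η0.le)).1⟩

/-- second order expansion of the new defining function -/
theorem pw_quad (hw : ContDiff ℝ 2 w) (R : ℝ) : ∃ B, 0 ≤ B ∧ ∀ (Ψ : E → E) M ω, ω ≤ 1 / 2 →
    NearId Ψ M → Cid Ψ (R + 1) ω → ∀ p, ‖p‖ ≤ R → ‖grad w p‖ ≤ 1 →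
      |pw w Ψ p - w p + ⟪Ψ p - p, grad w p⟫| ≤ B * ω ^ 2 := by
  obtain ⟨B, B0, hB⟩ := bd_ball hw (R + 1)
  refine ⟨4 * B + 2, by positivity, fun Ψ M ω ω1 h hc p hR n => ?_⟩
  obtain ⟨q, e⟩ := h.surjective p
  have ω0 := (hc p (by linarith)).a0
  have k1 : ‖q - p‖ ≤ 2 * ω := by
    have := h.anti q p
    rw [e, norm_sub_rev p] at this
    linarith [(hc p (by linarith)).h0]
  have mq : q ∈ closedBall p (2 * ω) := mem_closedBall_iff_norm.2 k1
  have mp : p ∈ closedBall p (2 * ω) := mem_closedBall_self (by positivity)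
  have r : ∀ z ∈ closedBall p (2 * ω), ‖z‖ ≤ R + 1 := fun z hz => by
    linarith [norm_le_norm_add_norm_sub' z p, mem_closedBall_iff_norm.1 hz]
  have k2 := (convex_closedBall p (2 * ω)).norm_image_sub_le_of_norm_fderiv_le' (φ := fderiv ℝ w p)
    (C := B * (2 * ω)) (fun z _ => hw.differentiable (by simp) z) (fun z hz =>
      ((convex_closedBall p (2 * ω)).norm_image_sub_le_of_norm_hasFDerivWithin_le
        (fun z _ => (hasD2 hw.contDiffAt).hasFDerivWithinAt) (fun z hz => (hB z (r z hz)).h2)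
        mp hz).trans (mul_le_mul_of_nonneg_left (mem_closedBall_iff_norm.1 hz) B0)) mp mq
  have k3 := (convex_closedBall p (2 * ω)).norm_image_sub_le_of_norm_fderiv_le
    (fun z hz => (hc z (r z hz)).cd.differentiableAt (by simp))
    (fun z hz => (hc z (r z hz)).h1) mp mq
  have k4 := (abs_real_inner_le_norm (Ψ q - q - (Ψ p - p)) (grad w p)).trans
    (mul_le_of_le_one_right (norm_nonneg _) n)
  have e1 : pw w Ψ p = w q := by rw [← e, pw, h.desc_apply]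
  rw [← inner_grad', Real.norm_eq_abs] at k2
  have e2 : w q - w p + ⟪Ψ p - p, grad w p⟫ =
      (w q - w p - ⟪q - p, grad w p⟫) - ⟪Ψ q - q - (Ψ p - p), grad w p⟫ := by
    simp only [inner_sub_left, e]
    ring
  rw [e1, e2]
  refine (abs_sub _ _).trans ?_
  have := mul_le_mul_of_nonneg_left k1 (show 0 ≤ B * (2 * ω) by positivity)
  nlinarith

/-- the new defining function depends continuously on the map -/
theorem pw_lip (hw : ContDiff ℝ 2 w) (R : ℝ) : ∃ B, 0 ≤ B ∧ ∀ (Ψ Ψ' : E → E) M ε,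
    NearId Ψ M → NearId Ψ' M → (∀ x, ‖x‖ ≤ R + 1 → ‖Ψ x - Ψ' x‖ ≤ ε) → ∀ p, ‖p‖ ≤ R →
      ‖Ψ p - p‖ ≤ 1 / 2 → ‖Ψ' p - p‖ ≤ 1 / 2 → |pw w Ψ p - pw w Ψ' p| ≤ B * ε := by
  obtain ⟨B, B0, hB⟩ := bd_ball hw (R + 1)
  refine ⟨B * 2, by positivity, fun Ψ Ψ' M ε h h' hε p hR k k' => ?_⟩
  have r : ∀ {Ψ : E → E}, NearId Ψ M → ‖Ψ p - p‖ ≤ 1 / 2 → ∃ q, Ψ q = p ∧ pw w Ψ p = w q ∧
      q ∈ closedBall (0 : E) (R + 1) := fun h k => by
    obtain ⟨q, e⟩ := h.surjective p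
    have := h.anti q p
    rw [e, norm_sub_rev p] at this
    exact ⟨q, e, by rw [← e, pw, h.desc_apply],
      mem_closedBall_zero_iff.2 (by linarith [norm_le_norm_add_norm_sub' q p])⟩
  obtain ⟨q, e1, e2, m⟩ := r h k
  obtain ⟨q', e1', e2', m'⟩ := r h' k'
  have k1 := h'.anti q q'
  rw [e1', ← e1, norm_sub_rev (Ψ' q)] at k1
  rw [e2, e2', mul_assoc]
  exact ((convex_closedBall 0 (R + 1)).norm_image_sub_le_of_norm_fderiv_le
    (fun z _ => hw.differentiable (by simp) z) (fun z hz => (hB z (mem_closedBall_zero_iff.1 hz)).h1)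
    m' m).trans (mul_le_mul_of_nonneg_left (by linarith [hε q (mem_closedBall_zero_iff.1 m)]) B0)

end

end Vale.Agent.P218B
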