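import Vale.Agent.P218B.Psi
import Vale.Agent.P218B.One
import Vale.Agent.P218D.Bad

/-!
# P218B: the defining function of a surface given by a core and ends
-/

noncomputable section

open MeasureTheory Set Filter Topology Metric Module
open scoped ENNReal RealInnerProductSpace Real

namespace Vale.Agent.P218B

open Vale.Agent.P218 Vale.Agent.P218.H313 Vale.Agent.P218D Vale.Agent.P218N
open Vale.Agent.P218.H63 (IsTubeShrinker)
open Vale.Agent.P218T hiding E3 Per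

section

variable {S : Set E3} {w₀ : E3 → ℝ} {δ C M : ℝ} {Ψ X : E3 → E3} {p : E3}

/-- the squared area element of `X` on the level set of `w₀` -/
def gX (w₀ : E3 → ℝ) (X : E3 → E3) (p : E3) : ℝ := P218N.gg (j1 X p e3) (grad w₀ p).ofLp

/-- the shrinker operator of `X` on the level set of `w₀` -/
def eqX (w₀ : E3 → ℝ) (X : E3 → E3) (p : E3) : ℝ :=
  eqn (X p).ofLp (j1 X p e3) (j2 X p e3) (grad w₀ p).ofLp fun c b => d2 w₀ p (e3 c) (e3 b)

theorem tan_eq (h₀ : IsTubeShrinker S w₀ δ C) (hΨ : ContDiffAt ℝ 2 Ψ p) (hp : p ∈ S)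
    (hX : ContDiffAt ℝ 2 X p) (e : ∀ᶠ q in 𝓝 p, q ∈ S → Ψ q = X q) {v : E3}
    (hv : ⟪grad w₀ p, v⟫ = 0) : fderiv ℝ Ψ p v = fderiv ℝ X p v := by
  have n : ‖grad w₀ p‖ = 1 := h₀.norm_grad p (sh_mem h₀ hp)
  have c := hΨ.sub hX
  refine ext_inner_left ℝ fun a => ?_
  obtain ⟨μ, k, -⟩ := lagrange (F := fun q => innerSL ℝ a (Ψ q - X q)) (d := w₀) (p := p)
    ((innerSL ℝ a).contDiff.contDiffAt.comp p c) (sh2 h₀).contDiffAt
    (fun k => by simp [norm_grad, k] at n) (e.mono fun q k1 k2 => by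
      rw [k1 ((h₀.mem_iff q).2 (k2.trans ((h₀.mem_iff p).1 hp))), e.self_of_nhds hp, sub_self,
        sub_self])
  have k1 := k v
  rw [d1_comp (innerSL ℝ a).contDiff.contDiffAt c, ← inner_grad w₀, hv, mul_zero,
    ((hasD1 hΨ).fun_sub (hasD1 hX)).fderiv, (innerSL ℝ a).fderiv] at k1
  simpa [inner_sub_right, sub_eq_zero] using k1

theorem nn_eq (h₀ : IsTubeShrinker S w₀ δ C) (hΨ : ContDiffAt ℝ 2 Ψ p) (hp : p ∈ S)
    (hX : ContDiffAt ℝ 2 X p) (e : ∀ᶠ q in 𝓝 p, q ∈ S → Ψ q = X q) :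
    nn (j1 X p e3) (grad w₀ p).ofLp = nn (j1 Ψ p e3) (grad w₀ p).ofLp := by
  have n : ‖grad w₀ p‖ = 1 := h₀.norm_grad p (sh_mem h₀ hp)
  have k : j1 X p e3 = fun b => j1 Ψ p e3 b + grad w₀ p b •
      (fderiv ℝ X p (grad w₀ p) - fderiv ℝ Ψ p (grad w₀ p)).ofLp := funext fun b => by
    have := tan_eq h₀ hΨ hp hX e (v := e3 b - grad w₀ p b • grad w₀ p) (by
      rw [inner_sub_right, real_inner_smul_right, real_inner_self_eq_norm_sq, n, inner_grad,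
        ← grad_e3]
      ring)
    rw [map_sub, map_sub, map_smul, map_smul, eq_sub_iff_add_eq] at this
    rw [j1, j1, ← this]
    simp only [WithLp.ofLp_add, WithLp.ofLp_sub, WithLp.ofLp_smul]
    module
  rw [k]
  refine ext3 ?_ ?_ ?_ <;>
    simp only [nn, cr0, cr1, cr2, Pi.add_apply, Pi.smul_apply, smul_eq_mul] <;> ring

theorem phi_on (h₀ : IsTubeShrinker S w₀ δ C) (h : NearId Ψ M) (hp : p ∈ S)
    (hX : ContDiffAt ℝ 2 X p) (e : ∀ᶠ q in 𝓝 p, q ∈ S → Ψ q = X q) :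
    0 < gX w₀ X p ∧ phiS (pw w₀ Ψ) (X p) = -eqX w₀ X p / (2 * √(gX w₀ X p)) := by
  obtain ⟨k1, k2⟩ := core_sign h₀ h hp
  have n := pw_ne h₀ h hp
  have N := nn_eq h₀ h.cd.contDiffAt hp hX e
  have e0 := e.self_of_nhds hp
  have z : ∀ q ∈ S, pw w₀ Ψ (Ψ q) = 0 := fun q k => (h.desc_apply _ _).trans ((h₀.mem_iff q).1 k)
  rw [P218N.gg, ← N] at k1
  rw [← N, e0] at k2
  rw [e0] at n
  obtain ⟨l1, l2⟩ := phiS_amb (h.contDiff_desc (sh2 h₀)) hX (sh2 h₀).contDiffAt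
    (e.mono fun q k k' => by
      have m := (h₀.mem_iff q).2 (k'.trans ((h₀.mem_iff p).1 hp))
      rw [← k m, ← e0]
      exact (z q m).trans (z p hp).symm) (grad_e3 w₀ p) (fun _ _ => rfl) k1.ne' (norm_pos_iff.1 n)
  have := phi_fin (σ := 1) k1 n (by simp) (by simpa) l1 (par_sq rfl l2)
  rw [one_mul] at this
  exact ⟨k1, this⟩

end

variable {M : Mod}

/-- the surface below the height `z` of the cylindrical ends -/
def lowS (M : Mod) (z : ℝ) : Set E3 := M.S \ ⋃ j, M.En (.inl j) (Ici z)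

/-- the surfaces which are considered -/
structure Dt.Good (d : Dt M) (H η K : ℝ) : Prop extends d.Ok H where
  le' : H + 4 ≤ d.Z
  sm : ∀ ρ, d.Sm H ρ η
  cd : ∀ p ∈ lowS M (d.Z - 2), ContDiffAt ℝ 2 d.X p
  orth : ∀ j v, ‖d.Rt j v‖ = ‖v‖
  bx : ∀ j (y : ℝ × ℝ), d.Z - 2 ≤ y.1 → y.1 ≤ d.Z - 1 →
    |fderiv ℝ (fun q => M.f j q + d.D (.inl j) q) y (1, 0)| ≤ K / d.Z
  eq0 : ∀ p ∈ lowS M (d.Z - 2), H ≤ ‖p‖ → eqX M.w d.X p = 0

theorem cyc_bx (Q : E3 ≃ₗᵢ[ℝ] E3) {A : E3 →L[ℝ] E3} (hA : ∀ v, ‖A v‖ = ‖v‖) {r : ℝ × ℝ → ℝ}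
    {y : ℝ × ℝ} (hr : DifferentiableAt ℝ r y) :
    ‖A (cyc Q (y, r y)) - fderiv ℝ (fun q => A (cyc Q (q, r q))) y (y.1, 0)‖ ≤
      |r y| + |fderiv ℝ r y (y.1, 0)| := by
  have h1 := (((cd_eR Q).differentiable (by simp) y.2).hasFDerivAt.comp y hasFDerivAt_snd)
  have h2 : HasFDerivAt (fun q => A (q.1 • axis Q + r q • eR Q q.2)) _ y := A.hasFDerivAt.comp y
    ((hasFDerivAt_fst.smul_const (axis Q)).add (hr.hasFDerivAt.smul h1))
  have e : (fun q => A (cyc Q (q, r q))) = fun q => A (q.1 • axis Q + r q • eR Q q.2) :=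
    funext fun q => by rw [cyc_eq]
  have e' : fderiv ℝ (fun q => A (q.1 • axis Q + r q • eR Q q.2)) y (y.1, 0) =
      A (y.1 • axis Q + fderiv ℝ r y (y.1, 0) • eR Q y.2) := by
    rw [h2.fderiv]
    simp
  rw [e, e', cyc_eq, ← map_sub, hA, add_sub_add_left_eq_sub, ← sub_smul, norm_smul, norm_eR, mul_one]
  exact abs_sub _ _

theorem Dt.Good.top {d : Dt M} {H η K C : ℝ} (h : d.Good H η K) (η1 : η ≤ 1) (g : M.Geo)
    (H1 : M.R + 1 ≤ H) (C1 : 1 ≤ C) (hC : ∀ z, J2 (clp d.Z) z |clp d.Z z| C C) (j : Fin M.n₁)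
    {y : ℝ × ℝ} (hy : d.Z - 2 ≤ y.1) : DifferentiableAt ℝ (fun q => √2 + M.f j q + d.dc j q) y ∧
      |√2 + M.f j y + d.dc j y| + |fderiv ℝ (fun q => √2 + M.f j q + d.dc j q) y (y.1, 0)| ≤
        4 + C * |K| := by
  have k := clp_mem hy
  have R1 := g.one.1
  have le := h.le
  have j1 := (h.sm d.Z).cyl j (clp d.Z y.1, y.2) (by linarith) (by linarith) k.2
  have j2 := (h.sm d.Z).far (by linarith) j (clp d.Z y.1, y.2) k.1
  have e : (fun q => √2 + M.f j q + d.dc j q) = fun q : ℝ × ℝ =>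
      √2 + (fun q => M.f j q + d.D (.inl j) q) (clp d.Z q.1, q.2) := funext fun q => by
    simp only [Dt.dc]
    ring
  have c := hasD1 (j2_fst (y := y) (hC _)).cd
  have h1 := ((hasD1 (j2.add j1).cd).comp y (c.prodMk hasFDerivAt_snd)).const_add √2
  refine ⟨e ▸ h1.differentiableAt, ?_⟩
  have e1 : |√2 + M.f j y + d.dc j y| ≤ 4 := by
    have := congrFun e y
    have := abs_le.1 (j2.add j1).h0
    rw [abs_le]
    constructor <;> linarith [sqrt2_le, Real.sqrt_nonneg 2]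
  have e2 : fderiv ℝ (fun q => √2 + M.f j q + d.dc j q) y (y.1, 0) =
      fderiv ℝ (fun q : ℝ × ℝ => clp d.Z q.1) y (y.1, 0) *
        fderiv ℝ (fun q => M.f j q + d.D (.inl j) q) (clp d.Z y.1, y.2) (1, 0) := by
    rw [e, ← smul_eq_mul, ← map_smul]
    simpa using congrArg (· (y.1, 0)) h1.fderiv
  rw [e2, abs_mul]
  refine add_le_add e1 ?_
  rcases le_or_gt y.1 (d.Z - 1) with k' | k'
  · have a := (j2_fst (y := y) (hC _)).d1 (y.1, 0)
    rw [Prod.norm_mk, norm_zero, max_eq_left (norm_nonneg _),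
      Real.norm_of_nonneg (show 0 ≤ y.1 by linarith)] at a
    refine (mul_le_mul a ((h.bx j (_, y.2) k.1 k.2).trans (div_le_div_of_nonneg_right
      (le_abs_self K) (by linarith))) (abs_nonneg _) (by nlinarith)).trans ?_
    rw [mul_assoc, mul_div_assoc']
    gcongr
    rw [div_le_iff₀ (by linarith), mul_comm]
    gcongr
    linarith
  · rw [(d12_of_const (f := fun q : ℝ × ℝ => clp d.Z q.1) ((continuousAt_fst.eventually
      (eventually_gt_nhds k')).mono fun q k => clp_hi k.le)).1]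
    simp only [zero_apply, abs_zero, zero_mul]
    positivity

theorem gl (g : M.Geo) : ∃ a, ∀ H, a ≤ H → M.R + 1 ≤ H ∧ ∃ η₀ > 0, ∃ w : Dt M → E3 → ℝ,
    (∀ K, ∃ K', 0 ≤ K' ∧ Dfn M.w M.δ (2 / 3) K' ∧ ∀ d : Dt M, d.Good H η₀ K →
      Dfn (w d) M.δ (2 / 3) K' ∧ ∫⁻ p, ENNReal.ofReal (rho p) ∂hm 2 (w d) ≤
        ∫⁻ p in lowS M (d.Z - 2), ENNReal.ofReal (rho (d.X p) * √(gX M.w d.X p)) ∂hm 2 M.w
          + ENNReal.ofReal (K' * Real.exp (-d.Z ^ 2 / 8))) ∧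
    (∀ ω > 0, ∃ η > 0, ∀ (d : Dt M) K, d.Good H η₀ K → d.Sm H η⁻¹ η → Cl2 ω (w d) M.w) ∧
    (∀ (d : Dt M) K, d.Good H η₀ K → ∀ y, w d y = 0 → ‖y‖ ≤ d.Z - 3 → ∃ p ∈ lowS M (d.Z - 2),
      d.X p = y ∧ 0 < gX M.w d.X p ∧ phiS (w d) y = -eqX M.w d.X p / (2 * √(gX M.w d.X p))) ∧
    (∃ B, 0 ≤ B ∧ ∀ (d : Dt M) K ω, d.Good H η₀ K → 0 ≤ ω → ω ≤ η₀ → d.Sm H H ω → ∀ p ∈ M.S,
      ‖p‖ ≤ H - 1 → |w d p + ⟪d.X p - p, grad M.w p⟫| ≤ B * ω ^ 2) ∧
    ∀ ρ, ρ + 2 ≤ H → ∃ B, 0 ≤ B ∧ ∀ (d d' : Dt M) K K' ε, d.Good H η₀ K → d'.Good H η₀ K' →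
      0 ≤ ε → (∀ p ∈ M.S, ‖p‖ ≤ ρ + 3 / 2 → ‖d.X p - d'.X p‖ ≤ ε) → ∀ x, ‖x‖ ≤ ρ →
        |w d x - w d' x| ≤ B * ε := by
  obtain ⟨a, ha⟩ := psi g
  refine ⟨a, fun H hH => ?_⟩
  obtain ⟨H1, C, C0, Ψ, p1, p2⟩ := ha H hH
  have R1 := g.one.1
  have h₀ := g.shr
  have H0 : 0 < H := by linarith
  obtain ⟨η₀, η0, η1, η2⟩ : ∃ η > 0, η ≤ 1 ∧ C * η * (1 + H) ≤ 1 / 2 := by
    refine ⟨1 / (2 * (C + 1) * (1 + H)), by positivity, ?_, ?_⟩
    · rw [div_le_one (by positivity)]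
      nlinarith
    · field_simp
      linarith
  have η3 : C * η₀ ≤ 1 / 2 := by nlinarith [mul_nonneg C0 η0.le]
  have bd : ∀ {d : Dt M} {K}, d.Good H η₀ K → ∀ x, J2 (fun y => Ψ d y - y) x
      (C * η₀ * (1 + ‖x‖)) (1 / 2) (1 / 2) := fun h x =>
    ((p2 _ h.toOk).2.2 _ _ η0.le η1 (h.sm ‖x‖) x le_rfl).mono le_rfl η3 η3
  have ni : ∀ {d : Dt M} {K}, d.Good H η₀ K → NearId (Ψ d) (1 / 2) := fun h => nearId_of (bd h)
  have cid : ∀ {d : Dt M} {ρ ω ω'}, d.Ok H → 0 ≤ ω → ω ≤ 1 → d.Sm H ρ ω → 0 ≤ ρ →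
      C * ω * (1 + ρ) ≤ ω' → Cid (Ψ d) ρ ω' := fun {d ρ ω ω'} h ω0 ω1 s ρ0 k x hx => by
    have := mul_nonneg C0 ω0
    exact ((p2 _ h).2.2 _ _ ω0 ω1 s x hx).mono (by nlinarith) (by nlinarith) (by nlinarith)
  have sub : ∀ {d : Dt M}, d.Ok H → Ici (d.Z - 2) ⊆ Ioi M.R := fun h z hz =>
    show M.R < z by linarith [mem_Ici.1 hz, h.le]
  have cl : ∀ {d : Dt M}, d.Ok H → IsClosed (⋃ j, M.En (.inl j) (Ici (d.Z - 2))) := fun h =>
    isClosed_iUnion_of_finite fun j => g.isClosed_En isClosed_Ici (sub h)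
  have on : ∀ {d : Dt M}, d.Ok H → ∀ p ∈ lowS M (d.Z - 2), ∀ᶠ q in 𝓝 p, q ∈ M.S → Ψ d q = d.X q :=
    fun h p hp => ((cl h).isOpen_compl.eventually_mem hp.2).mono fun q k k' =>
      (p2 _ h).1 q k' fun j m => k (mem_iUnion.2 ⟨j, Mod.En_mono Ioi_subset_Ici_self m⟩)
  have lw : ∀ {d : Dt M} {K}, d.Good H η₀ K → ∀ p ∈ M.S, ‖Ψ d p‖ < d.Z - 2 →
      p ∈ lowS M (d.Z - 2) := fun {d K} h p hp k => ⟨hp, fun m => by
    obtain ⟨j, y, hy, rfl⟩ := mem_iUnion.1 m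
    have hy' : d.Z - 2 ≤ y.1 := hy.1
    rw [(p2 _ h.toOk).2.1 j y (by linarith [h.le]), h.orth] at k
    have := real_inner_le_norm (axis (M.Q j)) (cyc (M.Q j) (y, √2 + M.f j y + d.dc j y))
    rw [axis_cyc, Sep.norm_axis] at this
    linarith⟩
  refine ⟨H1, η₀, η0, fun d => pw M.w (Ψ d), fun K => ?_, fun ω ω0 => ?_, fun d K h y hy k => ?_,
    ?_, fun ρ ρ2 => ?_⟩
  · obtain ⟨C₄, c4, k4⟩ := j2_clp
    set K₁ := 2 * (4 + C₄ * |K|) + 2 * (H + 1) with hK₁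
    have K0 : 0 ≤ K₁ := by positivity
    set K₂ := 2 + 8 * (4 * |M.C| + 4) + 4 * K₁ with hK₂
    obtain ⟨B, B0, hB⟩ := dfn_tail (E := E3) (m := 2) (tail _ _) (by simp) K₂ h₀.pos
      (show (0 : ℝ) < 2 / 3 by norm_num) (show (0 : ℝ) < 1 / 4 by norm_num)
    have a0 := abs_nonneg M.C
    have a1 := le_abs_self M.C
    have b0 : 0 ≤ B * Real.exp 4 := by positivity
    have mo : ∀ {w : E3 → ℝ}, Dfn w M.δ (2 / 3) K₂ → Dfn w M.δ (2 / 3) (K₂ + B * Real.exp 4) :=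
      fun h => ⟨h.1, h.2, h.3, h.4, fun x k => by linarith [h.5 x k], fun x k => by
        linarith [h.6 x k], fun x k => by linarith [h.7 x k]⟩
    refine ⟨K₂ + B * Real.exp 4, by positivity, mo (dfn_self h₀ (by linarith) (by linarith)
      (by simp; linarith)), fun d h => ?_⟩
    have le := h.le
    have df : Dfn (pw M.w (Ψ d)) M.δ (2 / 3) K₂ := by
      refine dfn_pw (K := K₁) h₀ (ni h) (fun p hp => ?_) (by linarith) (by linarith) (by linarith)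
        (by simp; linarith)
      by_cases m : p ∈ lowS M (d.Z - 2)
      · rcases le_total H ‖p‖ with k | k
        · refine .inr ?_
          rw [(on h.toOk p m).self_of_nhds hp, (phi_on h₀ (ni h) hp (h.cd p m) (on h.toOk p m)).2,
            h.eq0 p m k]
          simpa using K0
        · refine .inl ((abs_real_inner_le_norm _ _).trans ?_)
          have := (bd h p).h0
          have := norm_le_norm_add_norm_sub' (Ψ d p) p
          have := mul_le_mul_of_nonneg_left (add_le_add_right k 1) (mul_nonneg C0 η0.le)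
          refine (mul_le_mul (show _ ≤ H + 1 by linarith) (pw_bd h₀ (ni h) (sh_mem h₀ hp)).2.1
            (norm_nonneg _) (by linarith)).trans ?_
          have : 0 ≤ C₄ * |K| := by positivity
          linarith
      · obtain ⟨j, y, hy, rfl⟩ := mem_iUnion.1 (not_not.1 fun k => m ⟨hp, k⟩)
        have hy' : d.Z - 2 ≤ y.1 := hy.1
        obtain ⟨t0, t⟩ := h.top η1 g H1 c4 (k4 _) j hy'
        have r : M.R < y.1 := by linarith
        refine .inl ((bx_chart h₀ (ni h) ((g.cdP _ r).of_le Xco.two) ((ev_ht r).mono (g.mem _))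
          ((ev_ht (show H + 1 < y.1 by linarith [h.le'])).mono fun q k =>
            (p2 _ h.toOk).2.1 j q k.le) (y.1, 0)).trans ?_)
        linarith [cyc_bx (M.Q j) (h.orth j) t0]
    refine ⟨mo df, ?_⟩
    rw [← lintegral_add_compl _ (measurableSet_ball (x := 0) (ε := d.Z - 3))]
    refine add_le_add ?_ ?_
    · rw [lint_pw (by simp) h₀ (ni h) measurableSet_ball continuous_rho.measurable.ennreal_ofReal]
      have ms : MeasurableSet (lowS M (d.Z - 2)) := (sh_meas h₀).diff (cl h.toOk).measurableSet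
      refine (lintegral_mono_set' ((ae_sh h₀).mono fun p hp k =>
        lw h p hp (by linarith [mem_ball_zero_iff.1 k]))).trans_eq
        (setLIntegral_congr_fun ms fun p hp => ?_)
      rw [jc_eq h₀ (ni h) hp.1 (h.cd p hp) (on h.toOk p hp), (on h.toOk p hp).self_of_nhds hp.1,
        ENNReal.ofReal_mul (rho_pos _).le, gX]
    · refine ((lintegral_mono_set fun x hx => by simpa using hx).trans
        ((hB _ df).2 (d.Z - 3) (by linarith))).trans (ENNReal.ofReal_le_ofReal ?_)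
      rw [add_mul, mul_assoc, ← Real.exp_add]
      refine le_add_of_nonneg_of_le (by positivity) ?_
      gcongr
      nlinarith [sq_nonneg (d.Z - 9)]
  · obtain ⟨η, η4, hη⟩ := cl2_pw (sh2 h₀) (1 / 2) ω0
    obtain ⟨σ, σ0, σ1, σ2, σ3⟩ : ∃ σ > 0, σ ≤ 1 ∧ σ ≤ η ∧ C * σ * (1 + η⁻¹) ≤ η := by
      refine ⟨min (min 1 η) (η / ((C + 1) * (1 + η⁻¹))), by positivity,
        (min_le_left _ _).trans (min_le_left _ _), (min_le_left _ _).trans (min_le_right _ _), ?_⟩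
      have := (le_div_iff₀ (by positivity)).1 (min_le_right (min 1 η) (η / ((C + 1) * (1 + η⁻¹))))
      nlinarith [show 0 < min (min 1 η) (η / ((C + 1) * (1 + η⁻¹))) * (1 + η⁻¹) by positivity]
    refine ⟨σ, σ0, fun d K h s => hη _ (ni h) fun x hx => ?_⟩
    have := mul_nonneg C0 σ0.le
    have i := inv_pos.2 η4
    exact ((p2 _ h.toOk).2.2 _ _ σ0.le σ1 s x (hx.trans (inv_anti₀ σ0 σ2))).mono (by nlinarith)
      (by nlinarith) (by nlinarith)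
  · obtain ⟨p, hp, rfl⟩ : y ∈ Ψ d '' M.S := pw_zero h₀ (ni h) ▸ hy
    have m := lw h p hp (by linarith)
    have e := (on h.toOk p m).self_of_nhds hp
    exact ⟨p, m, e.symm, e ▸ phi_on h₀ (ni h) hp (h.cd p m) (on h.toOk p m)⟩
  · obtain ⟨B, b1, k1⟩ := pw_quad (sh2 h₀) (H - 1)
    refine ⟨B * (C * (1 + H)) ^ 2, by positivity, fun d K ω h ω0 ω1 s p hp k => ?_⟩
    have := k1 (Ψ d) _ (C * ω * (1 + H)) (le_trans (by gcongr) η2) (ni h)
      (by simpa using cid h.toOk ω0 (ω1.trans η1) s (by linarith) le_rfl) p k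
      (h₀.norm_grad p (sh_mem h₀ hp)).le
    rw [g.w_zero hp, sub_zero, (p2 _ h.toOk).1 p hp fun j m => by
      obtain ⟨z, hz, k', -⟩ := g.norm_En (Ioi_subset_Ici_self.trans (sub h.toOk)) m
      linarith [mem_Ioi.1 hz, h.le]] at this
    linarith
  · obtain ⟨B, b2, k2⟩ := pw_lip (sh2 h₀) ρ
    have n : ∀ {d : Dt M} {K}, d.Good H η₀ K → ∀ x, ‖x‖ ≤ ρ → ‖Ψ d x - x‖ ≤ 1 / 2 :=
      fun h x hx => (bd h x).h0.trans (le_trans (by gcongr; linarith) η2)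
    exact ⟨B, b2, fun d d' K K' ε h h' ε0 k x hx => k2 _ _ _ _ (ni h) (ni h') (fun z hz =>
      p1 d d' z ε h.toOk h'.toOk ε0 (by linarith) fun p hp k' => k p hp (by
        linarith [norm_le_norm_add_norm_sub' p z])) x hx (n h x hx) (n h' x hx)⟩

end Vale.Agent.P218B
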