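import Vale.Agent.P218B.Area
import Vale.Agent.P214.AREA.Jac

/-!
# P218B: the area formula for level sets and for parametrised surfaces
-/

noncomputable section

open MeasureTheory Set Filter Topology Module
open scoped ENNReal NNReal RealInnerProductSpace

set_option linter.unusedSectionVars false

namespace Vale.Agent.P218B

variable {D E : Type*} [NormedAddCommGroup D] [InnerProductSpace ℝ D] [FiniteDimensional ℝ D]
  [NormedAddCommGroup E] [InnerProductSpace ℝ E] [FiniteDimensional ℝ E]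

/-- the Gram operator of `A` on the range of `P`, extended by the identity -/
def grm (A : D →L[ℝ] E) (P : D →L[ℝ] D) : D →L[ℝ] D :=
  haveI := FiniteDimensional.complete ℝ D
  haveI := FiniteDimensional.complete ℝ E
  1 - P + P ∘L (ContinuousLinearMap.adjoint A ∘L A) ∘L P

theorem jacT_sq (A : D →L[ℝ] E) (T : Submodule ℝ D) :
    jacT A T ^ 2 = (grm A T.starProjection).det := by
  have := FiniteDimensional.complete ℝ D
  have := FiniteDimensional.complete ℝ E
  have := FiniteDimensional.complete ℝ T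
  have h1 : jacT A T ^ 2 = _ := (A ∘L T.subtypeL).normDet_sq
  rw [ContinuousLinearMap.adjoint_comp, Submodule.adjoint_subtypeL] at h1
  set B := (T.orthogonalProjectionOnto ∘L ContinuousLinearMap.adjoint A) ∘L A ∘L T.subtypeL
  have h2 := P214.AREA.det_one_add_comp T.subtype
    ((B.toLinearMap - 1) ∘ₗ T.orthogonalProjectionOnto.toLinearMap)
  have h3 : 1 + ((B.toLinearMap - 1) ∘ₗ T.orthogonalProjectionOnto.toLinearMap) ∘ₗ T.subtype =
      B.toLinearMap := by
    ext v
    simp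
  rw [h3] at h2
  refine h1.trans (h2.symm.trans (congrArg LinearMap.det (LinearMap.ext fun v => ?_)))
  simp [grm, B]
  abel

theorem jacT_eq (A : D →L[ℝ] E) (T : Submodule ℝ D) :
    jacT A T = √(grm A T.starProjection).det := by
  rw [← jacT_sq, Real.sqrt_sq (jacT_nonneg A T)]

theorem continuous_grm : Continuous fun z : (D →L[ℝ] E) × (D →L[ℝ] D) => grm z.1 z.2 := by
  have := FiniteDimensional.complete ℝ D
  have := FiniteDimensional.complete ℝ E
  have h : Continuous fun z : (D →L[ℝ] E) × (D →L[ℝ] D) => ContinuousLinearMap.adjoint z.1 :=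
    ContinuousLinearMap.adjoint.continuous.comp continuous_fst
  exact (continuous_const.sub continuous_snd).add
    (continuous_snd.clm_comp ((h.clm_comp continuous_fst).clm_comp continuous_snd))

theorem continuousOn_jacT {X : Type*} [TopologicalSpace X] {S : Set X} {A : X → D →L[ℝ] E}
    {T : X → Submodule ℝ D} (hA : ContinuousOn A S)
    (hT : ContinuousOn (fun p => (T p).starProjection) S) :
    ContinuousOn (fun p => jacT (A p) (T p)) S := by
  simp only [jacT_eq]
  exact (ContinuousLinearMap.continuous_det.comp_continuousOn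
    (continuous_grm.comp_continuousOn (hA.prodMk hT))).sqrt

/-- the projection along the unit vector `n` -/
def nP (n : D) : D →L[ℝ] D := 1 - (innerSL ℝ n).smulRight n

omit [FiniteDimensional ℝ D] in
theorem nP_apply (n v : D) : nP n v = v - ⟪n, v⟫ • n := rfl

omit [FiniteDimensional ℝ D] in
theorem continuous_nP : Continuous (nP : D → D →L[ℝ] D) :=
  continuous_const.sub (((ContinuousLinearMap.smulRightL ℝ D D).continuous.comp
    (innerSL ℝ).continuous).clm_apply continuous_id)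

theorem proj_perp {n : D} (h : ‖n‖ = 1) : (ℝ ∙ n)ᗮ.starProjection = nP n := by
  ext v
  rw [Submodule.starProjection_orthogonal_val, Submodule.starProjection_unit_singleton ℝ h,
    nP_apply]

theorem finrank_perp {m : ℕ} (hD : finrank ℝ D = m + 1) {n : D} (h : ‖n‖ = 1) :
    finrank ℝ (ℝ ∙ n)ᗮ = m := by
  have : Fact (finrank ℝ D = m + 1) := ⟨hD⟩
  exact Submodule.finrank_orthogonal_span_singleton (by rintro rfl; simp at h)

theorem STan.level {w : D → ℝ} {p n : D} {c : ℝ} (hn : ‖n‖ = 1) (hc : c ≠ 0)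
    (h : HasStrictFDerivAt w (c • innerSL ℝ n) p) : STan {x | w x = 0} p (ℝ ∙ n)ᗮ := fun ε hε => by
  have c0 := abs_pos.2 hc
  obtain ⟨N, k1, k2⟩ := h.approximates_deriv_on_nhds (c := ⟨|c| * ε, by positivity⟩)
    (.inr (show 0 < |c| * ε by positivity))
  refine ⟨N, k1, fun x hx y hy => ?_⟩
  have e : ‖w x - w y - c * ⟪n, x - y⟫‖ ≤ |c| * ε * ‖x - y‖ := k2 x hx.2 y hy.2
  rw [show w x = 0 from hx.1, show w y = 0 from hy.1, sub_self, zero_sub, norm_neg, norm_mul,
    Real.norm_eq_abs, mul_assoc] at e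
  rw [proj_perp hn, nP_apply, sub_sub_cancel, norm_smul, hn, mul_one]
  exact le_of_mul_le_mul_left e c0

/-- the area formula applies to maps of regular level sets -/
theorem imm_level {m : ℕ} (hD : finrank ℝ D = m + 1) {S : Set D} {w : D → ℝ} {n : D → D}
    {Ψ : D → E} {A : D → D →L[ℝ] E} (hS : ∀ p ∈ S, w p = 0) (hn : ∀ p ∈ S, ‖n p‖ = 1)
    (hw : ∀ p ∈ S, ∃ c ≠ (0 : ℝ), HasStrictFDerivAt w (c • innerSL ℝ (n p)) p)
    (hΨ : ∀ p ∈ S, HasStrictFDerivAt Ψ (A p) p)
    (hi : ∀ p ∈ S, ∀ v, ⟪n p, v⟫ = 0 → A p v = 0 → v = 0) (cn : ContinuousOn n S)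
    (cA : ContinuousOn A S) : Imm m S (fun p => (ℝ ∙ n p)ᗮ) Ψ A where
  dim p hp := finrank_perp hD (hn p hp)
  tan p hp := by
    obtain ⟨c, k1, k2⟩ := hw p hp
    exact (STan.level (hn p hp) k1 k2).mono hS
  der := hΨ
  inj p hp v hv := hi p hp v (Submodule.mem_orthogonal_singleton_iff_inner_right.1 hv)
  cont := continuousOn_jacT cA ((continuous_nP.comp_continuousOn cn).congr fun p hp =>
    proj_perp (hn p hp))

/-- the area formula applies to immersions of subsets of a Euclidean space -/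
theorem imm_top {S : Set D} {Ψ : D → E} {A : D → D →L[ℝ] E}
    (hΨ : ∀ p ∈ S, HasStrictFDerivAt Ψ (A p) p) (hi : ∀ p ∈ S, ∀ v, A p v = 0 → v = 0)
    (cA : ContinuousOn A S) : Imm (finrank ℝ D) S (fun _ => ⊤) Ψ A where
  dim _ _ := finrank_top ℝ D
  tan p _ := STan.top S p
  der := hΨ
  inj p hp v _ := hi p hp v
  cont := continuousOn_jacT cA continuousOn_const

/-! ### surfaces -/

/-- the Gram determinant of two vectors -/
def gr2 (a b : E) : ℝ := ‖a‖ ^ 2 * ‖b‖ ^ 2 - ⟪a, b⟫ ^ 2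

/-- the ratio of the Hausdorff measure and the Lebesgue measure -/
def cH (m : ℕ) : ℝ≥0 :=
  (Measure.addHaarScalarFactor (volume : Measure (EuclideanSpace ℝ (Fin m))) μH[m])⁻¹

theorem cH_pos (m : ℕ) : 0 < cH m :=
  inv_pos.2 (pos_iff_ne_zero.2 (Measure.addHaarScalarFactor_volume_hausdorffMeasure_ne_zero m))

theorem hausdorff_eq (m : ℕ) : (μH[m] : Measure (EuclideanSpace ℝ (Fin m))) = cH m • volume := by
  rw [← EuclideanSpace.euclideanHausdorffMeasure_eq_volume, Measure.euclideanHausdorffMeasure_def,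
    smul_smul, cH, inv_mul_cancel₀ (Measure.addHaarScalarFactor_volume_hausdorffMeasure_ne_zero m),
    one_smul]

/-- the plane -/
def pl : EuclideanSpace ℝ (Fin 2) ≃L[ℝ] ℝ × ℝ :=
  (EuclideanSpace.equiv (Fin 2) ℝ).trans (ContinuousLinearEquiv.finTwoArrow ℝ ℝ)

theorem pl_mp : MeasurePreserving pl volume volume :=
  (volume_preserving_finTwoArrow ℝ).comp (PiLp.volume_preserving_ofLp (Fin 2))

omit [FiniteDimensional ℝ E] in
theorem jacT_pl (A : ℝ × ℝ →L[ℝ] E) :
    jacT (A ∘L (pl : EuclideanSpace ℝ (Fin 2) →L[ℝ] ℝ × ℝ)) ⊤ = √(gr2 (A (1, 0)) (A (0, 1))) := by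
  set B := A ∘L (pl : EuclideanSpace ℝ (Fin 2) →L[ℝ] ℝ × ℝ)
  have h1 : jacT B ⊤ = B.toLinearMap.normDet := by
    rw [jacT, LinearMap.normDet_comp_of_finrank_eq _ _ (finrank_top ℝ _), LinearMap.normDet_subtype,
      mul_one]
  have h2 : B.toLinearMap.normDet ^ 2 = _ :=
    B.toLinearMap.normDet_sq_eq_det_gram (EuclideanSpace.basisFun (Fin 2) ℝ)
  have e0 : B.toLinearMap (EuclideanSpace.basisFun (Fin 2) ℝ 0) = A (1, 0) := by simp [B, pl]
  have e1 : B.toLinearMap (EuclideanSpace.basisFun (Fin 2) ℝ 1) = A (0, 1) := by simp [B, pl]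
  rw [Matrix.det_fin_two] at h2
  simp only [Matrix.gram_apply, e0, e1, real_inner_self_eq_norm_sq] at h2
  rw [h1, gr2, sq ⟪_, _⟫, ← Real.sqrt_sq B.toLinearMap.normDet_nonneg, h2,
    real_inner_comm (A (1, 0)) (A (0, 1))]

omit [FiniteDimensional ℝ E] in
theorem inj_of_gr2 {A : ℝ × ℝ →L[ℝ] E} (h : gr2 (A (1, 0)) (A (0, 1)) ≠ 0) {v : ℝ × ℝ}
    (hv : A v = 0) : v = 0 := by
  have e : v.1 • A (1, 0) + v.2 • A (0, 1) = 0 := by
    rw [← map_smul, ← map_smul, ← map_add, ← hv]
    simp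
  have h1 := congrArg (fun z => ⟪A (1, 0), z⟫) e
  have h2 := congrArg (fun z => ⟪z, A (0, 1)⟫) e
  simp only [inner_add_right, inner_add_left, real_inner_smul_right, real_inner_smul_left,
    real_inner_self_eq_norm_sq, inner_zero_right, inner_zero_left] at h1 h2
  refine Prod.ext (mul_right_cancel₀ h ?_) (mul_right_cancel₀ h ?_)
  · simp only [gr2, Prod.fst_zero]
    linear_combination ‖A (0, 1)‖ ^ 2 * h1 - ⟪A (1, 0), A (0, 1)⟫ * h2
  · simp only [gr2, Prod.snd_zero]
    linear_combination ‖A (1, 0)‖ ^ 2 * h2 - ⟪A (1, 0), A (0, 1)⟫ * h1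

/-- parametrised surfaces -/
structure Par (S : Set (ℝ × ℝ)) (X : ℝ × ℝ → E) (A : ℝ × ℝ → ℝ × ℝ →L[ℝ] E) : Prop where
  der : ∀ q ∈ S, HasStrictFDerivAt X (A q) q
  ne : ∀ q ∈ S, gr2 (A q (1, 0)) (A q (0, 1)) ≠ 0
  cont : ContinuousOn A S

variable {S t : Set (ℝ × ℝ)} {X : ℝ × ℝ → E} {A : ℝ × ℝ → ℝ × ℝ →L[ℝ] E}

theorem Par.imm (h : Par S X A) : Imm 2 (pl ⁻¹' S) (fun _ => ⊤) (X ∘ pl)
    fun y => A (pl y) ∘L (pl : EuclideanSpace ℝ (Fin 2) →L[ℝ] ℝ × ℝ) := by
  have := imm_top (S := pl ⁻¹' S) (Ψ := X ∘ pl)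
    (A := fun y => A (pl y) ∘L (pl : EuclideanSpace ℝ (Fin 2) →L[ℝ] ℝ × ℝ))
    (fun y hy => (h.der _ hy).comp y pl.hasStrictFDerivAt)
    (fun y hy v hv => pl.injective ((inj_of_gr2 (h.ne _ hy) hv).trans (map_zero _).symm))
    ((h.cont.comp pl.continuous.continuousOn fun _ k => k).clm_comp continuousOn_const)
  rwa [finrank_euclideanSpace_fin] at this

variable [MeasurableSpace E] [BorelSpace E]

omit [FiniteDimensional ℝ E] [MeasurableSpace E] [BorelSpace E] in
theorem lint_pl (g : ℝ × ℝ → ℝ≥0∞) : ∫⁻ y in pl ⁻¹' t, g (pl y) ∂μH[(2 : ℕ)] =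
    cH 2 * ∫⁻ q in t, g q := by
  rw [hausdorff_eq, Measure.restrict_smul, lintegral_smul_measure,
    (pl_mp.restrict_preimage_emb pl.toHomeomorph.measurableEmbedding t).lintegral_comp_emb
      pl.toHomeomorph.measurableEmbedding]
  rfl

theorem Par.lintegral_le (h : Par S X A) (ht : MeasurableSet t) (hS : t ⊆ S) {f : E → ℝ≥0∞}
    (hf : Measurable f) : ∫⁻ y in X '' t, f y ∂μH[(2 : ℕ)] ≤
      cH 2 * ∫⁻ q in t, f (X q) * ENNReal.ofReal √(gr2 (A q (1, 0)) (A q (0, 1))) := by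
  have := h.imm.lintegral_le (pl.continuous.measurable ht) (preimage_mono hS) hf
  rw [image_comp, image_preimage_eq _ pl.surjective] at this
  simp only [jacT_pl] at this
  exact this.trans_eq (lint_pl fun q => f (X q) * ENNReal.ofReal √(gr2 (A q (1, 0)) (A q (0, 1))))

theorem Par.lintegral_eq (h : Par S X A) (ht : MeasurableSet t) (hS : t ⊆ S) (hi : InjOn X t)
    {f : E → ℝ≥0∞} (hf : Measurable f) : ∫⁻ y in X '' t, f y ∂μH[(2 : ℕ)] =
      cH 2 * ∫⁻ q in t, f (X q) * ENNReal.ofReal √(gr2 (A q (1, 0)) (A q (0, 1))) := by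
  have := h.imm.lintegral_eq (pl.continuous.measurable ht) (preimage_mono hS)
    (hi.comp pl.injective.injOn fun _ k => k) hf
  rw [image_comp, image_preimage_eq _ pl.surjective] at this
  simp only [jacT_pl] at this
  exact this.trans (lint_pl fun q => f (X q) * ENNReal.ofReal √(gr2 (A q (1, 0)) (A q (0, 1))))

theorem Par.integral_eq (h : Par S X A) (ht : MeasurableSet t) (hS : t ⊆ S) (hi : InjOn X t)
    {F : Type*} [NormedAddCommGroup F] [NormedSpace ℝ F] {f : E → F}
    (hf : AEStronglyMeasurable f (μH[(2 : ℕ)].restrict (X '' t))) :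
    ∫ y in X '' t, f y ∂μH[(2 : ℕ)] =
      (cH 2 : ℝ) • ∫ q in t, √(gr2 (A q (1, 0)) (A q (0, 1))) • f (X q) := by
  have := h.imm.integral_eq (pl.continuous.measurable ht) (preimage_mono hS)
    (hi.comp pl.injective.injOn fun _ k => k) (f := f)
    (by rwa [image_comp, image_preimage_eq _ pl.surjective])
  rw [image_comp, image_preimage_eq _ pl.surjective] at this
  simp only [jacT_pl] at this
  rw [this, hausdorff_eq, Measure.restrict_smul, integral_smul_nnreal_measure,
    ← (pl_mp.restrict_preimage_emb pl.toHomeomorph.measurableEmbedding t).integral_comp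
      pl.toHomeomorph.measurableEmbedding]
  rfl

end Vale.Agent.P218B
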