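import Vale.Agent.P218B.Lsp

/-!
# P218B: the interface `LFD` from a family of surfaces
-/

noncomputable section

open MeasureTheory Set Filter Topology
open scoped ENNReal RealInnerProductSpace Real

namespace Vale.Agent.P218B

open Vale.Agent.P218.H313 Vale.Agent.P218D
open Vale.Agent.P218T hiding E3 Per
open Vale.Agent.P218N (sig)

variable {M : Mod}

/-- far points stay far -/
theorem Dt.Good.norm_ge {d : Dt M} {H η K : ℝ} (h : d.Good H η K) (g : M.Geo) (H1 : M.R + 1 ≤ H)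
    {p : E3} (hp : p ∈ lowS M (d.Z - 2)) (k : H + 2 < ‖p‖) : H ≤ ‖d.X p‖ := by
  obtain ⟨e, y, h1, -, rfl⟩ := g.far (c := H) (by linarith) hp.1 (by linarith)
  cases e with
  | inl j =>
    have k' : y.1 ≤ d.Z - 2 := not_lt.1 fun m => hp.2 (mem_iUnion.2 ⟨j, Mod.P_mem_En m.le⟩)
    have := real_inner_le_norm (axis (M.Q j))
      (cyc (M.Q j) (y, √2 + M.f j y + d.D (.inl j) y))
    rw [axis_cyc, Sep.norm_axis, cyc_eq, add_smul, ← add_assoc, ← cyc_eq, ← P_cyl] at this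
    rw [h.cyl j y h1.le k', h.orth]
    linarith
  | inr l =>
    have y0 : 0 < y.1 := by linarith [g.one.1]
    have L := g.ended.link l
    have := real_inner_le_norm (M.γ l y.2) (M.P (.inr l) y + d.D (.inr l) y • M.n l y.2)
    have e : ⟪M.γ l y.2, M.n l y.2⟫ = 0 := by rw [real_inner_comm, L.perp]
    rw [h.con l y h1.le]
    rw [L.unit] at this
    refine le_trans ?_ (this.trans_eq (one_mul _))
    simp only [Mod.P, conP, conePt, Real.exp_log y0, inner_add_right, real_inner_smul_right, e,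
      real_inner_self_eq_norm_sq, L.unit]
    linarith

theorem Dt.Sm.mono {d : Dt M} {H ρ ω ρ' ω' : ℝ} (h : d.Sm H ρ ω) (h1 : ρ' ≤ ρ) (h2 : ω ≤ ω') :
    d.Sm H ρ' ω' :=
  ⟨fun p a b => (h.core p a b).mono' h2, fun j => (h.rot j).trans h2,
    fun j y a b c => (h.cyl j y a (b.trans h1) c).mono' h2,
    fun a j y b => (h.far (a.trans h1) j y b).mono' h2,
    fun l z θ a b => (h.con l z θ a (b.trans h1)).mono' h2⟩

section

variable {α ι : Type} [Fintype α] [Fintype ι]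
  {X Y : (ι → ℝ) → Type} {C : Type} [∀ W, NormedAddCommGroup (X W)]
  [∀ W, NormedSpace ℂ (X W)] [∀ W, NormedAddCommGroup (Y W)] [∀ W, NormedSpace ℂ (Y W)]
  [NormedAddCommGroup C] [NormedSpace ℂ C]

/-- the surfaces `d` and the normal heights `u` of the real solutions -/
structure Lnk (o : Obj α ι X Y C) (ψ : α ⊕ ι → E3 → ℝ)
    (d : ∀ Z : ℝ, (X fun _ => Z) → (ι → ℂ) → Dt M) (u : ∀ Z : ℝ, (X fun _ => Z) → E3 → ℝ)
    (H η₀ K h₀ e₀ : ℝ) : Prop where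
  cut : ∀ Z U c, (d Z U c).Z = Z
  psi : ∀ i, ContDiff ℝ 1 (ψ i) ∧ HasCompactSupport (ψ i) ∧ ∀ x, ψ i x ≠ 0 → ‖x‖ ≤ H - 3
  nd : ND 2 M.w ψ
  pos : 0 < h₀ ∧ 0 ≤ K ∧ 0 < e₀ ∧ e₀ ≤ 1 ∧ K * h₀ ≤ η₀
  fs : o.FS = ∫ x, rho x ∂sig M.w
  good : ∀ Z c a U, o.RS e₀ Z c a U → (d Z U c).Good H η₀ K
  area : ∀ Z c a U, o.RS e₀ Z c a U → ∃ A, 0 ≤ A ∧ ∫⁻ p in lowS M (Z - 2),
    ENNReal.ofReal (rho ((d Z U c).X p) * √(gX M.w (d Z U c).X p)) ∂hm 2 M.w ≤ ENNReal.ofReal A ∧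
    A ≤ cH 2 * (o.f o.J₀ 0 _ (U, bs c 1)).re + K * Real.exp (-Z ^ 2 / 8)
  far : ∀ Z c a U, o.RS e₀ Z c a U → ∀ p ∈ lowS M (Z - 2), H - 2 ≤ ‖p‖ → eqX M.w (d Z U c).X p = 0
  small : ∀ η > 0, ∃ η' > 0, ∀ Z c a U, o.RS e₀ Z c a U → o.hs _ c U + 1 / Z ≤ η' →
    (d Z U c).Sm H η⁻¹ η ∧ ∀ p ∈ M.S, ‖p‖ ≤ H - 2 → 0 < gX M.w (d Z U c).X p →
      |-eqX M.w (d Z U c).X p / (2 * √(gX M.w (d Z U c).X p)) - ∑ i, (o.lm _ U i).re * ψ i p|
        ≤ η * ‖o.lm _ U‖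
  gauge : ∀ Z c a U, o.RS e₀ Z c a U → o.hs _ c U ≤ h₀ → (d Z U c).Sm H H (K * o.hs _ c U) ∧
    ∀ i, (∀ p ∈ M.S, ψ i p ≠ 0 →
      |⟪(d Z U c).X p - p, grad M.w p⟫ - u Z U p| ≤ K * o.hs _ c U ^ 2) ∧
      Integrable (fun p => u Z U p * ψ i p * rho p) (hm 2 M.w) ∧
      ∫ p, u Z U p * ψ i p * rho p ∂hm 2 M.w = cH 2 * (o.xx _ U i).re
  core : ∀ Z c a U, o.RS e₀ Z c a U → ∀ Z' c' a' U', o.RS e₀ Z' c' a' U' → ∀ p ∈ M.S,
    ‖p‖ ≤ H - 1 → ‖(d Z U c).X p - (d Z' U' c').X p‖ ≤ K * ‖o.co _ U - o.co _ U'‖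

end

theorem dfn_up {w : E3 → ℝ} {δ a K K' : ℝ} (h : Dfn w δ a K) (k : K ≤ K') : Dfn w δ a K' :=
  ⟨h.1, h.2, h.3, h.4, fun x m => (h.5 x m).trans k, fun x m => (h.6 x m).trans k,
    fun x m => (h.7 x m).trans k⟩

/-- **the interface** -/
theorem lfd_of (g : M.Geo) : ∃ a, ∀ H, a ≤ H → ∃ η₀ > 0, ∀ {α ι : Type} [Fintype α] [Fintype ι]
    {X Y : (ι → ℝ) → Type} {C : Type} [∀ W, NormedAddCommGroup (X W)] [∀ W, NormedSpace ℂ (X W)]
    [∀ W, NormedAddCommGroup (Y W)] [∀ W, NormedSpace ℂ (Y W)] [NormedAddCommGroup C]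
    [NormedSpace ℂ C] (o : Obj α ι X Y C) ψ d u K h₀ e₀,
    Lnk (M := M) o ψ d u H η₀ K h₀ e₀ → ∃ w₀ δ₀ C₀ ψ w wc c₀ c₁ δ a₀ K' h₀ e₀,
      o.LFD M.S w₀ δ₀ C₀ ψ w wc c₀ c₁ δ a₀ K' h₀ e₀ := by
  classical
  obtain ⟨a, ha⟩ := gl g
  refine ⟨a, fun H hH => ?_⟩
  obtain ⟨H1, η₀, η0, w, g1, g2, g3, ⟨B, B0, g4⟩, g5⟩ := ha H hH
  refine ⟨η₀, η0, fun {α ι _ _ X Y C _ _ _ _ _ _} o ψ d u K h₀ e₀ l => ?_⟩
  obtain ⟨K', K0', d0, g1⟩ := g1 K
  obtain ⟨B', B0', g5⟩ := g5 (H - 3) (by linarith)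
  obtain ⟨h0, K0, e0, e1, hη⟩ := l.pos
  have h₀' := g.shr
  obtain ⟨_, -, hB⟩ := dfn_tail (E := E3) (m := 2) (tail _ _) (by simp) K' h₀'.pos
    (show (0 : ℝ) < 2 / 3 by norm_num) one_half_pos
  have lf := (hB _ d0).1
  have ig : ∀ i (v : E3 → ℝ), Continuous v →
      Integrable (fun p => v p * ψ i p * rho p) (hm 2 M.w) := fun i v hv =>
    ((hv.mul (l.psi i).1.continuous).mul continuous_rho).integrable_of_hasCompactSupport
      ((l.psi i).2.1.mul_left.mul_right)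
  set I := ∑ i, ∫ p, ‖1 * ψ i p * rho p‖ ∂hm 2 M.w with hI
  have I1 : ∀ i, ∫ p, ‖1 * ψ i p * rho p‖ ∂hm 2 M.w ≤ I := fun i =>
    Finset.single_le_sum (f := fun i => ∫ p, ‖1 * ψ i p * rho p‖ ∂hm 2 M.w)
      (fun _ _ => integral_nonneg fun _ => norm_nonneg _) (Finset.mem_univ i)
  have I0 : 0 ≤ I := Finset.sum_nonneg fun _ _ => integral_nonneg fun _ => norm_nonneg _
  have b0 : 0 ≤ (B * K ^ 2 + K) * I := by positivity
  have lip : ∀ Z c a U, o.RS e₀ Z c a U → ∀ Z' c' a' U', o.RS e₀ Z' c' a' U' → ∀ i p, ψ i p ≠ 0 →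
      |w (d Z U c) p - w (d Z' U' c') p| ≤ B' * (K * ‖o.co _ U - o.co _ U'‖) :=
    fun Z c a U h Z' c' a' U' h' i p hp => g5 _ _ _ _ _ (l.good _ _ _ _ h) (l.good _ _ _ _ h')
      (by positivity) (fun q hq k => l.core _ _ _ _ h _ _ _ _ h' q hq (by linarith)) p
      ((l.psi i).2.2 p hp)
  let T := fun x : C => {t : Σ Z : ℝ, (X fun _ => Z) × (ι → ℂ) × (α → ℂ) |
    o.RS e₀ t.1 t.2.2.1 t.2.2.2 t.2.1 ∧ o.co _ t.2.1 = x}
  let wc : C → E3 → ℝ := fun x =>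
    if h : (T x).Nonempty then w (d h.some.1 h.some.2.1 h.some.2.2.1) else 0
  have ewc : ∀ Z c a U, o.RS e₀ Z c a U → ∀ i p, ψ i p ≠ 0 →
      w (d Z U c) p = wc (o.co _ U) p := fun Z c a U h i p hp => by
    have n : (T (o.co _ U)).Nonempty := ⟨⟨Z, U, c, a⟩, h, rfl⟩
    have := lip _ _ _ _ h _ _ _ _ n.some_mem.1 i p hp
    rw [n.some_mem.2, sub_self, norm_zero, mul_zero, mul_zero, abs_nonpos_iff, sub_eq_zero] at this
    simp only [wc, dif_pos n, this]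
  refine ⟨M.w, M.δ, M.C, ψ, fun Z U c => w (d Z U c), wc, cH 2, 1, M.δ, 2 / 3,
    K' + K + (B * K ^ 2 + K) * I, h₀, e₀, h₀', fun i => ⟨(l.psi i).1, (l.psi i).2.1⟩,
    ⟨cH_pos 2, one_ne_zero, h0, by positivity, e0, e1⟩, dfn_up d0 (by linarith), ?_,
    fun Z c a U h => dfn_up (g1 _ (l.good _ _ _ _ h)).1 (by linarith), fun Z c a U h => ?_,
    fun ω ω0 => ?_, fun Z c a U h k i => ?_, fun Z c a U h _ i p hp =>
      ⟨ewc _ _ _ _ h i p hp, fun ε ε0 => ⟨ε / (B' * K + 1), by positivity,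
        fun Z' c' a' U' h' _ k => ?_⟩⟩, l.nd⟩
  · rw [FA, hm_eq, integral_smul_nnreal_measure, l.fs]
    rfl
  · obtain ⟨A, A0, k1, k2⟩ := l.area _ _ _ _ h
    have k3 := (g1 _ (l.good _ _ _ _ h)).2
    rw [l.cut] at k3
    refine k3.trans ((add_le_add_left k1 _).trans ?_)
    rw [← ENNReal.ofReal_add A0 (by positivity)]
    exact ENNReal.ofReal_le_ofReal (by nlinarith [Real.exp_pos (-Z ^ 2 / 8)])
  · obtain ⟨η₁, η1, k1⟩ := g2 ω ω0
    choose L hL using fun i => (l.psi i).1.lipschitzWith_of_hasCompactSupport (l.psi i).2.1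
      one_ne_zero
    have L0 : 0 ≤ ∑ i, (L i : ℝ) := by positivity
    set η := min (min η₁ 1) (ω / (1 + ∑ i, (L i : ℝ))) with hη
    have η2 : 0 < η := by positivity
    obtain ⟨η', η3, k2⟩ := l.small η η2
    refine ⟨η', η3, fun Z c a U h k => ?_⟩
    obtain ⟨k3, k4⟩ := k2 _ _ _ _ h k
    have gd := l.good _ _ _ _ h
    have e1 : η ≤ η₁ := (min_le_left _ _).trans (min_le_left _ _)
    have e2 : η ≤ 1 := (min_le_left _ _).trans (min_le_right _ _)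
    have e3 : η * (1 + ∑ i, (L i : ℝ)) ≤ ω := (le_div_iff₀ (by positivity)).1 (min_le_right _ _)
    refine ⟨k1 _ _ gd (k3.mono (inv_anti₀ η2 e1) e1), fun y hy k => ?_⟩
    obtain ⟨p, hp, rfl, k5, k6⟩ := g3 _ _ gd y hy (by rwa [l.cut])
    have n0 := norm_nonneg (o.lm _ U)
    rw [k6]
    rcases le_or_gt ‖p‖ (H - 2) with m | m
    · have k7 : |∑ i, (o.lm _ U i).re * ψ i p - ∑ i, 1 * (o.lm _ U i).re * ψ i ((d Z U c).X p)| ≤
          (∑ i, (L i : ℝ)) * η * ‖o.lm _ U‖ := by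
        rw [← Finset.sum_sub_distrib, Finset.sum_mul, Finset.sum_mul]
        refine (Finset.abs_sum_le_sum_abs _ _).trans (Finset.sum_le_sum fun i _ => ?_)
        rw [one_mul, ← mul_sub, abs_mul, mul_comm, abs_sub_comm]
        exact mul_le_mul (((hL i).norm_sub_le _ _).trans (mul_le_mul_of_nonneg_left
          (k3.core p hp.1 (by linarith)).h0 (L i).2))
          ((Complex.abs_re_le_norm _).trans (norm_le_pi_norm _ i)) (abs_nonneg _) (by positivity)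
      refine (abs_sub_le _ _ _).trans ((add_le_add (k4 p hp.1 m k5) k7).trans ?_)
      nlinarith
    · have k7 : H - 3 < ‖(d Z U c).X p‖ := by
        rcases le_or_gt ‖p‖ (H + 2) with m' | m'
        · have := norm_sub_norm_le p ((d Z U c).X p)
          rw [norm_sub_rev] at this
          linarith [(k3.core p hp.1 m').h0]
        · linarith [gd.norm_ge g H1 hp m']
      have k8 : ∀ i, ψ i ((d Z U c).X p) = 0 := fun i =>
        not_not.1 fun k => ((l.psi i).2.2 _ k).not_gt k7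
      rw [l.far _ _ _ _ h p (by simpa only [l.cut] using hp) m.le]
      simp only [k8, mul_zero, Finset.sum_const_zero, neg_zero, zero_div, sub_self, abs_zero]
      positivity
  · obtain ⟨k1, k2⟩ := l.gauge _ _ _ _ h k
    obtain ⟨k2, k3, k4⟩ := k2 i
    have gd := l.good _ _ _ _ h
    have s0 : 0 ≤ o.hs _ c U := add_nonneg (apply_nonneg _ _) (norm_nonneg _)
    rw [← k4, ← integral_add (ig i _ (g1 _ gd).1.smooth.continuous) k3, ← Real.norm_eq_abs]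
    refine (norm_integral_le_of_norm_le (((ig i (fun _ => 1) continuous_const).norm).const_mul
      ((B * K ^ 2 + K) * o.hs _ c U ^ 2)) ((ae_sh h₀').mono fun p hp => ?_)).trans ?_
    · by_cases m : ψ i p = 0
      · simp [m]
      have k5 := g4 _ _ _ gd (by positivity) ((mul_le_mul_of_nonneg_left k K0).trans hη) k1 p hp
        (by linarith [(l.psi i).2.2 p m])
      rw [← add_mul, ← add_mul, mul_assoc, norm_mul, one_mul]
      refine mul_le_mul_of_nonneg_right ?_ (norm_nonneg _)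
      have k6 := abs_le.1 (k2 p hp m)
      have k7 := abs_le.1 k5
      rw [Real.norm_eq_abs, abs_le]
      constructor <;> nlinarith [k6.1, k6.2, k7.1, k7.2]
    · rw [integral_const_mul]
      nlinarith [mul_le_mul_of_nonneg_left (I1 i) (show 0 ≤ (B * K ^ 2 + K) * o.hs _ c U ^ 2 by
        positivity), mul_nonneg (add_nonneg K0' K0) (sq_nonneg (o.hs _ c U))]
  · rw [← ewc _ _ _ _ h i p hp, ← ewc _ _ _ _ h' i p hp]
    refine (lip _ _ _ _ h' _ _ _ _ h i p hp).trans ?_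
    rw [le_div_iff₀ (by positivity)] at k
    nlinarith [norm_nonneg (o.co _ U' - o.co _ U)]

end Vale.Agent.P218B
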