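import Vale.Agent.P218B.Lfa
import Vale.Agent.P218I.Ind

/-!
# P218B: the surfaces of the real solutions in the compact zone; their area
-/

noncomputable section

open MeasureTheory Set Filter Topology
open scoped ENNReal RealInnerProductSpace Real ComplexConjugate

namespace Vale.Agent.P218B.Lf

open Vale.Agent.P218.H313 Vale.Agent.P218D Vale.Agent.P218I Vale.Agent.P218I.GD
open Vale.Agent.P218T hiding E3 Per
open Vale.Agent.P218N (V3 sig AD Pi' Jt jt km Tf)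
open Vale.Agent.P218L (LD ga pN pH)
open Vale.Agent.P218H (nrm4)

variable {M : Mod} {k : ℕ} {G : GD M k}

section
variable {W W' : Fin M.n₁ → ℝ} (m : Fin M.n₁ → ℝ) (U : G.XX W) (c : Fin M.n₁ → ℂ) (x : E3) (j : Jt)

theorem E_t0 : (G.ad W).E x j (GD.par m (U, bs c 1)) = (G.ad W).E x j (t0 U) :=
  sub_left_inj.1 (Ind.Rm_eq (G.ad W) x j U.2.2.1 U.2.2.2 0 (fun j => km (m j)) 0)

theorem If_t0 : (G.ad W).If x j (GD.par m (U, bs c 1)) = (G.ad W).If x j (t0 U) :=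
  Ind.If_eq (G.ad W) x j U.2.2.1 U.2.2.2 0 (fun j => km (m j)) 0

theorem XX_t0 (a : ℂ) : (G.ad W).XX (x, a, t0 U) = (G.ad W').XX (x, a, U.2.2.1, 0) := by
  simp [AD.XX, AD.X0, AD.ov, t0, ad]

theorem m_le : ‖U.2.2.1‖ ≤ zn U :=
  (nrm4 (G.coo W U)).2.2.2.trans (norm_fst_le (G.coo W U, U.2.2.2))

theorem t0_le : ‖t0 U‖ ≤ zn U :=
  norm_prod_le_iff.2 ⟨m_le U, norm_prod_le_iff.2 ⟨norm_snd_le (G.coo W U, U.2.2.2),
    norm_zero.trans_le (norm_nonneg _)⟩⟩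

theorem con_le (l : Fin M.n₂) : ‖U.2.1.2 l‖ ≤ zn U := (norm_le_pi_norm _ l).trans
  ((nrm4 (G.coo W U)).2.2.1.trans (norm_fst_le (G.coo W U, U.2.2.2)))

theorem zn_le (V : G.XX W) (h : zn V = 0) : zn U ≤ zn (U - V) := by
  have := norm_add_le (G.coo W (U - V), (U - V).2.2.2) (G.coo W V, V.2.2.2)
  rw [Prod.mk_add_mk, ← map_add, sub_add_cancel, show (U - V).2.2.2 + V.2.2.2 = U.2.2.2 by simp,
    show ‖(G.coo W V, V.2.2.2)‖ = 0 from h, add_zero] at this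
  exact this

end

theorem jt_le {φ : E3 → ℂ} {x : E3} {a : ℝ} (h : J2 φ x a a a) (i) : ‖jt φ x none i‖ ≤ a := by
  cases i with
  | none => exact h.h0
  | some b => exact (h.d1 (P218H.ee b)).trans_eq (by simp [P218H.ee])

/-- the surface in the compact zone and on the cones -/
structure Nb (C z₃ Z : ℝ) (U : G.XX fun _ => Z) (c : Fin M.n₁ → ℂ) (s : ℝ) : Prop where
  core : ∀ p ∈ M.S, ‖p‖ ≤ G.ρ + 8 → J2 (ft z₃ (U, bs c 1)) p (C * s) (C * s) (C * s) ∧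
    J2 (fun x => (sf z₃ Z U c).X x - x) p (C * s) (C * s) (C * s)
  con : ∀ l z θ, G.z₀ < z → J2 (fun y : ℝ × ℝ => z⁻¹ * (sf z₃ Z U c).D (.inr l) (z * y.1, y.2))
    (1, θ) (C * s) (C * s) (C * s)
  qu : ∀ p ∈ M.S, ‖p‖ ≤ G.ρ + 2 →
    |⟪(sf z₃ Z U c).X p - p, grad M.w p⟫ - (uu U p).re| ≤ C * s ^ 2

theorem near (nrj : NRJ) (kj : KJ) (o : G.Ok)
    (hA : ∀ x ∈ M.S, (‖x‖ ≤ G.ρ + 9 → (G.ad fun _ => G.ρ + 12).Nr x) ∧
      (‖x‖ ≤ G.ρ + 2 → ∀ l, G.rot l x = 0)) {C₂ : ℝ} (c2 : 0 ≤ C₂)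
    (hN : ∀ z₃ Z (U : G.XX Z) c, G.ρ + 9 ≤ z₃ → (∀ j, G.ρ + 12 ≤ Z j) → ∀ p ∈ M.S,
      (‖p‖ ≤ G.ρ + 8 → J2 (ft z₃ (U, bs c 1)) p (C₂ * (zn U + ‖c‖)) (C₂ * (zn U + ‖c‖))
        (C₂ * (zn U + ‖c‖))) ∧ (‖p‖ ≤ G.ρ + 5 → ft z₃ (U, bs c 1) p = uu U p ∧
      ∀ Z' (U' : G.XX Z'), (∀ j, G.ρ + 12 ≤ Z' j) →
        ‖uu U p - uu U' p‖ ≤ C₂ * ‖G.coo Z U - G.coo Z' U'‖)) (C₁ : ℝ) :
    ∃ r C : ℝ, 0 < r ∧ 1 ≤ C ∧ C₁ ≤ C ∧ ∀ z₃ Z U c s, G.ρ + 9 ≤ z₃ → G.ρ + 12 ≤ Z →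
      zn U + ‖c‖ ≤ s → s ≤ r → Nb (G := G) C z₃ Z U c s ∧ ∀ Z' U' c', G.ρ + 12 ≤ Z' →
        zn U' + ‖c'‖ ≤ r → ∀ p ∈ M.S, ‖p‖ ≤ G.ρ + 5 →
          ‖(sf z₃ Z U c).X p - (sf z₃ Z' U' c').X p‖ ≤ C * ‖G.coo _ U - G.coo _ U'‖ := by
  have g := o.ld.geo
  obtain ⟨r, C, r0, C0, h⟩ := nrj _ _ (G.ad fun _ => G.ρ + 12) (M.S ∩ Metric.closedBall 0 (G.ρ + 8))
    ((isCompact_closedBall _ _).inter_left g.isClosed_S) fun p hp =>
      (hA p hp.1).1 (by linarith [mem_closedBall_zero_iff.1 hp.2])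
  obtain ⟨C₃, c3, hK⟩ := kj
  have a1 := abs_nonneg C₁
  set B := C₂ + 1 with hB
  have B1 : 1 ≤ B := by linarith
  have b1 : 0 ≤ C * B := by positivity
  have b2 : C * B ≤ C * B ^ 2 := by nlinarith
  have bd : ∀ z₃ Z (U : G.XX fun _ => Z) c s, G.ρ + 9 ≤ z₃ → G.ρ + 12 ≤ Z → zn U + ‖c‖ ≤ s →
      s ≤ r / B → 0 ≤ s ∧ B * s ≤ r ∧ ‖((U.2.2.1, 0) : Pi' (Fin M.n₁) (Fin k))‖ ≤ B * s ∧
        ∀ p ∈ M.S, ‖p‖ ≤ G.ρ + 8 → J2 (ft z₃ (U, bs c 1)) p (B * s) (B * s) (B * s) :=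
    fun z₃ Z U c s h1 h2 h3 h4 => by
      have := norm_nonneg c
      have z0 : 0 ≤ zn U := norm_nonneg _
      refine ⟨by linarith, (le_div_iff₀' (by linarith)).1 h4, ?_, fun p hp k =>
        ((hN z₃ _ U c h1 (fun _ => h2) p hp).1 k).mono' (by nlinarith)⟩
      rw [Prod.norm_mk, norm_zero, max_eq_left (norm_nonneg _)]
      nlinarith [m_le U]
  have eX : ∀ z₃ Z (U : G.XX fun _ => Z) c, (sf z₃ Z U c).X =
      XR (G.ad fun _ => G.ρ + 12) (ft z₃ (U, bs c 1)) (U.2.2.1, 0) := fun z₃ Z U c =>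
    funext fun x => congrArg re3 (XX_t0 U x _)
  refine ⟨r / B, B + C * B ^ 2 + C₃ + |C₁|, by positivity, by linarith, by linarith [le_abs_self C₁],
    fun z₃ Z U c s h1 h2 h3 h4 => ?_⟩
  obtain ⟨s0, k1, k2, k3⟩ := bd z₃ Z U c s h1 h2 h3 h4
  refine ⟨⟨fun p hp k => ⟨(k3 p hp k).mono' (by nlinarith), ?_⟩, fun l z θ hz => ?_,
    fun p hp k => ?_⟩, fun Z' U' c' h2' h3' p hp hk => ?_⟩
  · rw [eX]
    exact ((h p ⟨hp, mem_closedBall_zero_iff.2 k⟩).1 _ _ _ k1 (k3 p hp k) k2).mono' (by nlinarith)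
  · refine (hK _ (U.2.1.2 l) z θ G.hz hz).mono' (mul_le_mul (by linarith)
      (by linarith [con_le U l, norm_nonneg c]) (norm_nonneg _) (by linarith))
  · have k4 := (k3 p hp (by linarith)).h0
    have := (h p ⟨hp, mem_closedBall_zero_iff.2 (by linarith)⟩).2.2 _ (U.2.2.1, 0) (k4.trans k1)
      ((hA p hp).2 k)
    rw [eX, ← ((hN z₃ _ U c h1 (fun _ => h2) p hp).2 (by linarith)).1]
    refine this.trans ((mul_le_mul_of_nonneg_left (pow_le_pow_left₀ (norm_nonneg _) k4 2) C0).trans ?_)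
    nlinarith [sq_nonneg s]
  · obtain ⟨-, k1', k2', k3'⟩ := bd z₃ Z' U' c' _ h1 h2' h3' le_rfl
    obtain ⟨e1, k5⟩ := (hN z₃ _ U c h1 (fun _ => h2) p hp).2 hk
    have e2 := ((hN z₃ _ U' c' h1 (fun _ => h2') p hp).2 hk).1
    have k6 : ‖((U.2.2.1, 0) : Pi' (Fin M.n₁) (Fin k)) - (U'.2.2.1, 0)‖ ≤
        ‖G.coo _ U - G.coo _ U'‖ := by
      rw [Prod.mk_sub_mk, sub_self, Prod.norm_mk, norm_zero, max_eq_left (norm_nonneg _)]
      exact (nrm4 (G.coo _ U - G.coo _ U')).2.2.2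
    rw [eX, eX]
    refine ((h p ⟨hp, mem_closedBall_zero_iff.2 (by linarith)⟩).2.1 _ _ _ _
      ((k3 p hp (by linarith)).h0.trans k1) (k2.trans k1) ((k3' p hp (by linarith)).h0.trans k1')
      (k2'.trans k1')).trans ?_
    rw [e1, e2]
    refine (mul_le_mul_of_nonneg_left (add_le_add (k5 _ U' fun _ => h2') k6) C0).trans ?_
    nlinarith [norm_nonneg (G.coo _ U - G.coo _ U')]

/-- the area below the cuts -/
theorem area (g : M.Geo) {Z : ℝ} (hZ : M.R < Z) {f : E3 → ℝ} {F : E3 → ℂ} (f0 : ∀ x, 0 ≤ f x)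
    (h : ∀ x ∈ lowS M Z, (F x).re = f x) (hF : IntegrableOn F (lowS M Z) (sig M.w)) :
    0 ≤ (∫ x in lowS M Z, F x ∂sig M.w).re ∧ ∫⁻ p in lowS M (Z - 2), ENNReal.ofReal (f p) ∂hm 2 M.w
      ≤ ENNReal.ofReal (cH 2 * (∫ x in lowS M Z, F x ∂sig M.w).re) := by
  have ms : MeasurableSet (lowS M Z) := (sh_meas g.shr).diff (MeasurableSet.iUnion fun j =>
    (g.isClosed_En isClosed_Ici fun z hz => hZ.trans_le hz).measurableSet)
  have e : ∀ᵐ x ∂(sig M.w).restrict (lowS M Z), (F x).re = f x := (ae_restrict_mem ms).mono h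
  have p : 0 ≤ᵐ[(sig M.w).restrict (lowS M Z)] fun x => RCLike.re (F x) :=
    e.mono fun x k => (f0 x).trans k.ge
  have e' := integral_re hF
  refine ⟨(integral_nonneg_of_ae p).trans_eq e', ?_⟩
  refine (lintegral_mono_set (t := lowS M Z) (sdiff_subset_sdiff_right (iUnion_mono fun j =>
    Mod.En_mono (Ici_subset_Ici.2 (by linarith))))).trans (le_of_eq ?_)
  rw [hm_eq, Measure.restrict_smul, lintegral_smul_measure, ENNReal.ofReal_mul (cH 2).coe_nonneg,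
    ENNReal.ofReal_coe_nnreal, show (∫ x in lowS M Z, F x ∂sig M.w).re = _ from e'.symm,
    ofReal_integral_eq_lintegral_ofReal hF.re p]
  exact congrArg _ (lintegral_congr_ae (e.mono fun x k => congrArg _ k.symm))

end Vale.Agent.P218B.Lf
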