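import Vale.Agent.P218B.Lfb
import Vale.Agent.P218I.Bas

/-!
# P218B: the facts at the base points with equal cuts
-/

noncomputable section

open MeasureTheory Set Filter Topology
open scoped ENNReal RealInnerProductSpace Real ComplexConjugate

namespace Vale.Agent.P218B.Lf

open Vale.Agent.P218.H313 Vale.Agent.P218D Vale.Agent.P218I Vale.Agent.P218I.GD
open Vale.Agent.P218T hiding E3 Per
open Vale.Agent.P218N (V3 sig AD Pi' Jt jt km Tf)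
open Vale.Agent.P218L (LD ga pN pH)
open Vale.Agent.P218H (tri)

variable {M : Mod} {k : ℕ}

/-- the facts at the cut `Z` -/
structure Bp (G : GD M k) (a : Cs) (Z : ℝ) : Prop where
  aa : ∀ (U : G.XX fun _ => Z) i, G.AA _ U i = ∫ p, wc U p * G.ψ i p ∂ga M.w
  hv : ∀ U : G.XX fun _ => Z, zn U ≤
    a.K * (G.obj a).Np (fun _ => Z) 0 (U - G.US (fun _ => Z) a.z₃)
  us : ∀ j, ∀ z ∈ Icc G.z₀ Z, ∀ θ,
    ((G.US (fun _ => Z) a.z₃).2.1.1 j).1 0 (z, θ) = usf M a.z₃ j Z (z, θ)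
  sol : ∀ c b (U : G.XX fun _ => Z), Dsc a.J₀ (fun _ => Z) c → (G.obj a).N (fun _ => Z) c U < a.r →
    FF a.z₃ a.J₀ a.J₀ 0 (U, bs c 1) = (0, 0, 0, b) → zn U ≤ a.K * a.r ∧
    (∀ x ∈ lowS M Z, ContDiffAt ℝ 2 (ft a.z₃ (U, bs c 1)) x ∧
      (G.ad fun _ => Z).Rg x (ft a.z₃ (U, bs c 1) x) (t0 U) ∧
      (G.ad fun _ => Z).E x (jt (ft a.z₃ (U, bs c 1)) x) (t0 U) = 0) ∧
    IntegrableOn (fun x => (G.ad fun _ => Z).If x (jt (ft a.z₃ (U, bs c 1)) x) (t0 U)) (lowS M Z)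
      (sig M.w) ∧ (∫ x in lowS M Z, (G.ad fun _ => Z).If x (jt (ft a.z₃ (U, bs c 1)) x) (t0 U)
        ∂sig M.w).re ≤ (ff a.z₃ a.J₀ a.J₀ 0 (U, bs c 1)).re + M.n₁ * Real.exp (-Z ^ 2 / 8)

theorem exp_le {Z : ℝ} (h : 8 ≤ Z) : Z * Real.exp (-Z ^ 2 / 4) ≤ Real.exp (-Z ^ 2 / 8) := by
  rw [show -Z ^ 2 / 4 = -Z ^ 2 / 8 - Z ^ 2 / 8 by ring, Real.exp_sub, mul_div_assoc',
    div_le_iff₀ (Real.exp_pos _), mul_comm]
  exact mul_le_mul_of_nonneg_left (by nlinarith [Real.add_one_le_exp (Z ^ 2 / 8)])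
    (Real.exp_pos _).le

theorem bp (sound : SOUND) (zon : ZON) (usv : USV) (uzl : UZL) (gds : GDS) (hi : HI) (hb : HB) :
    Row fun _ _ G => ∀ᶠ a in ev₀, ∀ᶠ Z in atTop, Bp G a Z := by
  refine (sound.and (zon.and (usv.and (uzl.and (gds.and (hi.and hb)))))).mono ?_
  rintro M k G o ⟨h1, h2, h3, h4, h5, h6, h7⟩
  filter_upwards [eventually_bind.1 (o.lin.and (h1.and (h2.and (h3.and (h4.and (h5.and
    (h6.and h7))))))), ev₀_K 0] with a h K0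
  obtain ⟨K₂, h⟩ := (ev₁_iff.1 h a.J₀).exists
  filter_upwards [h, eventually_ge_atTop 8, (tendsto_pow_atTop two_ne_zero).eventually_gt_atTop
    (2 * (7 / 5 * P218Q.nu a.J₀))] with Z h h8 hq
  have h := fun c (hc : Dsc a.J₀ (fun _ => Z) c) => h (fun _ => Z / 4) (fun _ => Z) c 1
    ⟨le_rfl, fun _ => ⟨le_rfl, by dsimp only; linarith⟩,
      fun _ => ⟨by dsimp only; linarith, by dsimp only; linarith⟩, hc, zero_le_one, le_rfl⟩
  obtain ⟨⟨⟨T, hT, -⟩, -, -⟩, -, k2, k3, k4, -⟩ := h 0 fun _ => by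
    have : 4 * (7 / 5 * P218Q.nu a.J₀) / Z ^ 2 < 2 := (div_lt_iff₀ (by positivity)).2 (by linarith)
    simp only [P218Q.dsc, P218Q.vb, mem_ofPred_eq, Pi.zero_apply, zero_mul, add_zero]
    norm_num
    linarith
  refine ⟨fun U => (AA_apply hT U).2, fun U => (zn_le U _ k4.2.1).trans (k2.1 _).2,
    fun j => (k3 j).1 0, fun c b U hc hN hF => ?_⟩
  obtain ⟨-, k1, k2, -, -, k5, k6, k7⟩ := h c hc
  have m : (U, bs c 1) ∈ G.Bx ⟨a, a.J₀, K₂, Z, fun _ => Z / 4, fun _ => Z, c, 1⟩ :=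
    ⟨hN, by simp [show 0 < Z ^ 100 by positivity]⟩
  have k8 := ((k1 _ m).2 b (((ind M k G a).1 _ _ _ U c 1).1.trans hF)).1
  refine ⟨(k2.1 U).1.trans (mul_le_mul_of_nonneg_left hN.le K0), fun x hx => ⟨(k1 _ m).1 x hx, ?_,
    (E_t0 _ U c x _).symm.trans (k8 x hx)⟩, ?_, ?_⟩
  · obtain ⟨r1, r2, r3, r4, r5, r6, r7, r8⟩ :=
      (k5 _ m (fun _ => Z / 4) (fun _ => by linarith) x hx).1.rg
    exact ⟨r1, r2, r3, r4, r5, r6, r7, r8⟩
  · exact (k6 _ m).2.2.1.congr (.of_forall fun x => If_t0 _ U c x _)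
  · have := (Complex.abs_re_le_norm _).trans ((norm_sum_le _ _).trans
      (Finset.sum_le_card_nsmul _ _ _ fun j (_ : j ∈ Finset.univ) => (k7 _ m j).2.trans (exp_le h8)))
    rw [Finset.card_fin, nsmul_eq_mul] at this
    rw [ff, Complex.add_re, add_assoc]
    simp only [If_t0]
    exact le_add_of_nonneg_right (neg_le_iff_add_nonneg.1 (abs_le.1 this).1)

end Vale.Agent.P218B.Lf
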