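import Vale.Agent.P218B.Lfc

/-!
# P218B: the geometric meaning of the real solutions
-/

noncomputable section

open MeasureTheory Set Filter Topology
open scoped ENNReal RealInnerProductSpace Real ComplexConjugate

namespace Vale.Agent.P218B.Lf

open Vale.Agent.P218.H313 Vale.Agent.P218D Vale.Agent.P218I Vale.Agent.P218I.GD
open Vale.Agent.P218T hiding E3 Per
open Vale.Agent.P218N (V3 sig AD Pi' Jt jt km Tf)
open Vale.Agent.P218L (LD ga pN pH)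
open Vale.Agent.P218H (tri le_tri)

variable {M : Mod} {k : ℕ} {G : GD M k} {a : Cs} {Z : ℝ} {U : G.XX fun _ => Z} {c : Fin M.n₁ → ℂ}

theorem ev_z {P : ℝ → Prop} (h : ∀ᶠ z in atTop, P z) : ∀ᶠ q in ev₀, P q.z₃ :=
  ev₀_iff.2 (.of_forall fun _ => .of_forall fun _ => h.mono fun _ h => .of_forall fun _ => h)

theorem low_sub : lowS M (Z - 2) ⊆ lowS M Z := sdiff_subset_sdiff_right (iUnion_mono fun _ =>
  Mod.En_mono (Ici_subset_Ici.2 (by linarith)))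

theorem Bp.hs (h : Bp G a Z) (K1 : 1 ≤ a.K) : zn U + ‖c‖ ≤ a.K * (G.obj a).hs _ c U := by
  rw [Obj.hs, mul_add]
  exact add_le_add (h.hv U) (le_mul_of_one_le_left (norm_nonneg _) K1)

theorem ph_le (j) : pH 0 G.z₀ Z (U.2.1.1 j - (G.US (fun _ => Z) a.z₃).2.1.1 j) + ‖c‖ ≤
    (G.obj a).hs _ c U :=
  add_le_add_left (((le_prs (U - G.US (fun _ => Z) a.z₃).2.1).1 j).trans
    (le_tri (G.ph' (fun _ => Z) 0) (U - G.US (fun _ => Z) a.z₃)).2.1) _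

theorem Nb.sm {C C₁ z₃ s ω ρ : ℝ} (h : Nb C z₃ Z U c s) (o : G.Ok) (hs : zn U + ‖c‖ ≤ s)
    (hr : ∀ j, ‖(sf z₃ Z U c).Rt j - .id ℝ E3‖ ≤ C₁ * ‖U.2.2.1‖) (h1 : C₁ ≤ C) (h2 : 0 ≤ C)
    (hω : C * s ≤ ω) (cyl : ∀ j (y : ℝ × ℝ), G.ρ + 6 ≤ y.1 → y.1 ≤ ρ → y.1 ≤ Z - 1 →
      J2 (DR z₃ U c (.inl j)) y ω ω ω)
    (far : Z - 2 ≤ ρ → ∀ j (y : ℝ × ℝ), Z - 2 ≤ y.1 → J2 (M.f j) y ω ω ω) :
    (sf z₃ Z U c).Sm (G.ρ + 6) ρ ω :=
  ⟨fun p hp k => (h.core p hp (by linarith)).2.mono' hω, fun j => (hr j).trans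
    ((mul_le_mul h1 (by linarith [m_le U, norm_nonneg c]) (norm_nonneg _) h2).trans hω), cyl, far,
    fun l z θ k _ => (h.con l z θ (by linarith [o.ld.hi])).mono' hω⟩

variable (a U c) in
/-- the facts about a real solution -/
structure Fc (s η : ℝ) : Prop where
  z : G.ρ + 12 ≤ Z
  rl : Rl U c
  s : zn U + ‖c‖ ≤ s
  bp : Bp G a Z
  cd : ∀ x ∈ lowS M Z, ContDiffAt ℝ 2 (sf a.z₃ Z U c).X x
  eq0 : ∀ x ∈ lowS M Z, G.ρ + 2 < ‖x‖ → eqX M.w (sf a.z₃ Z U c).X x = 0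
  eq : ∀ x ∈ lowS M Z, 0 < gX M.w (sf a.z₃ Z U c).X x →
    -eqX M.w (sf a.z₃ Z U c).X x / (2 * √(gX M.w (sf a.z₃ Z U c).X x)) =
      (kq (G.ad fun _ => Z) x (jt (ft a.z₃ (U, bs c 1)) x) (t0 U) *
        (G.ad fun _ => Z).lag x (t0 U)).re
  ar : ∃ A, 0 ≤ A ∧ ∫⁻ p in lowS M (Z - 2), ENNReal.ofReal (rho ((sf a.z₃ Z U c).X p) *
    √(gX M.w (sf a.z₃ Z U c).X p)) ∂hm 2 M.w ≤ ENNReal.ofReal A ∧
    A ≤ cH 2 * (ff a.z₃ a.J₀ a.J₀ 0 (U, bs c 1)).re + cH 2 * M.n₁ * Real.exp (-Z ^ 2 / 8)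
  cy : ∀ j (y : ℝ × ℝ), G.ρ + 6 ≤ y.1 → y.1 ≤ Z - 1 → 0 ≤ (Vt a.z₃ (U, bs c 1) j y 0).re ∧
    J2 (DR a.z₃ U c (.inl j)) y η η η ∧ (Z - 2 ≤ y.1 →
      |fderiv ℝ (fun p => M.f j p + DR a.z₃ U c (.inl j) p) y (1, 0)| ≤ 1 / Z)
  far : ∀ j (y : ℝ × ℝ), Z - 2 ≤ y.1 → J2 (M.f j) y η η η

theorem fc (eqr : EQR) (rlf : RLF) (cyn : CYN) (adn : ADN)
    (bp : Row fun _ _ G => ∀ᶠ a in ev₀, ∀ᶠ Z in atTop, Bp G a Z) :
    Row fun _ _ G => ∀ s > 0, ∀ η > 0, ∃ e₀ > 0, e₀ ≤ 1 ∧ ∀ᶠ a in ev₀, ∀ᶠ Z in atTop,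
      ∀ K₂ Zs c b (U : G.XX fun _ => Z), ((G.obj a).cs a K₂ Zs).RS e₀ Z c b U → Fc a U c s η := by
  refine (rlf.and (cyn.and (adn.and bp))).mono ?_
  rintro M k G o ⟨rlf, cyn, adn, bp⟩ s s0 η η0
  have g := o.ld.geo
  have z1 := o.ld.lo
  have z2 := o.ld.hi
  have z3 := g.one.1
  obtain ⟨δ, δ0, cyn⟩ := cyn η η0
  choose R hR using fun j => Decays.small (g.ended.cyl j) η0
  refine ⟨min (min (s / 2) δ) 1, by positivity, min_le_right _ _, ?_⟩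
  filter_upwards [bp, ev₀_K 1, ev₀_r (f := fun K => min δ (s / 2 / K))
    ((eventually_gt_atTop 0).mono fun _ _ => by positivity), ev₀_z fun _ _ => G.ρ + 9, ev_z cyn]
    with a bp K1 hr hz cyn
  filter_upwards [bp, cyn, eventually_ge_atTop (G.ρ + 12),
    eventually_all.2 fun j => eventually_ge_atTop (R j + 2)] with Z bp cyn hZ hR' K₂ Zs c b U h
  have rl : Rl U c := ⟨h.rc, h.rU⟩
  obtain ⟨k1, k2, k3, k4⟩ := bp.sol c b U h.ad.hc h.sol.1 h.sol.2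
  obtain ⟨k5, k6⟩ := adn (fun _ => Z) a.z₃ (fun _ => hZ) hz
  have k7 := fun x hx => eqr _ _ _ k5 x _ _ (k2 x hx).2.1 (k2 x hx).1 (rlf _ a.z₃ U c rl).1
    (rlf _ a.z₃ U c rl).2.1 rfl
  have k8 := fun j => (le_min_iff.1 ((h.mid j).trans (min_le_left _ _)))
  refine ⟨hZ, rl, ?_, bp, fun x hx => (k7 x hx).1, fun x hx m => ((k7 x hx).2.2 (k2 x hx).2.2).1
    ((k6 x hx.1).2.2.1 m 0 (U, bs c 1)).2, fun x hx m => ?_, ?_, fun j => cyn U c j (k8 j).2 ?_,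
    fun j y hy => hR j y (by linarith [hR' j])⟩
  · have : ‖c‖ ≤ s / 2 := (pi_norm_le_iff_of_nonneg (by positivity)).2 fun j =>
      (le_mul_of_one_le_right (norm_nonneg _) (one_le_pow₀ (by linarith))).trans (k8 j).1
    linarith [(le_div_iff₀' (by linarith)).1 (hr.2.trans (min_le_right _ _))]
  · have := ((k7 x hx).2.2 (k2 x hx).2.2).2 m.le
    have m' : √(gX M.w (sf a.z₃ Z U c).X x) ≠ 0 := (Real.sqrt_pos.2 m).ne'
    rw [div_eq_iff (by positivity), neg_eq_iff_eq_neg]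
    exact this.trans (by rw [neg_mul, neg_mul, mul_comm]; rfl)
  · obtain ⟨m1, m2⟩ := area g (by linarith) (fun x => mul_nonneg (Real.exp_pos _).le
      (Real.sqrt_nonneg _)) (fun x hx => (k7 x hx).2.1) k3
    refine ⟨_, by positivity, m2, ?_⟩
    rw [mul_assoc, ← mul_add]
    exact mul_le_mul_of_nonneg_left k4 (cH 2).coe_nonneg
  · exact ((((le_prs U.2.1).1 j).trans (le_tri (G.pn (fun _ => Z) c) U).2.1).trans
      h.sol.1.le).trans (hr.2.trans (min_le_left _ _))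

/-- the multipliers -/
theorem mul_le {ι : Type} [Fintype ι] {q L : ℂ} {l : ι → ℂ} {ψ B : ι → ℝ} {η : ℝ} (η0 : 0 ≤ η)
    (hL : L = ∑ i, l i * ψ i) (hB : ∀ i, ‖ψ i‖ ≤ B i) (hq : ‖q - 1‖ ≤ η / (∑ i, |B i| + 1)) :
    |(q * L).re - ∑ i, (l i).re * ψ i| ≤ η * ‖l‖ := by
  have e : (q * L).re - ∑ i, (l i).re * ψ i = ((q - 1) * L).re := by
    rw [sub_mul, one_mul, Complex.sub_re, hL]
    simp
  have b : ‖L‖ ≤ (∑ i, |B i| + 1) * ‖l‖ := by
    rw [hL, add_mul, Finset.sum_mul]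
    refine (norm_sum_le _ _).trans ((Finset.sum_le_sum fun i _ => ?_).trans
      (le_add_of_nonneg_right (by positivity)))
    rw [norm_mul, mul_comm, Complex.norm_real]
    exact mul_le_mul ((hB i).trans (le_abs_self _)) (norm_le_pi_norm _ i) (norm_nonneg _)
      (abs_nonneg _)
  rw [e]
  refine (Complex.abs_re_le_norm _).trans ((norm_mul_le _ _).trans ((mul_le_mul hq b
    (norm_nonneg _) (by positivity)).trans_eq ?_))
  rw [← mul_assoc, div_mul_cancel₀ _ (by positivity)]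

variable (a U c) in
/-- the facts about the map -/
structure Fd (C r : ℝ) : Prop where
  ok : (sf a.z₃ Z U c).Ok (G.ρ + 6)
  orth : ∀ j v, ‖(sf a.z₃ Z U c).Rt j v‖ = ‖v‖
  rot : ∀ j, ‖(sf a.z₃ Z U c).Rt j - .id ℝ E3‖ ≤ C * ‖U.2.2.1‖
  nb : ∀ s, zn U + ‖c‖ ≤ s → s ≤ r → Nb C a.z₃ Z U c s

theorem hs_nonneg : 0 ≤ (G.obj a).hs _ c U := add_nonneg (apply_nonneg _ _) (norm_nonneg _)

theorem small (kq1 : KQ) (cyh : CYH) (psl : PSI) (adn : ADN) : Row fun M _ G =>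
    ∀ (a : Cs) (C r η : ℝ), 1 ≤ a.K → G.ρ + 9 ≤ a.z₃ → 1 ≤ C → 0 < r → 0 < η → ∃ η' > 0,
      ∀ Z (U : G.XX fun _ => Z) c s η₀, Fc a U c s η₀ → Fd a U c C r →
        (G.obj a).hs _ c U + 1 / Z ≤ η' → (sf a.z₃ Z U c).Sm (G.ρ + 6) η⁻¹ η ∧ ∀ p ∈ M.S,
          ‖p‖ ≤ G.ρ + 6 - 2 → 0 < gX M.w (sf a.z₃ Z U c).X p →
          |-eqX M.w (sf a.z₃ Z U c).X p / (2 * √(gX M.w (sf a.z₃ Z U c).X p)) -
            ∑ i, ((G.obj a).lm _ U i).re * ψL G i p| ≤ η * ‖(G.obj a).lm _ U‖ := by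
  refine (cyh.and (psl.and adn)).mono ?_
  rintro M k G o ⟨cyh, ⟨-, ps1, ps2⟩, adn⟩ a C r η K1 hz C1 r0 η0
  have g := o.ld.geo
  have z1 := o.ld.lo
  have z2 := o.ld.hi
  have z3 := g.one.1
  choose B hB using fun i => (ps1 i).1.continuous.bounded_above_of_compact_support (ps1 i).2.1
  obtain ⟨r', r1, hq⟩ := kq1 _ _ (G.ad fun _ => G.ρ + 12) (M.S ∩ Metric.closedBall 0 (G.ρ + 8))
    ((isCompact_closedBall _ _).inter_left g.isClosed_S) (fun p hp => ((adn _ _ (fun _ => le_rfl)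
      hz).2 p hp.1).1 (by linarith [mem_closedBall_zero_iff.1 hp.2])) (η / (∑ i, |B i| + 1))
      (by positivity)
  obtain ⟨δ, δ0, C', c', cy⟩ := cyh η⁻¹
  obtain ⟨Z₂, cy⟩ := eventually_atTop.1 ((cy a.z₃ (by linarith)).and
    (eventually_ge_atTop (η⁻¹ + 3)))
  refine ⟨min (min (min (min r (min η r' / C) / a.K) δ) (η / (C' + 1))) (1 / (|Z₂| + 1)),
    by positivity, fun Z U c s η₀ f d m => ?_⟩
  have fz := f.z
  have k0 := hs_nonneg (a := a) (U := U) (c := c)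
  simp only [le_min_iff] at m
  obtain ⟨⟨⟨m1, m2⟩, m3⟩, m4⟩ := m
  have k1 : 0 < 1 / Z := one_div_pos.2 (by linarith)
  obtain ⟨k2, k3⟩ := cy Z (by linarith [le_abs_self Z₂, (one_div_le_one_div (a := Z)
    (b := |Z₂| + 1) (by linarith) (by positivity)).1 (by linarith)])
  obtain ⟨k4, k5⟩ := le_min_iff.1 ((le_div_iff₀' (by linarith)).1
    ((le_add_of_nonneg_right k1.le).trans m1))
  obtain ⟨k5, k6⟩ := le_min_iff.1 ((le_div_iff₀' (by linarith)).1 k5)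
  have k7 := f.bp.hs (U := U) (c := c) K1
  have nb := d.nb _ k7 k4
  rw [le_div_iff₀ (by positivity)] at m3
  refine ⟨nb.sm o k7 d.rot le_rfl (by linarith) k5
    (fun j y n1 n2 _ => (k2 U c j _ _ (by linarith) (f.bp.us j) (ph_le j) y n1 n2).mono'
      (by nlinarith)) fun n => absurd n (by linarith), fun p hp n gp => ?_⟩
  have hp' : p ∈ lowS M Z := ⟨hp, fun n' => by
    obtain ⟨j, n'⟩ := mem_iUnion.1 n'
    obtain ⟨t, t1, t2, -⟩ := g.norm_En (fun t (h : Z ≤ t) => show M.R < t by linarith) n'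
    linarith [mem_Ici.1 t1]⟩
  rw [f.eq p hp' gp]
  refine mul_le η0.le ((ps2 a _ U).1 p hp) (fun i => hB i p) (hq p ⟨hp,
    mem_closedBall_zero_iff.2 (by linarith)⟩ (G.ad fun _ => Z).sh (((adn (fun _ => Z) a.z₃
      (fun _ => fz) hz).2 p hp).1 (by linarith)).sh _ _
    (fun i => (jt_le (nb.core p hp (by linarith)).1 i).trans k6) ?_)
  nlinarith [t0_le U, norm_nonneg c, mul_nonneg (zero_le_one.trans K1) k0]

theorem good {s η C r K : ℝ} (o : G.Ok) (f : Fc a U c s η) (d : Fd a U c C r) (h1 : s ≤ r)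
    (h2 : C * s ≤ η) (C0 : 0 ≤ C) (K1 : 1 ≤ K) : (sf a.z₃ Z U c).Good (G.ρ + 6) η K := by
  have fz := f.z
  have z1 := o.ld.hi
  have z2 := G.hz
  exact ⟨d.ok, by change _ ≤ Z; linarith, fun ρ => (d.nb _ f.s h1).sm o f.s d.rot le_rfl C0 h2
    (fun j y m _ m' => (f.cy j y m m').2.1) fun _ => f.far, fun p hp => f.cd p (low_sub hp), d.orth,
    fun j y m m' => ((f.cy j y (by change Z - 2 ≤ _ at m; linarith) m').2.2 m).trans
      (div_le_div_of_nonneg_right K1 (by change _ ≤ Z; linarith)),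
    fun p hp m => f.eq0 p (low_sub hp) (by linarith)⟩

end Vale.Agent.P218B.Lf

namespace Vale.Agent.P218B

open Vale.Agent.P218.H313 Vale.Agent.P218D Vale.Agent.P218I Vale.Agent.P218I.GD Lf
open Vale.Agent.P218T hiding E3 Per

/-- **the geometric meaning of the real solutions** -/
theorem lfdr (eqr : EQR) (nrj : NRJ) (kq1 : KQ) (kj : KJ) (rlf : RLF) (okd : OKD) (nj : NJ)
    (cyn : CYN) (cyh : CYH) (psl : PSI) (adn : ADN) (sound : SOUND) (zon : ZON) (usv : USV)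
    (uzl : UZL) (gds : GDS) (hi : HI) (hb : HB) : LFDR := by
  intro M g
  obtain ⟨a₀, ha⟩ := lfd_of g
  obtain ⟨z, h⟩ := (okd.and (nj.and (cyh.and (psl.and (adn.and ((small kq1 cyh psl adn).and
    (fc eqr rlf cyn adn (bp sound zon usv uzl gds hi hb)))))))) M g
  refine ⟨max z a₀, fun k G hz o => ?_⟩
  obtain ⟨⟨C₁, c1, okd⟩, ⟨C₂, c2, nj⟩, cyh, ⟨nd, ps1, ps2⟩, adn, sm, fc⟩ :=
    h k G (le_of_max_le_left hz) o
  have z2 := o.ld.hi
  have z3 := G.hz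
  obtain ⟨η₀, η0, ha⟩ := ha (G.ρ + 6) (by linarith [le_of_max_le_right hz])
  have hA := (adn (fun _ => G.ρ + 12) (G.ρ + 9) (fun _ => le_rfl) le_rfl).2
  obtain ⟨r, C, r0, C1, hC, hn⟩ := near nrj kj o (fun x hx => ⟨(hA x hx).1, (hA x hx).2.1⟩) c2 nj C₁
  obtain ⟨δ₂, δ2, C₃, c3, cy2⟩ := cyh (G.ρ + 6)
  obtain ⟨e₀, e0, e1, fc⟩ := fc (min r (η₀ / C)) (by positivity) η₀ η0
  filter_upwards [fc, ev₀_K 1, ev₀_z fun _ _ => G.ρ + 9] with a fc K1 hz K₂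
  obtain ⟨Z₁, hZ⟩ := eventually_atTop.1 (fc.and (cy2 a.z₃ (by linarith)))
  have n0 : 0 ≤ (cH 2 : ℝ) * M.n₁ := by positivity
  have K3 : C * a.K ≤ C * a.K ^ 2 :=
    mul_le_mul_of_nonneg_left (le_self_pow₀ K1 two_ne_zero) (by linarith)
  have K4 : C ≤ C * a.K := le_mul_of_one_le_right (by linarith) K1
  obtain ⟨K, hK⟩ : ∃ K, K = C * a.K ^ 2 + C₃ + cH 2 * M.n₁ := ⟨_, rfl⟩
  have K0 : 0 < K := by linarith
  refine ⟨Z₁, fun Zs hZs _ => ha _ (ψL G) (sf a.z₃) (fun _ U p => (uu U p).re) K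
    (min (min (r / a.K) δ₂) (η₀ / K)) e₀ ?_⟩
  have hZ' := fun Z c b U (h : ((G.obj a).cs a K₂ Zs).RS e₀ Z c b U) => hZ Z (hZs.trans h.ad.hZ)
  have key := fun Z c b U h => (hZ' Z c b U h).1 K₂ Zs c b U h
  have ok : ∀ Z c b U, ((G.obj a).cs a K₂ Zs).RS e₀ Z c b U → Fd a U c C r := fun Z c b U h =>
    have f := key Z c b U h
    have m := okd a.z₃ Z U c (by linarith [f.z]) f.rl fun j y m m' => (f.cy j y m (by linarith)).1
    ⟨m.1, fun j => (m.2 j).1, fun j => (m.2 j).2.trans (mul_le_mul_of_nonneg_right hC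
      (norm_nonneg _)), fun s m1 m2 => (hn _ _ U c _ hz f.z m1 m2).1⟩
  refine ⟨fun _ _ _ => rfl, fun i => ⟨(ps1 i).1, (ps1 i).2.1, fun x m =>
    ((ps1 i).2.2.1 x m).trans (by linarith)⟩, nd, ⟨by positivity, K0.le, e0, e1,
    (le_div_iff₀' K0).1 (min_le_right _ _)⟩, rfl, fun Z c b U h => good o (key Z c b U h)
      (ok Z c b U h) (min_le_left _ _) ((le_div_iff₀' (by linarith)).1 (min_le_right _ _))
      (by linarith) (by linarith),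
    fun Z c b U h => ?_, fun Z c b U h p hp m => (key Z c b U h).eq0 p (low_sub hp) (by linarith),
    fun η η0 => (sm a C r η K1 hz C1 r0 η0).imp fun _ m => ⟨m.1, fun Z c b U h =>
      m.2 Z U c _ _ (key Z c b U h) (ok Z c b U h)⟩, fun Z c b U h m => ?_,
    fun Z c b U h Z' c' b' U' h' p hp m => ((hn _ _ U c _ hz (key Z c b U h).z (key Z c b U h).s
      (min_le_left _ _)).2 Z' U' c' (key _ _ _ _ h').z ((key _ _ _ _ h').s.trans (min_le_left _ _))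
      p hp (by linarith)).trans (mul_le_mul_of_nonneg_right (by linarith) (norm_nonneg _))⟩
  · obtain ⟨A, A0, k1, k2⟩ := (key Z c b U h).ar
    exact ⟨A, A0, k1, k2.trans (add_le_add_right (mul_le_mul_of_nonneg_right (by linarith)
      (Real.exp_pos _).le) _)⟩
  · have f := key Z c b U h
    have d := ok Z c b U h
    have fz := f.z
    have k0 := hs_nonneg (a := a) (U := U) (c := c)
    change (G.obj a).hs _ c U ≤ _ at m
    simp only [le_min_iff] at m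
    have k7 := f.bp.hs (U := U) (c := c) K1
    have nb := d.nb _ k7 ((le_div_iff₀' (by linarith)).1 m.1.1)
    refine ⟨nb.sm (ω := K * (G.obj a).hs _ c U) o k7 d.rot le_rfl
      (by linarith) ((mul_assoc _ _ _).ge.trans (mul_le_mul_of_nonneg_right (by linarith) k0))
      (fun j y n1 n2 _ => ((hZ' Z c b U h).2 U c j _ _ m.1.2 (f.bp.us j) (ph_le j) y n1 n2).mono'
        (mul_le_mul_of_nonneg_right (by linarith) k0)) fun n => absurd n (by linarith),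
      fun i => ⟨fun p hp n => (nb.qu p hp ((ps1 i).2.2.2 p hp n)).trans ?_,
        (ps2 a _ U).2 (fun _ => by linarith) (f.bp.aa U) i⟩⟩
    rw [mul_pow, ← mul_assoc]
    exact mul_le_mul_of_nonneg_right (by linarith) (sq_nonneg _)

end Vale.Agent.P218B
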