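import Vale.Agent.P218B.PhiA
import Vale.Agent.P218B.Desc
import Vale.Agent.P218B.Jac
import Vale.Agent.P218D.Defs

/-!
# P218B: the shrinker quantity of a level set in terms of a parametrisation
-/

noncomputable section

open Set Filter Topology Module
open scoped RealInnerProductSpace

namespace Vale.Agent.P218B

open Vale.Agent.P218N Vale.Agent.P218.H313 Vale.Agent.P218D

section zero

variable {D : Type*} [NormedAddCommGroup D] [NormedSpace ℝ D]

theorem d12_of_const {F : Type*} [NormedAddCommGroup F] [NormedSpace ℝ F] {f : D → F} {p : D}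
    {c : F} (h : f =ᶠ[𝓝 p] fun _ => c) : fderiv ℝ f p = 0 ∧ d2 f p = 0 :=
  ⟨by rw [h.fderiv_eq, fderiv_const_apply], by rw [d2_congr h, d2_const]⟩

/-- a function which is constant on a regular level set of `d` -/
theorem lagrange [CompleteSpace D] {F d : D → ℝ} {p : D} (hF : ContDiffAt ℝ 2 F p)
    (hd : ContDiffAt ℝ 2 d p) (h0 : fderiv ℝ d p ≠ 0)
    (h : ∀ᶠ y in 𝓝 p, d y = d p → F y = F p) : ∃ μ : ℝ, (∀ v, fderiv ℝ F p v = μ * fderiv ℝ d p v) ∧
      ∀ a b, fderiv ℝ d p a = 0 → fderiv ℝ d p b = 0 → d2 F p a b = μ * d2 d p a b := by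
  set l := fderiv ℝ d p with hl
  obtain ⟨n, hn⟩ : ∃ n, l n = 1 := by
    obtain ⟨v, hv⟩ := DFunLike.ne_iff.1 h0
    exact ⟨(l v)⁻¹ • v, by rw [map_smul, smul_eq_mul, inv_mul_cancel₀ hv]⟩
  set L : ℝ →L[ℝ] D := (ContinuousLinearMap.id ℝ ℝ).smulRight n
  set u : D → ℝ := fun x => d x - l x
  have hu : ContDiffAt ℝ 2 u p := hd.sub l.contDiff.contDiffAt
  have u1 : HasFDerivAt u (0 : D →L[ℝ] ℝ) p := by
    simpa only [← hl, sub_self] using (hasD1 hd).fun_sub l.hasFDerivAt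
  set G : D → D := fun x => (x - L (u p)) + L (u x) with hG
  have c1 : ContDiffAt ℝ 2 (fun x => x - L (u p)) p := contDiffAt_id.sub contDiffAt_const
  have c2 : ContDiffAt ℝ 2 (fun x => L (u x)) p := L.contDiff.contDiffAt.comp p hu
  have hc : ContDiffAt ℝ 2 G p := c1.add c2
  have G0 : G p = p := by simp [G]
  have G1 : HasFDerivAt G (ContinuousLinearEquiv.refl ℝ D : D →L[ℝ] D) p := by
    simpa using ((hasFDerivAt_id p).sub_const (L (u p))).fun_add (L.hasFDerivAt.comp p u1)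
  have G2 : ∀ a b, d2 G p a b = d2 d p a b • n := fun a b => by
    rw [hG, d2_add c1 c2, d2_sub (f := fun x => x) contDiffAt_id contDiffAt_const, d2_id, d2_const,
      sub_self, zero_add, d2_comp L.contDiff.contDiffAt hu, d2_clm, d2_sub hd l.contDiff.contDiffAt, d2_clm]
    simp [L]
  have s := hc.hasStrictFDerivAt' G1 (by simp)
  set g := hc.localInverse G1 (by simp)
  have g0 : g p = p := by simpa only [G0] using hc.localInverse_apply_image G1 (by simp)
  have g1 : ContDiffAt ℝ 2 g p := by simpa only [G0] using hc.to_localInverse G1 (by simp)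
  have g2 : ∀ᶠ y in 𝓝 p, G (g y) = y := by
    have := s.eventually_right_inverse
    rwa [G0] at this
  have g3 : ∀ᶠ y in 𝓝 p, g (G y) = y := s.eventually_left_inverse
  have hK : ContDiffAt ℝ 2 (fun y => F (g y)) p := ContDiffAt.comp p (by rwa [g0]) g1
  set K := fun y => F (g y)
  have e : F =ᶠ[𝓝 p] fun y => K (G y) := g3.mono fun y k => by simp only [K, k]
  have z : ∀ᶠ y in 𝓝 p, l y = l p → K y = F p := by
    filter_upwards [g2, g1.continuousAt.eventually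
      (show ∀ᶠ y in 𝓝 (g p), d y = d p → F y = F p by rwa [g0])] with y k1 k2 k3
    refine k2 ?_
    have := congrArg l k1
    simp [G, L, u, hn, k3] at this
    linarith
  have t : ∀ a b, l a = 0 → l b = 0 → fderiv ℝ K p a = 0 ∧ d2 K p a b = 0 := fun a b ha hb => by
    set I : ℝ × ℝ →L[ℝ] D := (ContinuousLinearMap.fst ℝ ℝ ℝ).smulRight a +
      (ContinuousLinearMap.snd ℝ ℝ ℝ).smulRight b
    have i0 : p + I 0 = p := by simp
    have i1 : ContDiffAt ℝ 2 (fun q => p + I q) 0 := contDiffAt_const.add I.contDiff.contDiffAt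
    have i2 : fderiv ℝ (fun q => p + I q) 0 = I := (I.hasFDerivAt.const_add p).fderiv
    have i3 : d2 (fun q => p + I q) 0 = 0 := by
      rw [d2_add contDiffAt_const I.contDiff.contDiffAt, d2_const, d2_clm, add_zero]
    obtain ⟨k1, k2⟩ := d12_of_const (f := fun q => K (p + I q)) (p := 0) (c := F p) (by
      filter_upwards [i1.continuousAt.eventually
        (show ∀ᶠ y in 𝓝 (p + I 0), l y = l p → K y = F p by rwa [i0])] with q k
      exact k (by simp [I, ha, hb]))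
    have k3 := d1_comp (φ := K) (by rwa [i0]) i1 (1, 0)
    have k4 := d2_comp (φ := K) (by rwa [i0]) i1 (1, 0) (0, 1)
    rw [k1, i2, i0] at k3
    rw [k2, i2, i3, i0] at k4
    exact ⟨by simpa [I] using k3.symm, by simpa [I] using k4.symm⟩
  have f1 : ∀ v, fderiv ℝ F p v = fderiv ℝ K p v := fun v => by
    rw [e.fderiv_eq, d1_comp (φ := K) (by rwa [G0]) hc, G0, G1.fderiv]
    rfl
  refine ⟨fderiv ℝ K p n, fun v => ?_, fun a b ha hb => ?_⟩
  · have := (t (v - l v • n) 0 (by simp [hn]) (map_zero _)).1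
    rw [map_sub, map_smul, smul_eq_mul] at this
    rw [f1]
    linarith
  · rw [d2_congr e, d2_comp (φ := K) (by rwa [G0]) hc, G0, G1.fderiv, G2, map_smul, smul_eq_mul,
      mul_comm]
    simp [(t a b ha hb).2]

end zero

/-- Euclidean three-space -/
abbrev E3 := EuclideanSpace ℝ (Fin 3)

/-- the standard basis -/
abbrev e3 (i : Fin 3) : E3 := EuclideanSpace.single i 1

theorem inner_eq_dt (a b : E3) : ⟪a, b⟫ = dt a.ofLp b.ofLp := by
  simp [PiLp.inner_apply, Fin.sum_univ_three, dt, mul_comm]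

theorem ap_e3 (a : E3) : ap e3 a.ofLp = a := by
  ext i
  fin_cases i <;> simp [ap]

theorem map_ap {D F : Type*} [NormedAddCommGroup D] [NormedSpace ℝ D] [NormedAddCommGroup F]
    [NormedSpace ℝ F] (L : D →L[ℝ] F) (e : Fin 3 → D) (v : Fin 3 → ℝ) :
    L (ap e v) = ap (fun b => L (e b)) v := by
  simp [ap]

theorem ofLp_ap (e : Fin 3 → E3) (v : Fin 3 → ℝ) :
    (ap e v).ofLp = ap (fun b => (e b).ofLp) v := by
  simp [ap]

theorem ap_real (l v : Fin 3 → ℝ) : ap l v = dt l v := by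
  simp only [ap, dt, smul_eq_mul]
  ring

section phi

variable {D : Type*} [NormedAddCommGroup D] [NormedSpace ℝ D]

/-- the first derivatives of `X` along the frame `e` -/
def j1 (X : D → E3) (p : D) (e : Fin 3 → D) (b : Fin 3) : Fin 3 → ℝ := (fderiv ℝ X p (e b)).ofLp

/-- the second derivatives of `X` along the frame `e` -/
def j2 (X : D → E3) (p : D) (e : Fin 3 → D) (c b : Fin 3) : Fin 3 → ℝ := (d2 X p (e c) (e b)).ofLp

/-- `X · N + 2 B / G` -/
def eqn (X : Fin 3 → ℝ) (A : Fin 3 → Fin 3 → ℝ) (A₂ : Fin 3 → Fin 3 → Fin 3 → ℝ) (m : Fin 3 → ℝ)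
    (m₁ : Fin 3 → Fin 3 → ℝ) : ℝ := dt X (nn A m) + 2 * bb A A₂ m m₁ / P218N.gg A m

theorem phiS_jet {w : E3 → ℝ} (hw : ContDiff ℝ 2 w) {X : D → E3} {p : D} (hX : ContDiffAt ℝ 2 X p)
    {e : Fin 3 → D} {m : Fin 3 → ℝ} {m₁ : Fin 3 → Fin 3 → ℝ} {μ : ℝ}
    (h1 : ∀ b, fderiv ℝ (fun y => w (X y)) p (e b) = μ * m b)
    (h2 : ∀ a b, dt m a = 0 → dt m b = 0 →
      d2 (fun y => w (X y)) p (ap e a) (ap e b) = μ * dt (ap m₁ a) b)
    (hG : P218N.gg (j1 X p e) m ≠ 0) (hg : grad w (X p) ≠ 0) :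
    2 * P218N.gg (j1 X p e) m * ‖grad w (X p)‖ * phiS w (X p) =
      -dt (grad w (X p)).ofLp (nn (j1 X p e) m) * eqn (X p).ofLp (j1 X p e) (j2 X p e) m m₁ ∧
    ∀ i, P218N.gg (j1 X p e) m * grad w (X p) i =
      dt (grad w (X p)).ofLp (nn (j1 X p e) m) * nn (j1 X p e) m i := by
  set H : Fin 3 → Fin 3 → ℝ := fun i j => d2 w (X p) (e3 i) (e3 j) with hH
  have q : ∀ a b : E3, d2 w (X p) a b = dt (ap H a.ofLp) b.ofLp := fun a b => by
    conv_lhs => rw [← ap_e3 a, ← ap_e3 b]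
    simp only [ap, dt, map_add, map_smul, add_apply, smul_apply, smul_eq_mul, Pi.add_apply,
      Pi.smul_apply, H]
    ring
  have k1 : ∀ b, dt (grad w (X p)).ofLp (j1 X p e b) = μ * m b := fun b => by
    rw [← h1, d1_comp hw.contDiffAt hX, j1, ← inner_eq_dt, inner_grad]
  have n0 : ‖grad w (X p)‖ ≠ 0 := norm_ne_zero_iff.2 hg
  have n1 : dt (grad w (X p)).ofLp (grad w (X p)).ofLp = ‖grad w (X p)‖ ^ 2 := by
    rw [← inner_eq_dt, real_inner_self_eq_norm_sq]
  have := phi_alg H m₁ (j2 X p e) (X p).ofLp k1 hG (by rw [n1]; positivity) fun a b ha hb => by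
    have e1 : ∀ v, ap (j1 X p e) v = (fderiv ℝ X p (ap e v)).ofLp := fun v => by
      rw [map_ap, ofLp_ap]
      rfl
    have e2 : ap (ap (j2 X p e) a) b = (d2 X p (ap e a) (ap e b)).ofLp := by
      funext i
      simp only [ap, j2, map_add, map_smul, add_apply, smul_apply, smul_eq_mul, Pi.add_apply,
        Pi.smul_apply, PiLp.add_apply, PiLp.smul_apply]
    rw [← h2 a b ha hb, d2_comp hw.contDiffAt hX, q, e1, e1, e2, ← inner_eq_dt (grad _ _),
      inner_grad]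
  refine ⟨?_, par k1⟩
  have t : tr (fderiv ℝ (grad w) (X p)) = H 0 0 + H 1 1 + H 2 2 := by
    rw [tr, LinearMap.trace_eq_sum_inner _ (EuclideanSpace.basisFun (Fin 3) ℝ), Fin.sum_univ_three]
    simp only [EuclideanSpace.basisFun_apply, ContinuousLinearMap.coe_coe,
      real_inner_comm (fderiv ℝ (grad w) (X p) _), inner_fderiv_grad hw, H]
  rw [eqn, ← this, phiS, t, inner_fderiv_grad hw, q, n1, inner_eq_dt]
  field_simp

/-- **ambient form**: `X` maps the level set of `d` through `p` into a level set of `w` -/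
theorem phiS_amb {w d : E3 → ℝ} (hw : ContDiff ℝ 2 w) {X : E3 → E3} {p : E3}
    (hX : ContDiffAt ℝ 2 X p) (hd : ContDiffAt ℝ 2 d p)
    (h : ∀ᶠ y in 𝓝 p, d y = d p → w (X y) = w (X p)) {m : Fin 3 → ℝ} {m₁ : Fin 3 → Fin 3 → ℝ}
    (hm : ∀ b, m b = fderiv ℝ d p (e3 b)) (hm₁ : ∀ c b, m₁ c b = d2 d p (e3 c) (e3 b))
    (hG : P218N.gg (j1 X p e3) m ≠ 0) (hg : grad w (X p) ≠ 0) :
    2 * P218N.gg (j1 X p e3) m * ‖grad w (X p)‖ * phiS w (X p) =
      -dt (grad w (X p)).ofLp (nn (j1 X p e3) m) * eqn (X p).ofLp (j1 X p e3) (j2 X p e3) m m₁ ∧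
    ∀ i, P218N.gg (j1 X p e3) m * grad w (X p) i =
      dt (grad w (X p)).ofLp (nn (j1 X p e3) m) * nn (j1 X p e3) m i := by
  obtain ⟨μ, k1, k2⟩ := lagrange (F := fun y => w (X y)) (hw.contDiffAt.comp p hX) hd (fun k =>
    hG (by simp [P218N.gg, nn, dt, hm, k])) h
  have e1 : ∀ a, fderiv ℝ d p (ap e3 a) = dt m a := fun a => by
    rw [map_ap, ap_real, funext hm]
  refine phiS_jet hw hX (μ := μ) (fun b => by rw [k1, hm]) (fun a b ha hb => ?_) hG hg
  rw [k2 _ _ (by rwa [e1]) (by rwa [e1])]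
  simp only [ap, dt, map_add, map_smul, add_apply, smul_apply, smul_eq_mul, Pi.add_apply,
    Pi.smul_apply, hm₁]
  ring

/-- the frame of a chart -/
def e2 : Fin 3 → ℝ × ℝ := ![(1, 0), (0, 1), 0]

/-- the conormal of a chart -/
def m2 : Fin 3 → ℝ := ![0, 0, 1]

/-- **chart form** -/
theorem phiS_par {w : E3 → ℝ} (hw : ContDiff ℝ 2 w) {X : ℝ × ℝ → E3} {p : ℝ × ℝ}
    (hX : ContDiffAt ℝ 2 X p) {c : ℝ} (h : ∀ᶠ y in 𝓝 p, w (X y) = c)
    (hG : P218N.gg (j1 X p e2) m2 ≠ 0) (hg : grad w (X p) ≠ 0) :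
    2 * P218N.gg (j1 X p e2) m2 * ‖grad w (X p)‖ * phiS w (X p) =
      -dt (grad w (X p)).ofLp (nn (j1 X p e2) m2) *
        eqn (X p).ofLp (j1 X p e2) (j2 X p e2) m2 0 ∧
    ∀ i, P218N.gg (j1 X p e2) m2 * grad w (X p) i =
      dt (grad w (X p)).ofLp (nn (j1 X p e2) m2) * nn (j1 X p e2) m2 i := by
  obtain ⟨k1, k2⟩ := d12_of_const (f := fun y => w (X y)) h
  exact phiS_jet hw hX (μ := 0) (fun b => by simp [k1]) (fun a b _ _ => by simp [k2]) hG hg

theorem nn_par (X : ℝ × ℝ → E3) (p : ℝ × ℝ) : nn (j1 X p e2) m2 =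
    cr (fderiv ℝ X p (1, 0)).ofLp (fderiv ℝ X p (0, 1)).ofLp := by
  simp [nn, m2, j1, e2]

theorem gr2_eq (a b : E3) : gr2 a b = dt (cr a.ofLp b.ofLp) (cr a.ofLp b.ofLp) := by
  rw [gr2, ← real_inner_self_eq_norm_sq, ← real_inner_self_eq_norm_sq]
  simp only [inner_eq_dt, dt, cr0, cr1, cr2]
  ring

theorem gg_par (X : ℝ × ℝ → E3) (p : ℝ × ℝ) : P218N.gg (j1 X p e2) m2 =
    gr2 (fderiv ℝ X p (1, 0)) (fderiv ℝ X p (0, 1)) := by
  rw [P218N.gg, nn_par, gr2_eq]

end phi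

/-- the Jacobian on the plane orthogonal to the unit vector `n` -/
theorem jacT_gg (A : E3 →L[ℝ] E3) {n : E3} (hn : ‖n‖ = 1) :
    jacT A (ℝ ∙ n)ᗮ = √(P218N.gg (fun b => (A (e3 b)).ofLp) n.ofLp) := by
  rw [jacT_eq, proj_perp hn]
  congr 1
  have h : n 0 * n 0 + n 1 * n 1 + n 2 * n 2 = 1 := by
    rw [← dt, ← inner_eq_dt, real_inner_self_eq_norm_sq, hn, one_pow]
  set a : Fin 3 → Fin 3 → ℝ := fun b => (A (e3 b)).ofLp
  set c : Fin 3 → Fin 3 → ℝ := fun k => a k - n k • ap a n.ofLp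
  have i0 : ∀ k, ⟪n, e3 k⟫ = n k := fun k => by simp [EuclideanSpace.inner_single_right]
  have c0 : ∀ k, (A (nP n (e3 k))).ofLp = c k := fun k => by
    rw [nP_apply, i0, map_sub, map_smul]
    conv_lhs => rw [← ap_e3 n, map_ap]
    simp [c, a, ofLp_ap, ap_e3]
  have e : LinearMap.toMatrix (EuclideanSpace.basisFun (Fin 3) ℝ).toBasis
      (EuclideanSpace.basisFun (Fin 3) ℝ).toBasis (grm A (nP n)).toLinearMap =
      .of fun i j => n i * n j + dt (c i) (c j) := by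
    ext i j
    have s : ∀ v, ⟪e3 i, nP n v⟫ = ⟪nP n (e3 i), v⟫ := fun v => by
      simp only [nP_apply, inner_sub_left, inner_sub_right, real_inner_smul_left,
        real_inner_smul_right, real_inner_comm n]
      ring
    rw [LinearMap.toMatrix_apply, OrthonormalBasis.coe_toBasis_repr_apply,
      OrthonormalBasis.repr_apply_apply, OrthonormalBasis.coe_toBasis,
      EuclideanSpace.basisFun_apply, EuclideanSpace.basisFun_apply, Matrix.of_apply, ← c0, ← c0,
      ← inner_eq_dt, ← ContinuousLinearMap.adjoint_inner_right, ← s, ← i0 j, mul_comm,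
      ← i0 i, real_inner_comm (e3 i), ← real_inner_smul_right, ← inner_add_right]
    simp [grm, nP_apply]
  have e1 : dd c = (1 - (n 0 * n 0 + n 1 * n 1 + n 2 * n 2)) * dd a := by
    simp only [dd, dt, c, ap, cr0, cr1, cr2, Pi.add_apply, Pi.sub_apply, Pi.smul_apply, smul_eq_mul]
    ring
  have e2 : nn c n.ofLp = nn a n.ofLp := by
    refine ext3 ?_ ?_ ?_ <;>
      simp only [nn, c, ap, cr0, cr1, cr2, Pi.add_apply, Pi.sub_apply, Pi.smul_apply,
        smul_eq_mul] <;> ring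
  rw [h, sub_self, zero_mul] at e1
  rw [ContinuousLinearMap.det, ← LinearMap.det_toMatrix (EuclideanSpace.basisFun (Fin 3) ℝ).toBasis,
    e, P218N.gg, ← e2, Matrix.det_fin_three]
  simp only [Matrix.of_apply, dd, dt, nn, cr0, cr1, cr2, Pi.add_apply, Pi.smul_apply,
    smul_eq_mul] at e1 ⊢
  linear_combination (c 0 0 * (c 1 1 * c 2 2 - c 1 2 * c 2 1) + c 0 1 * (c 1 2 * c 2 0 -
    c 1 0 * c 2 2) + c 0 2 * (c 1 0 * c 2 1 - c 1 1 * c 2 0)) * e1

end Vale.Agent.P218B
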