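import Vale.Agent.P218B.Gl
import Vale.Agent.P218I.Bas
import Vale.Agent.P218N.Spec3

/-!
# P218B: the surfaces of the real solutions; statements of the rows
-/

noncomputable section

open MeasureTheory Set Filter Topology
open scoped ENNReal RealInnerProductSpace Real ComplexConjugate

namespace Vale.Agent.P218B

open Vale.Agent.P218.H313 Vale.Agent.P218D Vale.Agent.P218I Vale.Agent.P218I.GD
open Vale.Agent.P218T hiding E3 Per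
open Vale.Agent.P218N (V3 cx nu sig AD Pi' Jt jt dt rh0)
open Vale.Agent.P218L (LD ga pN pH)
open Vale.Agent.P218W (XE XK wj omK)
open Vale.Agent.P218H (st)

/-- the real part of a complex vector -/
def re3 (v : V3) : E3 := WithLp.toLp 2 fun i => (v i).re

/-- the real rotation with Cayley parameter `ω` -/
def rotR (ω : V3) : E3 →L[ℝ] E3 := LinearMap.toContinuousLinearMap
  { toFun v := re3 (P218N.cay ω (cx v))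
    map_add' a b := by
      ext i
      fin_cases i <;> simp [re3, P218N.cay, cx, P218N.cr] <;> ring
    map_smul' s a := by
      ext i
      fin_cases i <;> simp [re3, P218N.cay, cx, P218N.cr] <;> ring }

theorem rotR_apply (ω : V3) (v : E3) : rotR ω v = re3 (P218N.cay ω (cx v)) := rfl

theorem hm_eq (w : E3 → ℝ) : hm 2 w = cH 2 • sig w := by
  rw [hm, sig, Measure.euclideanHausdorffMeasure_def, Measure.restrict_smul, smul_smul, cH,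
    inv_mul_cancel₀ (Measure.addHaarScalarFactor_volume_hausdorffMeasure_ne_zero 2), one_smul]

section
variable {ι α : Type} [Fintype ι] [Fintype α] (D : AD ι α)

/-- the real map given by the height `φ` -/
def XR (φ : E3 → ℂ) (t : Pi' ι α) (x : E3) : E3 := re3 (D.Xm φ t x)

/-- the factor of the Lagrange terms -/
def kq (x : E3) (j : Jt) (t : Pi' ι α) : ℂ := rh0 x /
  (D.Om x t (dt (D.XX (x, j none none, t)) (D.XX (x, j none none, t))) * D.fn x j t)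

end

variable {M : Mod} {k : ℕ} {G : GD M k}

/-- the parameters without observables -/
def t0 {Z : Fin M.n₁ → ℝ} (U : G.XX Z) : Pi' (Fin M.n₁) (Fin k) := (U.2.2.1, U.2.2.2, 0, 0, 0)

/-- real unknowns -/
structure Rl {Z : Fin M.n₁ → ℝ} (U : G.XX Z) (c : Fin M.n₁ → ℂ) : Prop where
  c : star c = c
  U : (star U.1, cX U.2.1, star U.2.2) = U

/-- the heights on the ends -/
def DR (z₃ : ℝ) {Z : Fin M.n₁ → ℝ} (U : G.XX Z) (c : Fin M.n₁ → ℂ) : M.I → ℝ × ℝ → ℝ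
  | .inl j => fun y => √(Vt z₃ (U, bs c 1) j y 0).re - (√2 + M.f j y)
  | .inr l => fun y => (LD.jx U.2.1 (.inr l) 0 y).re

/-- **the surface** -/
def sf (z₃ Z : ℝ) (U : G.XX fun _ => Z) (c : Fin M.n₁ → ℂ) : Dt M where
  X := XR (G.ad fun _ => Z) (ft z₃ (U, bs c 1)) (t0 U)
  Z := Z
  Rt j := rotR (ro U j)
  D := DR z₃ U c

variable (G) in
/-- the constraints -/
def ψL : Fin k ⊕ Fin M.n₁ → E3 → ℝ := Sum.elim G.ψ fun j x =>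
  (G.ka j).re⁻¹ * ((1 - st (G.ρ + 2) x) * (G.b (j, 0) x).re)

/-! ### rows about the ansatz -/

/-- the integrand and the equation for real data -/
def EQR : Prop := ∀ (ι α : Type) [Fintype ι] [Fintype α] (D : AD ι α), D.Re →
  ∀ (x : E3) (φ : E3 → ℂ) (t : Pi' ι α), D.Rg x (φ x) t → ContDiffAt ℝ 2 φ x → star φ = φ →
    star t = t → t.2.2.2.1 = 0 → ContDiffAt ℝ 2 (XR D φ t) x ∧
    (D.If x (jt φ x) t).re = rho (XR D φ t x) * √(gX D.w (XR D φ t) x) ∧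
    (D.E x (jt φ x) t = 0 → (D.lag x t = 0 → eqX D.w (XR D φ t) x = 0) ∧
      (0 ≤ gX D.w (XR D φ t) x → eqX D.w (XR D φ t) x =
        -2 * √(gX D.w (XR D φ t) x) * (kq D x (jt φ x) t * D.lag x t).re))

/-- uniform expansions on compact sets -/
def NRJ : Prop := ∀ (ι α : Type) [Fintype ι] [Fintype α] (D : AD ι α) (K : Set E3), IsCompact K →
  (∀ p ∈ K, D.Nr p) → ∃ r C : ℝ, 0 < r ∧ 0 ≤ C ∧ ∀ p ∈ K,
    (∀ φ t δ, δ ≤ r → J2 φ p δ δ δ → ‖t‖ ≤ δ →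
      J2 (fun x => XR D φ t x - x) p (C * δ) (C * δ) (C * δ)) ∧
    (∀ a t a' t', ‖a‖ ≤ r → ‖t‖ ≤ r → ‖a'‖ ≤ r → ‖t'‖ ≤ r →
      ‖re3 (D.XX (p, a, t)) - re3 (D.XX (p, a', t'))‖ ≤ C * (‖a - a'‖ + ‖t - t'‖)) ∧
    ∀ a t, ‖a‖ ≤ r → (∀ j, D.rot j p = 0) →
      |⟪re3 (D.XX (p, a, t)) - p, grad D.w p⟫ - a.re| ≤ C * ‖a‖ ^ 2

/-- the factor of the Lagrange terms is close to `1` -/
def KQ : Prop := ∀ (ι α : Type) [Fintype ι] [Fintype α] (D : AD ι α) (K : Set E3), IsCompact K →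
  (∀ p ∈ K, D.Nr p) → ∀ ε > (0 : ℝ), ∃ r > (0 : ℝ), ∀ p ∈ K, ∀ s : ι → E3 → ℝ,
    (∀ l, s l =ᶠ[𝓝 p] fun _ => 0) → ∀ j t, (∀ i, ‖j none i‖ ≤ r) → ‖t‖ ≤ r →
      ‖kq { D with sh := s } p j t - 1‖ ≤ ε

/-! ### rows about the ends -/

/-- pointwise bounds below the boundary layer -/
def FJ : Prop := ∃ C : ℝ, 0 ≤ C ∧ ∀ (R Z : ℝ) (c : ℂ) (v : XE R Z), 2 ≤ R → ‖c‖ * Z ^ 2 ≤ 1 / 2 →
  ∀ y : ℝ × ℝ, R < y.1 → y.1 ≤ Z - 1 →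
    J2 (v.1 0) y (C * pN c R Z v) (C * pN c R Z v) (C * pN c R Z v) ∧
    ‖fderiv ℝ (v.1 0) y (1, 0)‖ ≤ C * pN c R Z v / y.1 ∧
    J2 (v.1 0) y (C * y.1 ^ 5 * pH 0 R Z v) (C * y.1 ^ 5 * pH 0 R Z v) (C * y.1 ^ 5 * pH 0 R Z v)

/-- the radius in terms of the squared radius -/
def SQ : Prop := ∀ M : Mod, M.Geo → ∃ ε₀ C : ℝ, 0 < ε₀ ∧ 0 ≤ C ∧ ∀ j (u : ℝ × ℝ → ℂ) (y : ℝ × ℝ)
  (ε : ℝ), M.R < y.1 → ε ≤ ε₀ → J2 u y ε ε ε → 1 ≤ (VS (M.f j) y + u y).re ∧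
    J2 (fun p => √(VS (M.f j) p + u p).re - (√2 + M.f j p)) y (C * ε) (C * ε) (C * ε)

/-- conical ends at the scale `z` -/
def KJ : Prop := ∃ C : ℝ, 0 ≤ C ∧ ∀ (R : ℝ) (J : XK R) (z θ : ℝ), 0 < R → R < z →
  J2 (fun y : ℝ × ℝ => z⁻¹ * (wj omK (fun i => J.1 i.castSucc) 0 (z * y.1, y.2)).re) (1, θ)
    (C * ‖J‖) (C * ‖J‖) (C * ‖J‖)

/-! ### rows about the object -/

/-- reality -/
def RLF : Prop := Row fun _ _ G => ∀ Z z₃ (U : G.XX Z) c, Rl U c →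
  star (ft z₃ (U, bs c 1)) = ft z₃ (U, bs c 1) ∧ star (t0 U) = t0 U ∧
    ∀ j y, conj (Vt z₃ (U, bs c 1) j y 0) = Vt z₃ (U, bs c 1) j y 0

/-- the map on the ends -/
def OKD : Prop := Row fun _ _ G => ∃ C : ℝ, 0 ≤ C ∧ ∀ z₃ Z (U : G.XX fun _ => Z) c, G.ρ + 9 ≤ Z →
  Rl U c → (∀ j (y : ℝ × ℝ), G.ρ + 6 ≤ y.1 → y.1 ≤ Z - 2 → 0 ≤ (Vt z₃ (U, bs c 1) j y 0).re) →
  (sf z₃ Z U c).Ok (G.ρ + 6) ∧ ∀ j, (∀ v, ‖(sf z₃ Z U c).Rt j v‖ = ‖v‖) ∧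
    ‖(sf z₃ Z U c).Rt j - .id ℝ E3‖ ≤ C * ‖U.2.2.1‖

/-- the height in the compact zone -/
def NJ : Prop := Row fun M _ G => ∃ C : ℝ, 0 ≤ C ∧ ∀ z₃ Z (U : G.XX Z) c, G.ρ + 9 ≤ z₃ →
  (∀ j, G.ρ + 12 ≤ Z j) → ∀ p ∈ M.S, (‖p‖ ≤ G.ρ + 8 → J2 (ft z₃ (U, bs c 1)) p
    (C * (zn U + ‖c‖)) (C * (zn U + ‖c‖)) (C * (zn U + ‖c‖))) ∧ (‖p‖ ≤ G.ρ + 5 →
      ft z₃ (U, bs c 1) p = uu U p ∧ ∀ Z' (U' : G.XX Z'), (∀ j, G.ρ + 12 ≤ Z' j) →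
        ‖uu U p - uu U' p‖ ≤ C * ‖G.coo Z U - G.coo Z' U'‖)

/-- the height on the cylindrical ends, natural norm -/
def CYN : Prop := Row fun M _ G => ∀ ε > (0 : ℝ), ∃ δ > (0 : ℝ), ∀ᶠ z₃ in atTop, ∀ᶠ Z in atTop,
  ∀ (U : G.XX fun _ => Z) (c : Fin M.n₁ → ℂ) j, ‖c j‖ * Z ^ 2 ≤ δ → pN (c j) G.z₀ Z (U.2.1.1 j) ≤ δ →
    ∀ y : ℝ × ℝ, G.ρ + 6 ≤ y.1 → y.1 ≤ Z - 1 → 0 ≤ (Vt z₃ (U, bs c 1) j y 0).re ∧
      J2 (DR z₃ U c (.inl j)) y ε ε ε ∧ (Z - 2 ≤ y.1 →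
        |fderiv ℝ (fun p => M.f j p + DR z₃ U c (.inl j) p) y (1, 0)| ≤ 1 / Z)

/-- the same, heavy norm -/
def CYH : Prop := Row fun M _ G => ∀ R : ℝ, ∃ δ > (0 : ℝ), ∃ C : ℝ, 0 ≤ C ∧ ∀ z₃ > (0 : ℝ),
  ∀ᶠ Z in atTop, ∀ (U : G.XX fun _ => Z) (c : Fin M.n₁ → ℂ) j (v : XE G.z₀ Z) (ε : ℝ), ε ≤ δ →
    (∀ z ∈ Icc G.z₀ Z, ∀ θ, v.1 0 (z, θ) = usf M z₃ j Z (z, θ)) →
    pH 0 G.z₀ Z (U.2.1.1 j - v) + ‖c‖ ≤ ε → ∀ y : ℝ × ℝ, G.ρ + 6 ≤ y.1 → y.1 ≤ R →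
      J2 (DR z₃ U c (.inl j)) y (C * ε) (C * ε) (C * ε)

/-- the constraints -/
def PSI : Prop := Row fun M _ G => ND 2 M.w (ψL G) ∧
  (∀ i, ContDiff ℝ 1 (ψL G i) ∧ HasCompactSupport (ψL G i) ∧
    (∀ x, ψL G i x ≠ 0 → ‖x‖ ≤ G.ρ + 3) ∧ ∀ p ∈ M.S, ψL G i p ≠ 0 → ‖p‖ ≤ G.ρ + 2) ∧
  ∀ (a : Cs) Z (U : G.XX Z), (∀ p ∈ M.S,
    (G.ad Z).lag p (t0 U) = ∑ i, (G.obj a).lm Z U i * ψL G i p) ∧ ((∀ j, G.ρ + 9 ≤ Z j) →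
    (∀ i, G.AA Z U i = ∫ p, wc U p * G.ψ i p ∂ga M.w) → ∀ i,
      Integrable (fun p => (uu U p).re * ψL G i p * rho p) (hm 2 M.w) ∧
      ∫ p, (uu U p).re * ψL G i p * rho p ∂hm 2 M.w = cH 2 * ((G.obj a).xx Z U i).re)

end Vale.Agent.P218B
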