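import Vale.Agent.P218N.Alg

/-!
# P218B: the algebra behind the formula for the mean curvature of a parametrised level set
-/

namespace Vale.Agent.P218B

open Vale.Agent.P218N

variable (A D D' H m₁ : Fin 3 → Fin 3 → ℝ) (A₂ : Fin 3 → Fin 3 → Fin 3 → ℝ) (m g : Fin 3 → ℝ)

/-- `∑ v_b A_b` -/
def ap {F : Type*} [AddCommGroup F] [Module ℝ F] (A : Fin 3 → F) (v : Fin 3 → ℝ) : F :=
  v 0 • A 0 + v 1 • A 1 + v 2 • A 2

/-- three vectors spanning the plane orthogonal to `m` -/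
def tg (m : Fin 3 → ℝ) : Fin 3 → Fin 3 → ℝ := ![![0, -m 2, m 1], ![m 2, 0, -m 0], ![-m 1, m 0, 0]]

theorem tg0 : tg m 0 = ![0, -m 2, m 1] := rfl
theorem tg1 : tg m 1 = ![m 2, 0, -m 0] := rfl
theorem tg2 : tg m 2 = ![-m 1, m 0, 0] := rfl

theorem dt_tg (c : Fin 3) : dt m (tg m c) = 0 := by
  fin_cases c <;> simp [tg, dt] <;> ring

theorem dt_self_nonneg (v : Fin 3 → ℝ) : 0 ≤ dt v v := by
  simp only [dt]
  nlinarith [sq_nonneg (v 0), sq_nonneg (v 1), sq_nonneg (v 2)]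

theorem i1 : dt (nn A m) (kk (fun b => ap H (A b)) A m) =
    gg A m * (H 0 0 + H 1 1 + H 2 2) - dt (ap H (nn A m)) (nn A m) := by
  simp only [gg, dt, nn, kk, ap, Pi.add_apply, Pi.sub_apply, Pi.smul_apply, smul_eq_mul, cr0, cr1,
    cr2]
  ring

theorem i2 : dt (nn A m) (kk D A m) =
    ∑ c, ∑ c', dt (A c) (A c') * dt (ap D (tg m c)) (ap A (tg m c')) := by
  simp only [Fin.sum_univ_three, tg0, tg1, tg2, dt, nn, kk, ap, Pi.add_apply, Pi.sub_apply,
    Pi.smul_apply, smul_eq_mul, cr0, cr1, cr2, Matrix.cons_val_zero, Matrix.cons_val_one,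
    Matrix.cons_val_two, Matrix.head_cons, Matrix.tail_cons]
  ring

theorem i3 (e v : Fin 3 → ℝ) (hv : dt m v = 0) : dt (ap (dn A A₂ m m₁) e) (ap A v) =
    dd A * dt (ap m₁ e) v - dt (nn A m) (ap (ap A₂ e) v) := by
  simp only [dn, dd, dt, nn, kk, ap, Pi.add_apply, Pi.sub_apply, Pi.smul_apply, smul_eq_mul, cr0,
    cr1, cr2] at hv ⊢
  linear_combination (norm := skip) (dt (ap A₂ e 0) (cr (A 1) (A 2)) +
    dt (ap A₂ e 1) (cr (A 2) (A 0)) + dt (ap A₂ e 2) (cr (A 0) (A 1))) * hv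
  simp only [dt, ap, Pi.add_apply, Pi.smul_apply, smul_eq_mul, cr0, cr1, cr2]
  ring

theorem nn_dt (b : Fin 3) : dt (nn A m) (A b) = dd A * m b := by
  fin_cases b <;> simp [dt, nn, dd] <;> ring

variable {A m g} {μ : ℝ}

theorem par (h : ∀ b, dt g (A b) = μ * m b) (i : Fin 3) :
    gg A m * g i = dt g (nn A m) * nn A m i := by
  have c0 : cr g (nn A m) 0 = 0 := by
    have h0 := h 0
    have h1 := h 1
    have h2 := h 2
    simp only [dt, nn, Pi.add_apply, Pi.smul_apply, smul_eq_mul, cr0, cr1, cr2] at *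
    linear_combination (m 1 * A 2 0 - m 2 * A 1 0) * h0 + (m 2 * A 0 0 - m 0 * A 2 0) * h1 +
      (m 0 * A 1 0 - m 1 * A 0 0) * h2
  have c1 : cr g (nn A m) 1 = 0 := by
    have h0 := h 0
    have h1 := h 1
    have h2 := h 2
    simp only [dt, nn, Pi.add_apply, Pi.smul_apply, smul_eq_mul, cr0, cr1, cr2] at *
    linear_combination (m 1 * A 2 1 - m 2 * A 1 1) * h0 + (m 2 * A 0 1 - m 0 * A 2 1) * h1 +
      (m 0 * A 1 1 - m 1 * A 0 1) * h2
  have c2 : cr g (nn A m) 2 = 0 := by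
    have h0 := h 0
    have h1 := h 1
    have h2 := h 2
    simp only [dt, nn, Pi.add_apply, Pi.smul_apply, smul_eq_mul, cr0, cr1, cr2] at *
    linear_combination (m 1 * A 2 2 - m 2 * A 1 2) * h0 + (m 2 * A 0 2 - m 0 * A 2 2) * h1 +
      (m 0 * A 1 2 - m 1 * A 0 2) * h2
  rw [gg]
  generalize nn A m = N at *
  simp only [dt, cr0, cr1, cr2] at *
  fin_cases i
  · simp only [Fin.zero_eta]
    linear_combination N 1 * c2 - N 2 * c1
  · simp only [Fin.mk_one]
    linear_combination N 2 * c0 - N 0 * c2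
  · simp only [Fin.reduceFinMk]
    linear_combination N 0 * c1 - N 1 * c0

theorem par_dt (h : ∀ b, dt g (A b) = μ * m b) (v : Fin 3 → ℝ) :
    gg A m * dt g v = dt g (nn A m) * dt (nn A m) v := by
  rw [dt, dt.eq_1 (nn A m)]
  linear_combination v 0 * par h 0 + v 1 * par h 1 + v 2 * par h 2

theorem mu_eq (h : ∀ b, dt g (A b) = μ * m b) (hG : gg A m ≠ 0) :
    gg A m * μ = dt g (nn A m) * dd A := by
  by_contra k
  have e : ∀ b, m b = 0 := fun b => mul_left_cancel₀ (sub_ne_zero.2 k) (by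
    have := par_dt h (A b)
    rw [h, nn_dt] at this
    linear_combination this)
  exact hG (by simp [gg, nn, dt, e])

/-- the tangential trace of `H` -/
theorem trace_eq (h : ∀ b, dt g (A b) = μ * m b) (hG : gg A m ≠ 0)
    (h2 : ∀ e v, dt m e = 0 → dt m v = 0 →
      dt (ap H (ap A e)) (ap A v) + dt g (ap (ap A₂ e) v) = μ * dt (ap m₁ e) v) :
    gg A m * (gg A m * (H 0 0 + H 1 1 + H 2 2) - dt (ap H (nn A m)) (nn A m)) =
      -(dt g (nn A m) * bb A A₂ m m₁) := by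
  have e : ∀ c c', gg A m * dt (ap (fun b => ap H (A b)) (tg m c)) (ap A (tg m c')) =
      dt g (nn A m) * dt (ap (dn A A₂ m m₁) (tg m c)) (ap A (tg m c')) := fun c c' => by
    have e1 : ap (fun b => ap H (A b)) (tg m c) = ap H (ap A (tg m c)) := by
      funext i
      simp only [ap, Pi.add_apply, Pi.smul_apply, smul_eq_mul]
      ring
    rw [i3 _ _ _ _ _ _ (dt_tg m c'), e1]
    linear_combination gg A m * h2 _ _ (dt_tg m c) (dt_tg m c') -
      par_dt h (ap (ap A₂ (tg m c)) (tg m c')) + dt (ap m₁ (tg m c)) (tg m c') * mu_eq h hG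
  rw [← i1, bb, mul_neg, neg_neg, i2, i2]
  simp only [Finset.mul_sum]
  refine Finset.sum_congr rfl fun c _ => Finset.sum_congr rfl fun c' _ => ?_
  linear_combination dt (A c) (A c') * e c c'

/-- the shrinker quantity -/
theorem phi_alg (X : Fin 3 → ℝ) (h : ∀ b, dt g (A b) = μ * m b) (hG : gg A m ≠ 0)
    (hg : dt g g ≠ 0) (h2 : ∀ e v, dt m e = 0 → dt m v = 0 →
      dt (ap H (ap A e)) (ap A v) + dt g (ap (ap A₂ e) v) = μ * dt (ap m₁ e) v) :
    2 * gg A m * (H 0 0 + H 1 1 + H 2 2 - dt (ap H g) g / dt g g - 1 / 2 * dt X g) =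
      -dt g (nn A m) * (dt X (nn A m) + 2 * bb A A₂ m m₁ / gg A m) := by
  have t := trace_eq H m₁ A₂ h hG h2
  have e1 := par_dt h X
  have e2 : gg A m * dt g g = dt g (nn A m) * dt g (nn A m) := by
    rw [par_dt h g, dt_comm (nn A m) g]
  have e3 : gg A m * (gg A m * dt (ap H g) g) =
      dt g (nn A m) * dt g (nn A m) * dt (ap H (nn A m)) (nn A m) := by
    have p0 := par h 0
    have p1 := par h 1
    have p2 := par h 2
    generalize dt g (nn A m) = s at *
    generalize nn A m = N at *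
    generalize gg A m = G at *
    simp only [dt, ap, Pi.add_apply, Pi.smul_apply, smul_eq_mul]
    linear_combination (G * (H 0 0 * g 0 + H 0 1 * g 1 + H 0 2 * g 2) +
      s * (H 0 0 * N 0 + H 1 0 * N 1 + H 2 0 * N 2)) * p0 +
      (G * (H 1 0 * g 0 + H 1 1 * g 1 + H 1 2 * g 2) +
      s * (H 0 1 * N 0 + H 1 1 * N 1 + H 2 1 * N 2)) * p1 +
      (G * (H 2 0 * g 0 + H 2 1 * g 1 + H 2 2 * g 2) +
      s * (H 0 2 * N 0 + H 1 2 * N 1 + H 2 2 * N 2)) * p2
  have e4 : dt (ap H g) g / dt g g = dt (ap H (nn A m)) (nn A m) / gg A m := by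
    rw [div_eq_div_iff hg hG]
    refine mul_left_cancel₀ hG ?_
    linear_combination e3 - dt (ap H (nn A m)) (nn A m) * e2
  rw [e4, dt_comm X g, dt_comm X (nn A m)]
  field_simp
  linear_combination 2 * t - gg A m * e1

end Vale.Agent.P218B
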