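import Vale.Agent.P218B.Desc
import Vale.Agent.P218B.Jac
import Vale.Agent.P218D.Zs
import Vale.Agent.P218D.Lw

/-!
# P218B: the image of a shrinker under a near identity map
-/

noncomputable section

open MeasureTheory Set Filter Topology Module Metric
open scoped ENNReal RealInnerProductSpace

set_option linter.unusedSectionVars false

namespace Vale.Agent.P218B

open Vale.Agent.P218 Vale.Agent.P218.H313 Vale.Agent.P218D
open Vale.Agent.P218.H63 (IsTubeShrinker)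

variable {E : Type*} [NormedAddCommGroup E] [InnerProductSpace ℝ E] [FiniteDimensional ℝ E]

theorem op_le {A : E →L[ℝ] E} {c : ℝ} (c0 : 0 ≤ c) (h : ∀ v u, |⟪A v, u⟫| ≤ c * ‖v‖ * ‖u‖) :
    ‖A‖ ≤ c := A.opNorm_le_bound c0 fun v => by
  have := h v (A v)
  rw [real_inner_self_eq_norm_mul_norm, abs_of_nonneg (by positivity)] at this
  rcases (norm_nonneg (A v)).eq_or_lt with e | e
  · rw [← e]
    positivity
  · exact le_of_mul_le_mul_right this e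

theorem J2.hess {w : E → ℝ} (hw : ContDiff ℝ 2 w) {x : E} {a b c : ℝ} (h : J2 w x a b c) :
    ‖grad w x‖ ≤ b ∧ ‖fderiv ℝ (grad w) x‖ ≤ c :=
  ⟨(norm_grad w x).trans_le h.h1, op_le h.c0 fun v u => by
    rw [inner_fderiv_grad hw]
    exact h.dd v u⟩

theorem j2_of_grad {w : E → ℝ} (hw : ContDiff ℝ 2 w) {x : E} {b c : ℝ} (hb : ‖grad w x‖ ≤ b)
    (hc : ‖fderiv ℝ (grad w) x‖ ≤ c) : J2 w x |w x| b c :=
  ⟨hw.contDiffAt, le_rfl, norm_grad w x ▸ hb, norm_d2_le ((norm_nonneg _).trans hc) fun v u => by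
    rw [← inner_fderiv_grad hw]
    exact (abs_real_inner_le_norm _ _).trans (mul_le_mul_of_nonneg_right
      ((fderiv ℝ (grad w) x).le_of_opNorm_le hc v) (norm_nonneg _))⟩

theorem J2.cl {w w' : E → ℝ} (hw : ContDiff ℝ 2 w) (hw' : ContDiff ℝ 2 w') {x : E} {a b c : ℝ}
    (h : J2 (fun y => w y - w' y) x a b c) : |w x - w' x| ≤ a ∧ ‖grad w x - grad w' x‖ ≤ b ∧
      ‖fderiv ℝ (grad w) x - fderiv ℝ (grad w') x‖ ≤ c := by
  refine ⟨h.h0, ?_, op_le h.c0 fun v u => ?_⟩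
  · have e : grad (fun y => w y - w' y) x = grad w x - grad w' x := grad_unique fun v => by
      rw [((hasD1 hw.contDiffAt).fun_sub (hasD1 hw'.contDiffAt)).fderiv, inner_sub_left, inner_grad,
        inner_grad, sub_apply]
    rw [← e, norm_grad]
    exact h.h1
  · have := h.dd v u
    rw [d2_sub hw.contDiffAt hw'.contDiffAt] at this
    rwa [sub_apply, inner_sub_left, inner_fderiv_grad hw, inner_fderiv_grad hw']

theorem J2.sub_id {Ψ : E → E} {p : E} {a b c : ℝ} (h : J2 (fun y => Ψ y - y) p a b c) :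
    ContDiffAt ℝ 2 Ψ p ∧ (∀ v, ‖fderiv ℝ Ψ p v - v‖ ≤ b * ‖v‖) ∧
      ∀ v v', ‖d2 Ψ p v v'‖ ≤ c * ‖v‖ * ‖v'‖ := by
  have k : ContDiffAt ℝ 2 Ψ p := by simpa using h.cd.add (contDiffAt_id (𝕜 := ℝ) (x := p))
  refine ⟨k, fun v => ?_, fun v v' => ?_⟩
  · have := h.d1 v
    have e : HasFDerivAt (fun y => Ψ y - y) _ p := (hasD1 k).sub (hasFDerivAt_id p)
    rwa [e.fderiv] at this
  · have := h.dd v v'
    rwa [d2_sub k (f' := fun y => y) contDiffAt_id, d2_id, sub_zero] at this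

theorem nearId_of {Ψ : E → E} {a : E → ℝ} {M : ℝ}
    (h : ∀ p, J2 (fun y => Ψ y - y) p (a p) (1 / 2) M) : NearId Ψ M :=
  ⟨contDiff_iff_contDiffAt.2 fun p => (h p).sub_id.1,
    fun p => ContinuousLinearMap.opNorm_le_bound _ (by norm_num) (h p).sub_id.2.1,
    fun p => norm_d2_le (h p).c0 (h p).sub_id.2.2⟩

theorem unif_jet {w : E → ℝ} (hw : ContDiff ℝ 2 w) (ρ : ℝ) : ∃ B, 0 ≤ B ∧ ∀ σ > 0, ∃ η > 0, η ≤ 1 ∧
    ∀ p y, ‖p‖ ≤ ρ → ‖y - p‖ ≤ η → J2 w y B B B ∧ |w p - w y| ≤ σ ∧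
      ‖fderiv ℝ w p - fderiv ℝ w y‖ ≤ σ ∧
        ∀ v v', ‖d2 w p v v' - d2 w y v v'‖ ≤ σ * ‖v‖ * ‖v'‖ := by
  have := FiniteDimensional.proper_real E
  have c := Sd.jt_cont hw
  have K := isCompact_closedBall (0 : E) (ρ + 1)
  obtain ⟨B, hB⟩ := K.exists_bound_of_continuousOn c.continuousOn
  refine ⟨|B|, abs_nonneg _, fun σ σ0 => ?_⟩
  obtain ⟨η, η0, hη⟩ := Metric.uniformContinuousOn_iff_le.1
    (K.uniformContinuousOn_of_continuous c.continuousOn) σ σ0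
  refine ⟨min η 1, by positivity, min_le_right _ _, fun p y hp hy => ?_⟩
  have m1 : y ∈ closedBall (0 : E) (ρ + 1) := mem_closedBall_zero_iff.2 (by
    linarith [norm_le_norm_add_norm_sub' y p, hy.trans (min_le_right _ _)])
  have k := hη p (mem_closedBall_zero_iff.2 (by linarith)) y m1
    (by rw [dist_comm, dist_eq_norm]; exact hy.trans (min_le_left _ _))
  have k' := (hB y m1).trans (le_abs_self B)
  rw [dist_eq_norm] at k
  simp only [Sd.jt, Prod.mk_sub_mk, norm_prod_le_iff] at k k'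
  refine ⟨(j2_of_grad hw k'.2.1 k'.2.2).mono k'.1 le_rfl le_rfl, k.1,
    ContinuousLinearMap.opNorm_le_bound _ σ0.le fun v => ?_, fun v v' => ?_⟩
  · rw [sub_apply, ← inner_grad, ← inner_grad, ← inner_sub_left]
    exact (abs_real_inner_le_norm _ _).trans (mul_le_mul_of_nonneg_right k.2.1 (norm_nonneg _))
  · rw [← inner_fderiv_grad hw, ← inner_fderiv_grad hw, ← inner_sub_left, ← sub_apply]
    exact (abs_real_inner_le_norm _ _).trans (mul_le_mul_of_nonneg_right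
      (ContinuousLinearMap.le_of_opNorm_le _ k.2.2 v) (norm_nonneg _))

/-- the function `w₀ ∘ Ψ⁻¹` -/
abbrev pw (w₀ : E → ℝ) (Ψ : E → E) : E → ℝ := desc Ψ univ w₀

/-- `Ψ` is `C²`-close to the identity on a large ball -/
def Cid (Ψ : E → E) (ρ ω : ℝ) : Prop := ∀ p, ‖p‖ ≤ ρ → J2 (fun y => Ψ y - y) p ω ω ω

theorem Cid.mono {Ψ : E → E} {ρ ω ρ' ω' : ℝ} (h : Cid Ψ ρ ω) (h1 : ρ' ≤ ρ) (h2 : ω ≤ ω') :
    Cid Ψ ρ' ω' := fun p hp => (h p (hp.trans h1)).mono h2 h2 h2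

theorem cl2_pw {w₀ : E → ℝ} (hw : ContDiff ℝ 2 w₀) (M : ℝ) {ω : ℝ} (ω0 : 0 < ω) :
    ∃ η > 0, ∀ Ψ, NearId Ψ M → Cid Ψ η⁻¹ η → Cl2 ω (pw w₀ Ψ) w₀ := by
  obtain ⟨B, B0, hB⟩ := unif_jet hw ω⁻¹
  obtain ⟨σ, σ0, hσ⟩ : ∃ σ > 0, σ * (20 + 16 * |M|) ≤ ω :=
    ⟨ω / (20 + 16 * |M|), by positivity, (div_mul_cancel₀ _ (by positivity)).le⟩
  obtain ⟨τ, τ0, τ1, hτ⟩ := hB σ σ0
  obtain ⟨η, η0, η1, η2, η3⟩ : ∃ η > 0, η ≤ τ / 2 ∧ η ≤ (ω⁻¹ + 1)⁻¹ ∧ η ≤ σ / (B + 1) :=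
    ⟨min (τ / 2) (min (ω⁻¹ + 1)⁻¹ (σ / (B + 1))), by positivity, min_le_left _ _,
      (min_le_right _ _).trans (min_le_left _ _), (min_le_right _ _).trans (min_le_right _ _)⟩
  have η4 : ω⁻¹ + 1 ≤ η⁻¹ := le_inv_of_le_inv₀ η0 η2
  have η5 : B * η ≤ σ := by
    rw [le_div_iff₀ (by positivity)] at η3
    nlinarith
  refine ⟨η, η0, fun Ψ h hc y hy => ?_⟩
  obtain ⟨p, rfl⟩ := h.surjective y
  have k0 : ‖p - Ψ p‖ ≤ τ := by
    have := h.anti p (Ψ p)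
    rw [norm_sub_rev (Ψ p)] at this
    linarith [(hc (Ψ p) (by linarith)).h0]
  obtain ⟨-, k1, k2⟩ := (hc p (by linarith [norm_le_norm_add_norm_sub' p (Ψ p)])).sub_id
  obtain ⟨-, l1, l2, l3⟩ := hτ (Ψ p) p hy k0
  obtain ⟨l0, -⟩ := hτ (Ψ p) (Ψ p) hy (by simpa using τ0.le)
  have cc : ContDiffAt ℝ 2 (fun q => w₀ (Ψ q)) p := (hw.comp h.cd).contDiffAt
  have j : J2 (fun q => w₀ q - w₀ (Ψ q)) p σ (2 * σ) (5 * σ) := by
    refine ⟨hw.contDiffAt.sub cc, (abs_sub_comm (w₀ p) _).trans_le l1,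
      ContinuousLinearMap.opNorm_le_bound _ (by positivity) fun v => ?_,
      norm_d2_le (by positivity) fun v v' => ?_⟩
    · rw [((hasD1 hw.contDiffAt).fun_sub (hasD1 cc)).fderiv, sub_apply,
        d1_comp hw.contDiffAt h.cd.contDiffAt]
      have e : fderiv ℝ w₀ p v - fderiv ℝ w₀ (Ψ p) (fderiv ℝ Ψ p v) =
          -((fderiv ℝ w₀ (Ψ p) - fderiv ℝ w₀ p) v + fderiv ℝ w₀ (Ψ p) (fderiv ℝ Ψ p v - v)) := by
        simp only [sub_apply, map_sub]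
        ring
      rw [e, norm_neg]
      refine (norm_add_le_of_le ((fderiv ℝ w₀ (Ψ p) - fderiv ℝ w₀ p).le_of_opNorm_le l2 v)
        ((l0.d1 _).trans (mul_le_mul_of_nonneg_left (k1 v) B0))).trans ?_
      nlinarith [norm_nonneg v]
    · rw [d2_sub hw.contDiffAt cc, sub_apply, sub_apply, d2_comp hw.contDiffAt h.cd.contDiffAt]
      have e : d2 w₀ p v v' - (d2 w₀ (Ψ p) (fderiv ℝ Ψ p v) (fderiv ℝ Ψ p v') +
          fderiv ℝ w₀ (Ψ p) (d2 Ψ p v v')) = -((d2 w₀ (Ψ p) v v' - d2 w₀ p v v') +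
          d2 w₀ (Ψ p) (fderiv ℝ Ψ p v - v) v' + d2 w₀ (Ψ p) (fderiv ℝ Ψ p v) (fderiv ℝ Ψ p v' - v') +
          fderiv ℝ w₀ (Ψ p) (d2 Ψ p v v')) := by
        simp only [sub_apply, map_sub]
        ring
      rw [e, norm_neg]
      refine (norm_add_le_of_le (norm_add_le_of_le (norm_add_le_of_le (l3 v v') (l0.dd _ _))
        (l0.dd _ _)) (l0.d1 _)).trans ?_
      calc _ ≤ σ * ‖v‖ * ‖v'‖ + B * (η * ‖v‖) * ‖v'‖ + B * (3 / 2 * ‖v‖) * (η * ‖v'‖) +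
            B * (η * ‖v‖ * ‖v'‖) := by
            gcongr
            exacts [k1 v, (fderiv ℝ Ψ p).le_of_opNorm_le (h.hi p) v, k1 v', k2 v v']
        _ = (σ + 7 / 2 * (B * η)) * ‖v‖ * ‖v'‖ := by ring
        _ ≤ _ := by gcongr; linarith
  have e : (fun y => pw w₀ Ψ y - w₀ y) = desc Ψ univ fun q => w₀ q - w₀ (Ψ q) := funext fun y => by
    obtain ⟨q, rfl⟩ := h.surjective y
    rw [pw, h.desc_apply, h.desc_apply]
  have m0 := mul_nonneg σ0.le (abs_nonneg M)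
  have m1 := mul_le_mul_of_nonneg_left (le_abs_self M) σ0.le
  exact J2.cl (h.contDiff_desc hw) hw
    (e ▸ (h.j2_desc j).mono (by nlinarith) (by nlinarith) (by nlinarith))

section push

variable {S : Set E} {w₀ : E → ℝ} {δ C M : ℝ} {Ψ : E → E}

theorem sh2 (h₀ : IsTubeShrinker S w₀ δ C) : ContDiff ℝ 2 w₀ := h₀.smooth.of_le (by norm_num)

theorem sh_j2 (h₀ : IsTubeShrinker S w₀ δ C) {p : E} (hp : |w₀ p| < δ) : J2 w₀ p |w₀ p| 1 C :=
  j2_of_grad (sh2 h₀) (h₀.norm_grad p hp).le (h₀.hess_le p hp)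

theorem sh_mem (h₀ : IsTubeShrinker S w₀ δ C) {p : E} (hp : p ∈ S) : |w₀ p| < δ := by
  rw [(h₀.mem_iff p).1 hp, abs_zero]
  exact h₀.pos

theorem sh_eq (h₀ : IsTubeShrinker S w₀ δ C) : {x | w₀ x = 0} = S :=
  Set.ext fun x => (h₀.mem_iff x).symm

theorem pw_zero (h₀ : IsTubeShrinker S w₀ δ C) (h : NearId Ψ M) : {y | pw w₀ Ψ y = 0} = Ψ '' S := by
  ext y
  obtain ⟨p, rfl⟩ := h.surjective y
  rw [mem_ofPred_eq, pw, h.desc_apply, h.injective.mem_set_image, h₀.mem_iff]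

theorem pw_grad (hw : ContDiff ℝ 2 w₀) (h : NearId Ψ M) (p v : E) :
    ⟪grad (pw w₀ Ψ) (Ψ p), fderiv ℝ Ψ p v⟫ = ⟪grad w₀ p, v⟫ := by
  rw [inner_grad, inner_grad, ← d1_comp (h.contDiff_desc hw).contDiffAt h.cd.contDiffAt]
  simp only [h.desc_apply]

theorem pw_bd (h₀ : IsTubeShrinker S w₀ δ C) (h : NearId Ψ M) {p : E} (hp : |w₀ p| < δ) :
    2 / 3 ≤ ‖grad (pw w₀ Ψ) (Ψ p)‖ ∧ ‖grad (pw w₀ Ψ) (Ψ p)‖ ≤ 2 ∧
      ‖fderiv ℝ (grad (pw w₀ Ψ)) (Ψ p)‖ ≤ 4 * C + 8 * M := by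
  have k := (h.j2_desc (sh_j2 h₀ hp)).hess (h.contDiff_desc (sh2 h₀))
  have n : ‖grad w₀ p‖ = 1 := h₀.norm_grad p hp
  have e := pw_grad (sh2 h₀) h p (grad w₀ p)
  rw [real_inner_self_eq_norm_sq, n] at e
  have := real_inner_le_norm (grad (pw w₀ Ψ) (Ψ p)) (fderiv ℝ Ψ p (grad w₀ p))
  have := mul_le_mul_of_nonneg_left ((fderiv ℝ Ψ p).le_of_opNorm_le (h.hi p) (grad w₀ p))
    (norm_nonneg (grad (pw w₀ Ψ) (Ψ p)))
  rw [n] at this
  exact ⟨by linarith, by linarith [k.1], by linarith [k.2]⟩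

theorem inner_le_phi {w : E → ℝ} {y : E} {b c K : ℝ} (h0 : grad w y ≠ 0) (hb : ‖grad w y‖ ≤ b)
    (hc : ‖fderiv ℝ (grad w) y‖ ≤ c) (hK : |phiS w y| ≤ K) :
    |⟪y, grad w y⟫| ≤ 2 * ((finrank ℝ E + 1) * c + b * K) := by
  have n0 := norm_pos_iff.2 h0
  have e : ⟪y, grad w y⟫ = 2 * (tr (fderiv ℝ (grad w) y) -
      ⟪fderiv ℝ (grad w) y (grad w y), grad w y⟫ / ‖grad w y‖ ^ 2 - ‖grad w y‖ * phiS w y) := by
    rw [phiS]
    field_simp
    ring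
  have k1 := (abs_tr_le (fderiv ℝ (grad w) y)).trans (mul_le_mul_of_nonneg_left hc (by positivity))
  have k2 : |⟪fderiv ℝ (grad w) y (grad w y), grad w y⟫ / ‖grad w y‖ ^ 2| ≤ c := by
    rw [abs_div, abs_of_pos (pow_pos n0 2), div_le_iff₀ (pow_pos n0 2)]
    exact (abs_real_inner_le_norm _ _).trans ((mul_le_mul_of_nonneg_right
      ((fderiv ℝ (grad w) y).le_of_opNorm_le hc _) n0.le).trans_eq (by ring))
  have k3 : |‖grad w y‖ * phiS w y| ≤ b * K := by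
    rw [abs_mul, abs_norm]
    exact mul_le_mul hb hK (abs_nonneg _) (n0.le.trans hb)
  rw [e, abs_le] at *
  constructor <;> linarith [k1.1, k1.2, k2.1, k2.2, k3.1, k3.2]

theorem dfn_pw (h₀ : IsTubeShrinker S w₀ δ C) (h : NearId Ψ M) {K K' : ℝ}
    (hb : ∀ p ∈ S, |⟪Ψ p, grad (pw w₀ Ψ) (Ψ p)⟫| ≤ K ∨ |phiS (pw w₀ Ψ) (Ψ p)| ≤ K)
    (h1 : 2 ≤ K') (h2 : 4 * C + 8 * M ≤ K') (h3 : K ≤ K')
    (h4 : 2 * ((finrank ℝ E + 1) * (4 * C + 8 * M) + 2 * K) ≤ K') :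
    Dfn (pw w₀ Ψ) δ (2 / 3) K' := by
  have k : ∀ y, |pw w₀ Ψ y| < δ → 2 / 3 ≤ ‖grad (pw w₀ Ψ) y‖ ∧ ‖grad (pw w₀ Ψ) y‖ ≤ 2 ∧
      ‖fderiv ℝ (grad (pw w₀ Ψ)) y‖ ≤ 4 * C + 8 * M := fun y hy => by
    obtain ⟨p, rfl⟩ := h.surjective y
    exact pw_bd h₀ h (by rwa [pw, h.desc_apply] at hy)
  refine ⟨h₀.pos, by norm_num, h.contDiff_desc (sh2 h₀), fun y hy => (k y hy).1,
    fun y hy => (k y hy).2.1.trans h1, fun y hy => (k y hy).2.2.trans h2, fun y hy => ?_⟩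
  obtain ⟨p, hp, rfl⟩ : y ∈ Ψ '' S := pw_zero h₀ h ▸ hy
  obtain ⟨k1, k2, k3⟩ := pw_bd h₀ h (sh_mem h₀ hp)
  rcases hb p hp with e | e
  · exact e.trans h3
  · exact (inner_le_phi (norm_pos_iff.1 (by linarith)) k2 k3 e).trans h4

/-- the Jacobian of `Ψ` on the level set of `w₀` -/
abbrev jc (w₀ : E → ℝ) (Ψ : E → E) (p : E) : ℝ := jacT (fderiv ℝ Ψ p) (ℝ ∙ grad w₀ p)ᗮ

theorem sh_strict (h₀ : IsTubeShrinker S w₀ δ C) (p : E) :
    HasStrictFDerivAt w₀ ((1 : ℝ) • innerSL ℝ (grad w₀ p)) p := by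
  have e : (1 : ℝ) • innerSL ℝ (grad w₀ p) = fderiv ℝ w₀ p := by
    ext v
    simp [inner_grad]
  exact e ▸ (sh2 h₀).contDiffAt.hasStrictFDerivAt (by simp)

theorem imm_pw {m : ℕ} (hE : finrank ℝ E = m + 1) (h₀ : IsTubeShrinker S w₀ δ C) (h : NearId Ψ M) :
    Imm m S (fun p => (ℝ ∙ grad w₀ p)ᗮ) Ψ (fderiv ℝ Ψ) :=
  imm_level hE (fun p hp => (h₀.mem_iff p).1 hp) (fun p hp => h₀.norm_grad p (sh_mem h₀ hp))
    (fun p _ => ⟨1, one_ne_zero, sh_strict h₀ p⟩)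
    (fun _ _ => h.cd.contDiffAt.hasStrictFDerivAt (by simp))
    (fun p _ v _ hv => h.loc.inj p (mem_univ _) v hv)
    (continuous_grad ((sh2 h₀).of_le (by norm_num))).continuousOn
    (h.cd.continuous_fderiv (by simp)).continuousOn

end push

section meas

variable [MeasurableSpace E] [BorelSpace E] {m : ℕ}

theorem tubeB_rat (hE : finrank ℝ E = m + 1) {c' K : ℝ} (c0 : 0 < c') (hK : 0 ≤ K) :
    ∃ Cr, ∀ W : E → ℝ, TubeB W c' K → Rat m (hm m W) Cr := by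
  have := FiniteDimensional.proper_real E
  obtain ⟨r, r0, hr⟩ := (zs hE c' K c0 hK).1 1 one_pos
  obtain ⟨T, -, T1, T2⟩ := finite_cover_balls_of_compact (isCompact_closedBall (0 : E) 1)
    (half_pos r0)
  lift T to Finset E using T1
  set A := 16 / 9 * ((1 + 1) * |om m| * 2 ^ m)
  have A0 : 0 ≤ A := by positivity
  refine ⟨(T.card + 1) * A, fun W hW y s s0 s1 => ?_⟩
  have k : ∀ (y : E) s, 0 < s → s ≤ r / 2 → hm m W (closedBall y s) ≤ ENNReal.ofReal (A * s ^ m) :=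
    fun y s s0 s1 => by
    have mk : Measurable fun z : E => ENNReal.ofReal (H313.ker ((2 * s)⁻¹ • (z - y))) :=
      (continuous_ker.comp (by fun_prop)).measurable.ennreal_ofReal
    have k1 := (mul_meas_ge_le_lintegral mk (ENNReal.ofReal (H313.ker (1 / 2 : ℝ)))).trans
      (hr W hW y (2 * s) (by positivity) (by linarith))
    have k2 : closedBall y s ⊆ {z | ENNReal.ofReal (H313.ker (1 / 2 : ℝ)) ≤
        ENNReal.ofReal (H313.ker ((2 * s)⁻¹ • (z - y)))} := fun z hz => by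
      refine ENNReal.ofReal_le_ofReal (ker_anti ?_)
      rw [norm_smul, norm_inv, Real.norm_of_nonneg (by positivity), inv_mul_le_iff₀ (by positivity),
        Real.norm_of_nonneg (by norm_num)]
      linarith [mem_closedBall_iff_norm.1 hz]
    have k3 : H313.ker (1 / 2 : ℝ) = 9 / 16 := by norm_num [H313.ker]
    have k4 := mul_le_mul_right ((mul_le_mul_right (measure_mono k2) _).trans k1)
      (ENNReal.ofReal (16 / 9))
    rw [k3, ← mul_assoc, ← ENNReal.ofReal_mul (by norm_num), ← ENNReal.ofReal_mul (by norm_num),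
      show (16 / 9 * (9 / 16) : ℝ) = 1 by norm_num, ENNReal.ofReal_one, one_mul] at k4
    refine k4.trans (ENNReal.ofReal_le_ofReal ?_)
    rw [mul_pow, mul_assoc (16 / 9), mul_assoc _ (2 ^ m)]
    gcongr
    exact le_abs_self _
  refine ENNReal.toReal_le_of_le_ofReal (by positivity) ?_
  rcases le_total s (r / 2) with h | h
  · refine (k y s s0 h).trans (ENNReal.ofReal_le_ofReal ?_)
    gcongr
    nlinarith [T.card.cast_nonneg (α := ℝ)]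
  · have c1 : closedBall y s ⊆ ⋃ t ∈ T, closedBall (y + t) (r / 2) := fun z hz => by
      obtain ⟨t, t1, t2⟩ := mem_iUnion₂.1 (T2 (show z - y ∈ closedBall (0 : E) 1 from
        mem_closedBall_zero_iff.2 ((mem_closedBall_iff_norm.1 hz).trans s1)))
      refine mem_iUnion₂.2 ⟨t, t1, mem_closedBall_iff_norm.2 ?_⟩
      rw [← sub_sub]
      exact (mem_ball_iff_norm.1 t2).le
    refine ((measure_mono c1).trans (measure_biUnion_finset_le _ _)).trans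
      ((Finset.sum_le_card_nsmul _ _ _ fun t _ => k _ _ (half_pos r0) le_rfl).trans ?_)
    rw [nsmul_eq_mul, ← ENNReal.ofReal_natCast, ← ENNReal.ofReal_mul (by positivity),
      mul_assoc _ A]
    refine ENNReal.ofReal_le_ofReal ?_
    gcongr
    linarith

theorem dfn_tail (hT : TAIL E m) (hE : finrank ℝ E = m + 1) {δ a η : ℝ} (C : ℝ) (δ0 : 0 < δ)
    (a0 : 0 < a) (η0 : 0 < η) : ∃ C', 0 ≤ C' ∧ ∀ w : E → ℝ, Dfn w δ a C →
      IsLocallyFiniteMeasure (hm m w) ∧ ∀ R, 0 ≤ R → ∫⁻ x in {x | R ≤ ‖x‖}, ENNReal.ofReal (rho x)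
        ∂(hm m w) ≤ ENNReal.ofReal (C' * Real.exp (-(1 - η) * R ^ 2 / 4)) := by
  obtain ⟨c, K, c0, -, f, s1, -⟩ := sd E δ a C δ0 a0
  obtain ⟨Cr, hr⟩ := tubeB_rat hE c0 (abs_nonneg K)
  obtain ⟨C', C0, hC⟩ := hT Cr η η0
  refine ⟨C', C0, fun w hw => ?_⟩
  have e : hm m (f w) = hm m w := by simp only [hm, (s1 w hw).2.1]
  have t := (s1 w hw).1.mono c0 le_rfl (le_abs_self K)
  have l := (zs hE c |K| c0 (abs_nonneg K)).2.1 _ t
  exact e ▸ ⟨l, hC _ inferInstance (hr _ t)⟩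

variable {S : Set E} {w₀ : E → ℝ} {δ C M : ℝ} {Ψ : E → E}

theorem sh_meas (h₀ : IsTubeShrinker S w₀ δ C) : MeasurableSet S :=
  sh_eq h₀ ▸ (isClosed_eq (sh2 h₀).continuous continuous_const).measurableSet

/-- the area formula for the image -/
theorem lint_pw (hE : finrank ℝ E = m + 1) (h₀ : IsTubeShrinker S w₀ δ C) (h : NearId Ψ M)
    {t : Set E} (ht : MeasurableSet t) {f : E → ℝ≥0∞} (hf : Measurable f) :
    ∫⁻ y in t, f y ∂(hm m (pw w₀ Ψ)) =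
      ∫⁻ p in Ψ ⁻¹' t, f (Ψ p) * ENNReal.ofReal (jc w₀ Ψ p) ∂(hm m w₀) := by
  have mt := h.cd.continuous.measurable ht
  rw [hm, hm, pw_zero h₀ h, sh_eq h₀, Measure.restrict_restrict ht, Measure.restrict_restrict mt,
    ← (imm_pw hE h₀ h).lintegral_eq (mt.inter (sh_meas h₀)) inter_subset_right h.injective.injOn hf,
    image_preimage_inter]

end meas

end Vale.Agent.P218B
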