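import Vale.Agent.P218B.Desc
import Vale.Agent.P218T.Model

/-!
# P218B: extension of vector fields given on the ends; statements
-/

noncomputable section

open Set Filter Topology
open scoped RealInnerProductSpace Real

namespace Vale.Agent.P218B

open Vale.Agent.P218T

/-- cylindrical coordinates `((z, θ), r)` -/
def cyc (Q : E3 ≃ₗᵢ[ℝ] E3) (q : (ℝ × ℝ) × ℝ) : E3 :=
  Q !₂[q.2 * Real.cos q.1.2, q.2 * Real.sin q.1.2, q.1.1]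

/-- conical coordinates `((z, θ), t)` -/
def coc (γ n : ℝ → E3) (q : (ℝ × ℝ) × ℝ) : E3 := q.1.1 • (γ q.1.2 + q.2 • n q.1.2)

/-- periodicity in the angle -/
def Per {F : Type*} (u : ℝ × ℝ → F) : Prop := ∀ z θ, u (z, θ + 2 * π) = u (z, θ)

/-- equality modulo `2π` in the angle -/
def Eqm (y y' : ℝ × ℝ) : Prop := y'.1 = y.1 ∧ ∃ k : ℤ, y'.2 = y.2 + k * (2 * π)

/-- the narrow cone around the unit vector `e`, above the height `a` -/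
def Cn (e : E3) (τ a : ℝ) : Set E3 := {x | a ≤ ⟪e, x⟫ ∧ ‖x - ⟪e, x⟫ • e‖ ≤ τ * ⟪e, x⟫}

/-- the narrow neighbourhood of a cone, above the height `a` -/
def Ck (γ n : ℝ → E3) (τ a : ℝ) : Set E3 := coc γ n '' {q | a ≤ q.1.1 ∧ |q.2| ≤ τ}

/-- the function `u` seen at the scale `z` -/
def scl (u : ℝ × ℝ → E3) (z : ℝ) (y : ℝ × ℝ) : E3 := z⁻¹ • u (z * y.1, y.2)

/-- extension from a cylinder: `χ` is a cutoff, `cd` are the coordinates `(z, θ)` -/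
def XCY : Prop := ∃ C : ℝ, 0 ≤ C ∧ ∀ Q : E3 ≃ₗᵢ[ℝ] E3, ∃ (χ : E3 → ℝ) (cd : E3 → ℝ × ℝ),
  (∀ x, |χ x| ≤ 1 ∧ (cd x).1 = ⟪axis Q, x⟫ ∧ (χ x ≠ 0 → ‖x - ⟪axis Q, x⟫ • axis Q‖ ≤ 2)) ∧
  (∀ y r, |r - √2| ≤ 1 / 4 → χ (cyc Q (y, r)) = 1 ∧ Eqm y (cd (cyc Q (y, r)))) ∧
  ∀ u : ℝ × ℝ → E3, Per u → ∀ x ω, (∀ θ, J2 u (⟪axis Q, x⟫, θ) ω ω ω) →
    J2 (fun y => χ y • u (cd y)) x (C * ω) (C * ω) (C * ω)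

/-- a rotation which depends on the height, cut off outside a narrow cone -/
def XRO : Prop := ∀ τ a b : ℝ, 0 < τ → τ ≤ 1 → 1 ≤ a → ∃ C : ℝ, 0 ≤ C ∧ ∀ e : E3, ‖e‖ = 1 →
  ∃ κ : E3 → ℝ, (∀ x, |κ x| ≤ 1) ∧ (∀ x ∈ Cn e τ a, κ x = 1) ∧
    (∀ x, a ≤ ⟪e, x⟫ → κ x ≠ 0 → x ∈ Cn e (2 * τ) a) ∧
    ∀ (B : ℝ → E3 →L[ℝ] E3) (Y : E3 → E3) (x : E3) (ω : ℝ), (∀ z, z ≤ a → B z = 0) →
      (∀ z, b ≤ z → B z = B b) → (∀ z, J2 B z ω ω ω) → J2 Y x 1 1 1 →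
      J2 (fun y => κ y • B ⟪e, y⟫ (y + Y y)) x (C * ω * (1 + ‖x‖)) (C * ω) (C * ω)

/-- extension from a cone -/
def XCO : Prop := ∀ γ n : ℝ → E3, IsLink γ n → ∃ τ₀ : ℝ, 0 < τ₀ ∧
  (∀ τ a, 0 < a → IsClosed (Ck γ n τ a)) ∧
  ∀ τ, 0 < τ → τ ≤ τ₀ → ∃ C : ℝ, 0 ≤ C ∧ ∃ (χ : E3 → ℝ) (cd : E3 → ℝ × ℝ),
    (∀ x, |χ x| ≤ 1 ∧ (cd x).1 ≤ ‖x‖ ∧
      (χ x ≠ 0 → ∃ t, |t| ≤ 2 * τ ∧ x = coc γ n (cd x, t))) ∧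
    (∀ y t, 0 < y.1 → |t| ≤ 2 * τ → Eqm y (cd (coc γ n (y, t))) ∧
      (|t| ≤ τ → χ (coc γ n (y, t)) = 1)) ∧
    ∀ u : ℝ × ℝ → E3, Per u → (∀ y, y.1 ≤ 1 → u y = 0) → ∀ x ω, 0 ≤ ω →
      (∀ z θ, 1 ≤ z → z ≤ ‖x‖ → J2 (scl u z) (1, θ) ω ω ω) →
      J2 (fun y => χ y • u (cd y)) x (C * ω * ‖x‖) (C * ω) (C * ω)

/-- far out, the ends lie in disjoint narrow cones -/
def SEP : Prop := ∀ (S : Set E3) (w : E3 → ℝ) (δ C : ℝ) (n₁ n₂ : ℕ)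
  (Q : Fin n₁ → E3 ≃ₗᵢ[ℝ] E3) (f : Fin n₁ → ℝ × ℝ → ℝ) (γ n : Fin n₂ → ℝ → E3)
  (g : Fin n₂ → ℝ × ℝ → ℝ) (R : ℝ), Ended S w δ C Q f γ n g R →
  (∀ A : ℝ, ∃ a : ℝ, ∀ p ∈ S, a ≤ ‖p‖ → (∃ j y, A ≤ y.1 ∧ p = cylPt (Q j) (f j) y) ∨
    ∃ l y, A ≤ y.1 ∧ p = conePt (γ l) (n l) (g l) y) ∧
  ∃ τ : ℝ, 0 < τ ∧ τ ≤ 1 ∧
    (∀ j j', j ≠ j' → Disjoint (Cn (axis (Q j)) τ 1) (Cn (axis (Q j')) τ 1)) ∧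
    (∀ j l, Disjoint (Cn (axis (Q j)) τ 1) (Ck (γ l) (n l) τ 1)) ∧
    ∀ l l', l ≠ l' → Disjoint (Ck (γ l) (n l) τ 1) (Ck (γ l') (n l') τ 1)

end Vale.Agent.P218B
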