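import Vale.Agent.P218B.Spec

/-!
# P218B, row XCY: extension from a cylinder (helper24)
-/

set_option linter.all false

noncomputable section

open Set Filter Topology Complex Metric
open scoped RealInnerProductSpace Real

namespace Vale.Agent.P218B

open Vale.Agent.P218T

namespace Xcy

/-- a cutoff function of an annulus -/
lemma cut : ∃ (χ : ℂ → ℝ) (K : ℝ), (∀ w, J2 χ w K K K) ∧ (∀ w, |χ w| ≤ 1) ∧
    (∀ w, χ w ≠ 0 → ‖w‖ ∈ Icc (1 : ℝ) 2) ∧ ∀ w, |‖w‖ - √2| ≤ 1 / 4 → χ w = 1 := by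
  let f : ContDiffBump (0 : ℂ) := ⟨7 / 4, 2, by norm_num, by norm_num⟩
  let g : ContDiffBump (0 : ℂ) := ⟨1, 9 / 8, by norm_num, by norm_num⟩
  have c : ContDiff ℝ 2 fun w => f w * (1 - g w) := f.contDiff.mul (contDiff_const.sub g.contDiff)
  have s : HasCompactSupport fun w => f w * (1 - g w) := f.hasCompactSupport.mul_right
  have c1 := c.fderiv_right (m := 1) (by norm_num)
  obtain ⟨a, ha⟩ := c.continuous.bounded_above_of_compact_support s
  obtain ⟨b, hb⟩ := c1.continuous.bounded_above_of_compact_support (s.fderiv ℝ)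
  obtain ⟨d, hd⟩ := (c1.continuous_fderiv one_ne_zero).bounded_above_of_compact_support
    ((s.fderiv ℝ).fderiv ℝ)
  refine ⟨_, max a (max b d), fun w => ⟨c.contDiffAt, (ha w).trans (le_max_left _ _),
    (hb w).trans (by simp), (hd w).trans (by simp)⟩, fun w => ?_, fun w h => ⟨?_, ?_⟩,
    fun w h => ?_⟩
  · rw [abs_of_nonneg (mul_nonneg f.nonneg (sub_nonneg.2 g.le_one))]
    exact mul_le_one₀ f.le_one (sub_nonneg.2 g.le_one) (sub_le_self _ g.nonneg)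
  · by_contra! n
    exact h (by rw [g.one_of_mem_closedBall (mem_closedBall_zero_iff.2 n.le), sub_self, mul_zero])
  · by_contra! n
    exact h (by rw [f.zero_of_le_dist (by simpa using n.le), zero_mul])
  · have h1 : (11 / 8 : ℝ) ≤ √2 := Real.le_sqrt_of_sq_le (by norm_num)
    have h2 : √2 ≤ (3 / 2 : ℝ) := Real.sqrt_le_iff.2 (by norm_num)
    rw [abs_le] at h
    rw [f.one_of_mem_closedBall (mem_closedBall_zero_iff.2 (show ‖w‖ ≤ 7 / 4 by linarith)),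
      g.zero_of_le_dist (by rw [dist_zero_right]; show 9 / 8 ≤ ‖w‖; linarith), sub_zero, mul_one]

/-- the complex coordinate -/
lemma coord (Q : E3 ≃ₗᵢ[ℝ] E3) : ∃ ζ : E3 →L[ℝ] ℂ, ‖ζ‖ ≤ 1 ∧
    (∀ x, ‖x - ⟪axis Q, x⟫ • axis Q‖ = ‖ζ x‖) ∧
    ∀ y r, ζ (cyc Q (y, r)) = r * (cos y.2 + sin y.2 * I) := by
  let ζ : E3 →L[ℝ] ℂ := ((EuclideanSpace.proj 0).smulRight 1 + (EuclideanSpace.proj 1).smulRight I) ∘L
    (Q.symm.toContinuousLinearEquiv : E3 →L[ℝ] E3)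
  have h : ∀ x, ‖ζ (Q x)‖ ^ 2 = x 0 ^ 2 + x 1 ^ 2 := fun x => by
    simpa [ζ, Complex.sq_norm] using normSq_add_mul_I (x 0) (x 1)
  refine ⟨ζ, ζ.opNorm_le_bound one_pos.le fun x => ?_, fun x => ?_, fun y r => ?_⟩
  · obtain ⟨x, rfl⟩ := Q.surjective x
    refine abs_le_of_sq_le_sq' ?_ (by positivity) |>.2
    rw [h, one_mul, Q.norm_map, EuclideanSpace.real_norm_sq_eq, Fin.sum_univ_three]
    nlinarith [sq_nonneg (x 2)]
  · obtain ⟨x, rfl⟩ := Q.surjective x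
    refine (sq_eq_sq₀ (norm_nonneg _) (norm_nonneg _)).1 ?_
    rw [h, axis, Q.inner_map_map, ← map_smul, ← map_sub, Q.norm_map,
      EuclideanSpace.real_norm_sq_eq, Fin.sum_univ_three]
    simp [PiLp.inner_apply, Fin.sum_univ_three]
  · simp [ζ, cyc, mul_add, mul_assoc]

end Xcy

open Xcy in
/-- **Row XCY.** -/
theorem xcy : XCY := by
  obtain ⟨χ, K, k1, k2, k3, k4⟩ := cut
  obtain ⟨a, b, c, hl⟩ : ∃ a b c, J2 (fun w => (log w).im) 1 a b c := ⟨_, _, _, .self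
    (imCLM.contDiff.contDiffAt.comp _ ((contDiffAt_log one_mem_slitPlane).restrict_scalars ℝ))⟩
  have := (k1 0).a0
  have := hl.a0
  have := hl.b0
  have := hl.c0
  refine ⟨K * (1 + 2 * (1 + b) + (1 + b) ^ 2 + c), by positivity, fun Q => ?_⟩
  obtain ⟨ζ, z1, z2, z3⟩ := coord Q
  have ax : ‖innerSL ℝ (axis Q)‖ ≤ 1 := by
    simp [axis, EuclideanSpace.norm_eq, Fin.sum_univ_three]
  refine ⟨fun x => χ (ζ x), fun x => (⟪axis Q, x⟫, arg (ζ x)),
    fun x => ⟨k2 _, rfl, fun h => z2 x ▸ (k3 _ h).2⟩, fun y r h => ?_, fun u hu x ω h => ?_⟩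
  · have r0 : 0 < r := by
      have : (1 : ℝ) ≤ √2 := Real.one_le_sqrt.2 one_le_two
      linarith [(abs_le.1 h).1]
    refine ⟨k4 _ (by rwa [z3, norm_mul, norm_cos_add_sin_mul_I, mul_one, norm_real,
      Real.norm_of_nonneg r0.le]), ?_, ⌊(π - y.2) / (2 * π)⌋, ?_⟩
    · simp [axis, cyc, PiLp.inner_apply, Fin.sum_univ_three]
    · simp only
      rw [z3, ← sub_eq_iff_eq_add', arg_mul_cos_add_sin_mul_I_sub r0, mul_comm]
  have := (h 0).a0
  by_cases hx : ‖ζ x‖ ∈ Icc (1 : ℝ) 2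
  · have x0 : ζ x ≠ 0 := norm_pos_iff.1 (one_pos.trans_le hx.1)
    have n : ‖(ζ x)⁻¹ • ζ‖ ≤ 1 := by
      rw [norm_smul, norm_inv]
      exact mul_le_one₀ (inv_le_one_of_one_le₀ hx.1) (norm_nonneg _) z1
    have h1 := (J2.const (arg (ζ x)) x).add (J2.comp (φ := fun w => (log w).im)
      (by simpa [x0] using hl) ((J2.clm ((ζ x)⁻¹ • ζ) x).mono le_rfl n le_rfl))
    have h2 := ((J2.clm (innerSL ℝ (axis Q)) x).mono (a' := ‖x‖ + (‖arg (ζ x)‖ + a))
      (b' := 1 + b) (c' := c) (by nlinarith [norm_nonneg x, norm_nonneg (arg (ζ x))])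
      (by linarith) (by linarith)).prodMk
        (h1.mono (by linarith [norm_nonneg x]) (by linarith) (by linarith))
    refine ((((k1 _).comp ((J2.clm ζ x).mono le_rfl z1 le_rfl)).smul
      (J2.comp (φ := u) (h _) h2)).congr ?_).mono ?_ ?_ ?_
    · filter_upwards [ζ.continuous.continuousAt.eventually_ne x0] with y hy
      obtain ⟨k, hk⟩ := Real.Angle.angle_eq_iff_two_pi_dvd_sub.1
        (show ((arg (ζ y) : ℝ) : Real.Angle) = (arg (ζ x) + arg ((ζ x)⁻¹ * ζ y) : ℝ) by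
          rw [Real.Angle.coe_add, ← arg_mul_coe_angle x0 (mul_ne_zero (inv_ne_zero x0) hy),
            mul_inv_cancel_left₀ x0])
      rw [sub_eq_iff_eq_add', mul_comm (2 * π)] at hk
      rw [hk, log_im]
      exact congrArg _
        ((show Function.Periodic (fun θ => u (⟪axis Q, y⟫, θ)) _ from hu _).int_mul k _)
    all_goals
      nlinarith [mul_nonneg (mul_nonneg ‹0 ≤ K› ‹0 ≤ ω›) ‹0 ≤ b›,
        mul_nonneg (mul_nonneg ‹0 ≤ K› ‹0 ≤ ω›) ‹0 ≤ c›, mul_nonneg ‹0 ≤ K› ‹0 ≤ ω›,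
        mul_nonneg (mul_nonneg ‹0 ≤ K› ‹0 ≤ ω›) (sq_nonneg b)]
  · refine (J2.zero ?_).mono (by positivity) (by positivity) (by positivity)
    filter_upwards [ζ.continuous.norm.continuousAt.eventually
      (isClosed_Icc.isOpen_compl.mem_nhds hx)] with y hy
    rw [by_contra fun q => hy (k3 _ q), zero_smul]

end Vale.Agent.P218B

end
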